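import Crest.Agent.PVb.R129.TyDefs
import Crest.Agent.PVb.R129.Prob
import Crest.Agent.PVb.R129.Ty
import Crest.Agent.PVb.R129.Ker

-- ▼ part PVb/R129/GDefs
section

/-! # The random telescope of digit graphs (definitions; do not edit)

Nodes `i : ℤ`, position `pos i = |i| + 1`, stage `stg i`, vertices `(i, γ :: κ)` with `γ ∈ Gs i`, `|κ| = stg i - 1`.
The pair `i` joins the nodes `i, i+1` through the ports `ports i`; `tp i` is its fibre side, `sub i` its block side. -/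

set_option autoImplicit false
open scoped BigOperators

namespace Crest.Agent.R129

structure Par where
  n : ℕ
  C : ℕ
  J : ℕ
  j₀ : ℕ
  prime : n.Prime
  hC : 1 ≤ C
  hJ : 1000 ≤ J
  oddJ : Odd J
  evj : Even j₀
  hj : 1000 ≤ j₀
  lo_n : C * 2 ^ (J + 2) ≤ n
  hi_n : n ≤ C * 2 ^ (J + 3)
  h4 : n + 1 ≤ 4 ^ J

namespace Par
variable (P : Par)

instance : Fact P.n.Prime := ⟨P.prime⟩

abbrev F : Type := ZMod P.n
abbrev V : Type := ℤ × List P.F
/-- `inl (i,κ,t)`: shift of the block `(κ,t)` of pair `i`; `inr (i,x,t)`: label of the edge at vertex `(i,x)`, port `t` -/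
abbrev Co : Type := (ℤ × List P.F × P.F) ⊕ (ℤ × List P.F × P.F)

def pos (i : ℤ) : ℕ := i.natAbs + 1
def stg (i : ℤ) : ℕ := P.j₀ + pos i / P.J
def top (i : ℤ) : Prop := Even (pos i % P.J)
instance (i : ℤ) : Decidable (P.top i) := inferInstanceAs (Decidable (Even _))
def sz (i : ℤ) : ℕ := P.C * 2 ^ (pos i % P.J)
def em (i : ℤ) (x : ℕ) : P.F := if 0 ≤ i then ((P.sz i + x : ℕ) : P.F) else -((P.sz i + x : ℕ) : P.F)
def Gs (i : ℤ) : Finset P.F := (Finset.range (P.sz i)).image (P.em i)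
def Nd (i : ℤ) : Finset (List P.F) :=
  (P.Gs i ×ˢ lists Finset.univ (P.stg i - 1)).image fun p => p.1 :: p.2
def node (i : ℤ) : Finset P.V := (P.Nd i).image fun x => (i, x)
def lo (i : ℤ) : ℤ := if 0 ≤ i then i else i + 1
def hi (i : ℤ) : ℤ := if 0 ≤ i then i + 1 else i
def cross (i : ℤ) : Prop := pos (lo i) % P.J = P.J - 1
instance (i : ℤ) : Decidable (P.cross i) := inferInstanceAs (Decidable (_ = _))
def sub (i : ℤ) : ℤ := if P.cross i then lo i else if P.top (lo i) then hi i else lo i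
def tp (i : ℤ) : ℤ := if P.cross i then hi i else if P.top (lo i) then lo i else hi i
def lvl (i : ℤ) : ℕ := P.stg (P.tp i)
def ms (i : ℤ) : ℕ := if P.cross i then 1 else P.sz (P.sub i)
def mt (i : ℤ) : ℕ := P.sz (P.tp i)
def mb (i : ℤ) : ℕ := max (P.ms i) (P.mt i)
def es (i : ℤ) (x : ℕ) : P.F := if P.cross i then 0 else P.em (P.sub i) x
def Blk (i : ℤ) : Finset (List P.F) :=
  if P.cross i then P.Nd (lo i) else lists Finset.univ (P.lvl i - 1)
def ports (i : ℤ) : Finset P.F := Finset.univ.filter fun t => (t.val < P.n / 2 ↔ Even i)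
def pairOf (i : ℤ) (t : P.F) : ℤ := if t ∈ P.ports i then i else i - 1
/-- the type string of a vertex -/
def ty (v : P.V) : List P.F := if P.top v.1 then v.2 else v.2.tail
def six (i : ℤ) (w : List P.F) : P.F := if P.cross i then 0 else w.headD 0
def Match (i : ℤ) (sh x y : ℕ) : Prop := x < P.ms i ∧ y < P.mt i ∧ (x + y + sh) % P.mb i = 0
/-- the top digits of `U` (fibre side) and `W` (block side) are matched by the shift `sh` -/
def MatchV (i : ℤ) (sh : ℕ) (U W : P.V) : Prop :=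
  ∃ x y, P.Match i sh x y ∧ P.six i W.2 = P.es i x ∧ U.2.headD 0 = P.em (P.tp i) y
def gir (j : ℕ) : ℕ := 2 * (j / 16)

variable {A : Type}

abbrev Val (A : Type) : Type := ℕ × (A × ZMod 4)
abbrev Om (A : Type) : Type := P.Co → Val A

def Rel (ω : P.Om A) (t : P.F) (κ : List P.F) (γ β : P.F) : Prop :=
  (∃ i x y, t ∈ P.ports i ∧ κ ∈ P.Blk i ∧ P.Match i (ω (.inl (i, κ, t))).1 x y ∧
    γ = P.es i x ∧ β = P.em (P.tp i) y) ∨
  (γ = 0 ∧ β = 0 ∧ ¬ ∃ i, P.cross i ∧ t ∈ P.ports i ∧ κ ∈ P.Blk i)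

noncomputable def psi (ω : P.Om A) (t : P.F) (κ : List P.F) : Equiv.Perm P.F := extP (P.Rel ω t κ)

def Good (ω : P.Om A) (v : P.V) : Prop :=
  ¬ Spec (P.psi ω) (gir (P.stg v.1)) (P.ty v) ∧ ¬ ZeroRun P.j₀ v.2

/-- `U`, `W` are good vertices of the pair `i` in the same block of port `t` -/
def SameBlk (ω : P.Om A) (i : ℤ) (t : P.F) (U W : P.V) : Prop :=
  t ∈ P.ports i ∧ U ∈ P.node (P.tp i) ∧ W ∈ P.node (P.sub i) ∧ P.Good ω U ∧ P.Good ω W ∧
    tau (P.psi ω) t U.2 = P.ty W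

def PE (ω : P.Om A) (on : ℤ → Prop) (i : ℤ) (t : P.F) (U W : P.V) : Prop :=
  on i ∧ P.SameBlk ω i t U W ∧ P.MatchV i (ω (.inl (i, P.ty W, t))).1 U W

def Adj (ω : P.Om A) (on : ℤ → Prop) (t : P.F) (v v' : P.V) : Prop :=
  ∃ i, P.PE ω on i t v v' ∨ P.PE ω on i t v' v

open Classical in
noncomputable def nbr (ω : P.Om A) (on : ℤ → Prop) (u : P.V) (t : P.F) : Option P.V :=
  if h : Even u.1 ∧ ∃ w, P.Adj ω on t u w then some h.2.choose else none

/-! ### laws -/

noncomputable def shLaw [One A] (m : ℕ) : Val A →₀ ℝ :=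
  ∑ s ∈ Finset.range m, Finsupp.single (s, ((1 : A), (0 : ZMod 4))) ((m : ℝ)⁻¹)

/-- keep the phase with probability `ρ`, otherwise add a uniform phase -/
noncomputable def damp (ρ : ℝ) (ν : (A × ZMod 4) →₀ ℝ) : (A × ZMod 4) →₀ ℝ :=
  ρ • ν + ∑ ω' : ZMod 4, ((1 - ρ) / 4) • ν.mapDomain fun x => (x.1, x.2 + ω')

noncomputable def kap (i : ℤ) : ℝ :=
  (P.ports i).card * Real.sqrt ((P.node i).card * (P.node (i + 1)).card) /
    (P.mb i * (P.n : ℝ) ^ (P.lvl i - 1))
noncomputable def lam : ℝ := P.n / (16 * Real.sqrt P.C)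
noncomputable def rho (i : ℤ) : ℝ := P.lam / P.kap i

noncomputable def law [One A] (μ : ℤ → (A × ZMod 4) →₀ ℝ) : P.Co → Val A →₀ ℝ
  | .inl c => shLaw (P.mb c.1)
  | .inr c => (damp (P.rho (P.pairOf c.1 c.2.2)) (μ (P.pairOf c.1 c.2.2))).mapDomain fun y => (0, y)

/-! ### the fluctuation of a pair -/

open Classical in
/-- centred coefficient of the pair `i` from the `H`-vertex `u` to `w`; the block structure is read from `ω₀`, the shift and the
label from `ω` -/
noncomputable def cH (μ : ℤ → (A × ZMod 4) →₀ ℝ) (i : ℤ) (ω₀ ω : P.Om A) (u : P.V) (t : P.F) (w : P.V) (f : A) : ℂ :=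
  if Even u.1 ∧ (P.SameBlk ω₀ i t u w ∨ P.SameBlk ω₀ i t w u) then
    (if ((P.SameBlk ω₀ i t u w ∧ P.MatchV i (ω (.inl (i, P.ty w, t))).1 u w) ∨
          (P.SameBlk ω₀ i t w u ∧ P.MatchV i (ω (.inl (i, P.ty u, t))).1 w u)) ∧
        (ω (.inr (u.1, u.2, t))).2.1 = f then ph (ω (.inr (u.1, u.2, t))).2.2 else 0) -
      ((P.rho i / P.mb i : ℝ) : ℂ) * qco (μ i) f
  else 0

noncomputable def fluct [Group A] (μ : ℤ → (A × ZMod 4) →₀ ℝ) (i : ℤ) (ω : P.Om A) :
    L2 (A × P.V) →L[ℂ] L2 (A × P.V) :=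
  kop fun p q => ∑ t ∈ P.ports i, P.cH μ i ω ω p.2 t q.2 (p.1 * q.1⁻¹)

/-- shifts and labels of the pair `i` -/
def DT (i : ℤ) : Finset P.Co :=
  ((lists Finset.univ (P.lvl i - 1) ×ˢ P.ports i).image fun c => Sum.inl (i, c.1, c.2)) ∪
  (((P.node i ∪ P.node (i + 1)) ×ˢ P.ports i).image fun c => Sum.inr (c.1.1, c.1.2, c.2))

/-- all coordinates of size `≤ B` -/
noncomputable def Dep (B : ℕ) : Finset P.Co :=
  let s : Finset (ℤ × List P.F × P.F) := Finset.Icc (-(B : ℤ)) B ×ˢ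
    ((Finset.range (B + 1)).biUnion fun k => lists Finset.univ k) ×ˢ Finset.univ
  s.image Sum.inl ∪ s.image Sum.inr

/-- all labels of size `≤ B` -/
noncomputable def DG (B : ℕ) : Finset P.Co := (P.Dep B).filter fun c => c.isRight

end Par
end Crest.Agent.R129
private theorem rz_3de3980c9a : type_of% @_root_.Crest.Agent.R129.Par.law.eq_1 := @_root_.Crest.Agent.R129.Par.law.eq_1 -- L118
end

-- ▼ part PVb/R129/GNode
section

/-! # Arithmetic of nodes and pairs, laws (task R129/GNode). Statements frozen; add lemmas freely. -/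

set_option autoImplicit false
open scoped BigOperators

namespace Crest.Agent.R129
namespace Par
variable (P : Par)

theorem J_pos : 0 < P.J := by have := P.hJ; omega

theorem mod_lt (i : ℤ) : pos i % P.J < P.J := Nat.mod_lt _ P.J_pos

theorem sz_pos (i : ℤ) : 0 < P.sz i := by
  have := P.hC
  unfold sz; positivity

theorem C_le_sz (i : ℤ) : P.C ≤ P.sz i := by
  exact Nat.le_mul_of_pos_right _ (by positivity)

theorem sz_le (i : ℤ) : 8 * P.sz i ≤ P.n := by
  refine le_trans ?_ P.lo_n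
  have h : 2 ^ (pos i % P.J + 3) ≤ 2 ^ (P.J + 2) :=
    Nat.pow_le_pow_right (by norm_num) (by have := P.mod_lt i; omega)
  calc 8 * P.sz i = P.C * 2 ^ (pos i % P.J + 3) := by unfold sz; ring
    _ ≤ _ := Nat.mul_le_mul_left _ h

theorem cast_inj {a b : ℕ} (ha : a < P.n) (hb : b < P.n) (h : (a : P.F) = (b : P.F)) : a = b := by
  have := congrArg ZMod.val h
  rwa [ZMod.val_cast_of_lt ha, ZMod.val_cast_of_lt hb] at this

theorem cast_ne_zero {a : ℕ} (h0 : 0 < a) (ha : a < P.n) : (a : P.F) ≠ 0 := fun h =>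
  h0.ne' (P.cast_inj ha (h0.trans ha) (by rw [h, Nat.cast_zero]))

theorem em_inj (i : ℤ) {x y : ℕ} (hx : x < P.sz i) (hy : y < P.sz i) (h : P.em i x = P.em i y) : x = y := by
  have h1 := P.sz_le i
  unfold em at h
  have : P.sz i + x = P.sz i + y := by
    split_ifs at h
    · exact P.cast_inj (by omega) (by omega) h
    · exact P.cast_inj (by omega) (by omega) (neg_injective h)
  omega

theorem em_ne_zero (i : ℤ) {x : ℕ} (hx : x < P.sz i) : P.em i x ≠ 0 := by
  have h1 := P.sz_le i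
  have := P.cast_ne_zero (a := P.sz i + x) (by omega) (by omega)
  unfold em
  split_ifs
  · exact this
  · exact neg_ne_zero.2 this

theorem mod_le_of {i i' : ℤ} {x y : ℕ} (hx : x < P.sz i) (e : P.sz i + x = P.sz i' + y) :
    pos i' % P.J ≤ pos i % P.J := by
  by_contra hc
  have h : 2 ^ (pos i % P.J + 1) ≤ 2 ^ (pos i' % P.J) :=
    Nat.pow_le_pow_right (by norm_num) (by omega)
  have h2 : 2 * P.sz i ≤ P.sz i' := by
    calc 2 * P.sz i = P.C * 2 ^ (pos i % P.J + 1) := by unfold sz; ring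
      _ ≤ _ := Nat.mul_le_mul_left _ h
  omega

/-- the intervals `±[C 2^a, C 2^(a+1))` are disjoint in `ZMod n`; stage, `a` and the sign determine `i` -/
theorem eq_of_em_eq {i i' : ℤ} {x y : ℕ} (hs : P.stg i = P.stg i') (hx : x < P.sz i) (hy : y < P.sz i')
    (h : P.em i x = P.em i' y) : i = i' := by
  have h1 := P.sz_le i
  have h2 := P.sz_le i'
  have key : P.sz i + x = P.sz i' + y → pos i = pos i' := by
    intro e
    have a1 := P.mod_le_of hx e
    have a2 := P.mod_le_of hy e.symm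
    have a3 : pos i / P.J = pos i' / P.J := by unfold stg at hs; omega
    rw [← Nat.div_add_mod (pos i) P.J, ← Nat.div_add_mod (pos i') P.J, a3, le_antisymm a2 a1]
  have opp : ((P.sz i + x : ℕ) : P.F) + ((P.sz i' + y : ℕ) : P.F) ≠ 0 := by
    rw [← Nat.cast_add]
    exact P.cast_ne_zero (by omega) (by omega)
  unfold em at h
  split_ifs at h with c1 c2 c2
  · have := key (P.cast_inj (by omega) (by omega) h)
    unfold pos at this; omega
  · exact (opp (by rw [h, neg_add_cancel])).elim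
  · exact (opp (by rw [← h, add_neg_cancel])).elim
  · have := key (P.cast_inj (by omega) (by omega) (neg_injective h))
    unfold pos at this; omega

theorem card_Gs (i : ℤ) : (P.Gs i).card = P.sz i := by
  rw [Gs, Finset.card_image_of_injOn, Finset.card_range]
  intro x hx y hy h
  exact P.em_inj i (by simpa using hx) (by simpa using hy) h

theorem one_le_stg (i : ℤ) : 1 ≤ P.stg i := by
  have := P.hj
  exact le_trans (by omega) (Nat.le_add_right P.j₀ _)

theorem mem_Nd {i : ℤ} {x : List P.F} : x ∈ P.Nd i ↔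
    ∃ y κ, y < P.sz i ∧ κ.length + 1 = P.stg i ∧ x = P.em i y :: κ := by
  have := P.one_le_stg i
  simp only [Nd, Gs, Finset.mem_image, Finset.mem_product, Finset.mem_range, mem_lists,
    Finset.mem_univ, implies_true, and_true]
  constructor
  · rintro ⟨⟨_, κ⟩, ⟨⟨y, hy, rfl⟩, h⟩, rfl⟩
    exact ⟨y, κ, hy, by simp only at h; omega, rfl⟩
  · rintro ⟨y, κ, hy, h, rfl⟩
    exact ⟨(_, κ), ⟨⟨y, hy, rfl⟩, by simp only; omega⟩, rfl⟩

theorem mem_node {i : ℤ} {v : P.V} : v ∈ P.node i ↔ v.1 = i ∧ v.2 ∈ P.Nd i := by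
  simp only [node, Finset.mem_image]
  constructor
  · rintro ⟨x, hx, rfl⟩; exact ⟨rfl, hx⟩
  · rintro ⟨rfl, h⟩; exact ⟨v.2, h, rfl⟩

theorem card_Nd (i : ℤ) : (P.Nd i).card = P.sz i * P.n ^ (P.stg i - 1) := by
  rw [Nd, Finset.card_image_of_injective, Finset.card_product, card_Gs, card_lists,
    Finset.card_univ, ZMod.card]
  intro p q h
  exact Prod.ext (List.cons.inj h).1 (List.cons.inj h).2

theorem card_node (i : ℤ) : (P.node i).card = P.sz i * P.n ^ (P.stg i - 1) := by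
  rw [node, Finset.card_image_of_injective _ (Prod.mk_right_injective i), card_Nd]

theorem node_nonempty (i : ℤ) : (P.node i).Nonempty := by
  rw [← Finset.card_pos, card_node]
  exact Nat.mul_pos (P.sz_pos i) (pow_pos P.prime.pos _)

theorem node_disjoint (i j : ℤ) (h : i ≠ j) : Disjoint (P.node i) (P.node j) := by
  refine Finset.disjoint_left.2 fun v h1 h2 => h ?_
  rw [← (P.mem_node.1 h1).1, (P.mem_node.1 h2).1]

theorem sum_node' {M : Type} [AddCommMonoid M] (i : ℤ) (f : P.V → M) :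
    ∑ v ∈ P.node i, f v = ∑ x ∈ P.Nd i, f (i, x) := by
  rw [node, Finset.sum_image fun x _ y _ h => Prod.mk_right_injective i h]

theorem sum_node {M : Type} [AddCommMonoid M] (i : ℤ) (f : P.V → M) : ∑ v ∈ P.node i, f v =
    ∑ y ∈ Finset.range (P.sz i), ∑ κ ∈ lists Finset.univ (P.stg i - 1), f (i, P.em i y :: κ) := by
  rw [sum_node', Nd, Finset.sum_image, Finset.sum_product, Gs, Finset.sum_image]
  · intro x hx y hy h
    exact P.em_inj i (by simpa using hx) (by simpa using hy) h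
  · intro p _ q _ h
    exact Prod.ext (List.cons.inj h).1 (List.cons.inj h).2

theorem j₀_le_stg (i : ℤ) : P.j₀ ≤ P.stg i := by
  exact Nat.le_add_right _ _

theorem natAbs_le (i : ℤ) : i.natAbs + 1 ≤ P.J * (P.stg i - P.j₀ + 1) := by
  have h1 := Nat.div_add_mod (pos i) P.J
  have h2 := P.mod_lt i
  rw [stg, Nat.add_sub_cancel_left, Nat.mul_add, Nat.mul_one]
  change pos i ≤ _
  omega

theorem pos_hi (i : ℤ) : pos (hi i) = pos (lo i) + 1 := by
  unfold pos hi lo
  split_ifs <;> omega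

theorem sub_tp (i : ℤ) : (P.sub i = i ∧ P.tp i = i + 1) ∨ (P.sub i = i + 1 ∧ P.tp i = i) := by
  unfold sub tp hi lo
  split_ifs <;> simp

theorem hi_of_cross {i : ℤ} (h : P.cross i) :
    pos (hi i) % P.J = 0 ∧ pos (hi i) / P.J = pos (lo i) / P.J + 1 := by
  have h0 := P.J_pos
  have h1 := Nat.div_add_mod (pos (lo i)) P.J
  have e : pos (hi i) = P.J * (pos (lo i) / P.J + 1) := by
    rw [pos_hi, Nat.mul_add]; unfold cross at h; omega
  rw [e, Nat.mul_mod_right, Nat.mul_div_cancel_left _ h0]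
  exact ⟨rfl, rfl⟩

theorem hi_of_not_cross {i : ℤ} (h : ¬ P.cross i) :
    pos (hi i) % P.J = pos (lo i) % P.J + 1 ∧ pos (hi i) / P.J = pos (lo i) / P.J := by
  have h0 := P.J_pos
  have h1 := Nat.div_add_mod (pos (lo i)) P.J
  have h2 := P.mod_lt (lo i)
  have h3 : pos (lo i) % P.J + 1 < P.J := by unfold cross at h; omega
  have e : pos (hi i) = pos (lo i) % P.J + 1 + P.J * (pos (lo i) / P.J) := by
    rw [pos_hi]; omega
  rw [e, Nat.add_mul_mod_self_left, Nat.add_mul_div_left _ _ h0, Nat.mod_eq_of_lt h3,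
    Nat.div_eq_of_lt h3, Nat.zero_add]
  exact ⟨rfl, rfl⟩

theorem top_tp (i : ℤ) : P.top (P.tp i) := by
  unfold tp
  split_ifs with h1 h2
  · rw [top, (P.hi_of_cross h1).1]; exact Even.zero
  · exact h2
  · rw [top, (P.hi_of_not_cross h1).1, Nat.even_add_one]; exact h2

theorem of_cross {i : ℤ} (h : P.cross i) : P.sub i = lo i ∧ P.top (P.sub i) ∧
    P.stg (P.sub i) + 1 = P.lvl i ∧ P.mt i = P.C ∧ P.n ≤ 16 * P.sz (P.sub i) := by
  obtain ⟨h1, h2⟩ := P.hi_of_cross h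
  have h0 := P.J_pos
  have e1 : P.sub i = lo i := if_pos h
  have e2 : P.tp i = hi i := if_pos h
  have h3 : pos (lo i) % P.J = P.J - 1 := h
  refine ⟨e1, ?_, ?_, ?_, ?_⟩
  · rw [e1, top, h3]
    exact Nat.Odd.sub_odd P.oddJ odd_one
  · rw [e1, lvl, e2, stg, stg, h2, add_assoc]
  · rw [mt, e2, sz, h1, pow_zero, mul_one]
  · rw [e1, sz, h3]
    refine P.hi_n.trans_eq ?_
    rw [show P.J + 3 = P.J - 1 + 4 by omega]; ring

theorem of_not_cross {i : ℤ} (h : ¬ P.cross i) : ¬ P.top (P.sub i) ∧ P.stg (P.sub i) = P.lvl i ∧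
    (P.ms i = 2 * P.mt i ∨ P.mt i = 2 * P.ms i) := by
  obtain ⟨h1, h2⟩ := P.hi_of_not_cross h
  have e0 : P.ms i = P.sz (P.sub i) := if_neg h
  rw [e0, mt, lvl]
  unfold sub tp
  rw [if_neg h, if_neg h]
  split_ifs with h3
  · refine ⟨?_, by rw [stg, stg, h2], Or.inl (by rw [sz, sz, h1]; ring)⟩
    rw [top, h1, Nat.even_add_one]; exact not_not.2 h3
  · exact ⟨h3, by rw [stg, stg, h2], Or.inr (by rw [sz, sz, h1]; ring)⟩

theorem stg_lo_le (i : ℤ) : P.stg (lo i) ≤ P.stg i ∧ P.stg (lo i) ≤ P.stg (i + 1) ∧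
    P.stg i ≤ P.stg (lo i) + 1 ∧ P.stg (i + 1) ≤ P.stg (lo i) + 1 := by
  have h : P.stg (lo i) ≤ P.stg (hi i) ∧ P.stg (hi i) ≤ P.stg (lo i) + 1 := by
    unfold stg
    by_cases h : P.cross i
    · rw [(P.hi_of_cross h).2]; omega
    · rw [(P.hi_of_not_cross h).2]; omega
  unfold lo hi at *
  split_ifs at h ⊢ <;> omega

/-- `H`-nodes (even `i`) have odd levels -/
theorem parity (i : ℤ) : Even i ↔ (P.top i ↔ Odd (P.stg i)) := by
  have h1 := Nat.div_add_mod (pos i) P.J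
  obtain ⟨k, hk⟩ := P.oddJ
  obtain ⟨l, hl⟩ := P.evj
  rw [top, stg, ← Int.natAbs_even, hl]
  generalize pos i % P.J = a at *
  generalize pos i / P.J = q at *
  rw [hk, Nat.add_mul, Nat.mul_assoc, pos] at h1
  simp only [Nat.even_iff, Nat.odd_iff]
  omega

theorem length_ty {v : P.V} (hv : v ∈ P.node v.1) :
    (Even v.1 ↔ Odd (P.ty v).length) ∧ P.ty v = pre v.2 (P.ty v).length ∧
      (P.ty v).length ≤ P.stg v.1 ∧ P.stg v.1 ≤ (P.ty v).length + 1 := by
  obtain ⟨y, κ, -, h1, h2⟩ := P.mem_Nd.1 (P.mem_node.1 hv).2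
  have hp := P.parity v.1
  unfold ty
  split_ifs with h
  · have e : v.2.length = P.stg v.1 := by rw [h2, List.length_cons, h1]
    refine ⟨?_, (pre_length _).symm, e.le, by omega⟩
    rw [hp, e]; simp [h]
  · rw [h2, List.tail_cons]
    refine ⟨?_, ?_, by omega, by omega⟩
    · rw [hp, ← h1, Nat.odd_add_one]; simp [h]
    · simp [pre]

theorem ty_mem_Blk {i : ℤ} {W : P.V} (hW : W ∈ P.node (P.sub i)) : P.ty W ∈ P.Blk i := by
  obtain ⟨e, hW2⟩ := P.mem_node.1 hW
  unfold ty Blk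
  rw [e]
  by_cases h : P.cross i
  · obtain ⟨h1, h2, -⟩ := P.of_cross h
    rw [if_pos h, if_pos h2, ← h1]; exact hW2
  · obtain ⟨h1, h2, -⟩ := P.of_not_cross h
    obtain ⟨y, κ, -, h3, h4⟩ := P.mem_Nd.1 hW2
    rw [if_neg h, if_neg h1, h4, List.tail_cons, mem_lists]
    exact ⟨by omega, fun _ _ => Finset.mem_univ _⟩

theorem length_of_mem_Blk {i : ℤ} {κ : List P.F} (h : κ ∈ P.Blk i) : κ.length + 1 = P.lvl i := by
  unfold Blk at h
  split_ifs at h with c
  · obtain ⟨h1, -, h2, -⟩ := P.of_cross c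
    obtain ⟨y, κ', -, h3, rfl⟩ := P.mem_Nd.1 h
    rw [List.length_cons, h3, ← h2, h1]
  · have := P.one_le_stg (P.tp i)
    rw [(mem_lists.1 h).1, lvl]; omega

/-- the block side is `Blk i × range (ms i)` -/
theorem sum_sub {M : Type} [AddCommMonoid M] (i : ℤ) (f : P.V → M) : ∑ W ∈ P.node (P.sub i), f W =
    ∑ κ ∈ P.Blk i, ∑ x ∈ Finset.range (P.ms i),
      f (P.sub i, if P.cross i then κ else P.es i x :: κ) := by
  unfold Blk ms es
  by_cases h : P.cross i
  · simp only [if_pos h, Finset.sum_range_one]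
    rw [sum_node', (P.of_cross h).1]
  · simp only [if_neg h]
    rw [sum_node, Finset.sum_comm, (P.of_not_cross h).2.1]

theorem card_Blk (i : ℤ) : P.n ^ (P.lvl i - 1) ≤ 16 * (P.Blk i).card ∧
    (P.node (P.sub i)).card = P.ms i * (P.Blk i).card := by
  refine ⟨?_, ?_⟩
  · unfold Blk
    split_ifs with h
    · obtain ⟨h1, -, h2, -, h3⟩ := P.of_cross h
      have := P.one_le_stg (lo i)
      rw [h1] at h2 h3
      rw [card_Nd, ← Nat.mul_assoc, show P.lvl i - 1 = P.stg (lo i) - 1 + 1 by omega, pow_succ']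
      exact Nat.mul_le_mul_right _ h3
    · rw [card_lists, Finset.card_univ, ZMod.card]; omega
  · rw [Finset.card_eq_sum_ones, sum_sub]
    simp [mul_comm]

theorem es_inj (i : ℤ) {x y : ℕ} (hx : x < P.ms i) (hy : y < P.ms i) (h : P.es i x = P.es i y) : x = y := by
  unfold ms at hx hy
  unfold es at h
  split_ifs at hx hy h
  · omega
  · exact P.em_inj _ hx hy h

theorem six_mem {i : ℤ} {W : P.V} (hW : W ∈ P.node (P.sub i)) : ∃ x, x < P.ms i ∧ P.six i W.2 = P.es i x := by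
  unfold ms six es
  split_ifs
  · exact ⟨0, one_pos, rfl⟩
  · obtain ⟨y, κ, h1, -, h2⟩ := P.mem_Nd.1 (P.mem_node.1 hW).2
    exact ⟨y, h1, by rw [h2]; rfl⟩

theorem eq_of_six {i : ℤ} {W W' : P.V} (hW : W ∈ P.node (P.sub i)) (hW' : W' ∈ P.node (P.sub i))
    (h : P.ty W = P.ty W') (h' : P.six i W.2 = P.six i W'.2) : W = W' := by
  obtain ⟨e, hW2⟩ := P.mem_node.1 hW
  obtain ⟨e', hW2'⟩ := P.mem_node.1 hW'
  refine Prod.ext (e.trans e'.symm) ?_
  unfold ty at h
  unfold six at h'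
  rw [e, e'] at h
  by_cases c : P.cross i
  · simpa only [if_pos (P.of_cross c).2.1] using h
  · obtain ⟨y, κ, -, -, h2⟩ := P.mem_Nd.1 hW2
    obtain ⟨y', κ', -, -, h2'⟩ := P.mem_Nd.1 hW2'
    simp only [if_neg (P.of_not_cross c).1, if_neg c, h2, h2', List.tail_cons, List.headD_cons]
      at h h'
    rw [h2, h2', h, h']

end Par
end Crest.Agent.R129
end

-- ▼ part PVb/R129/GLaw
section

/-! # Ports, matchings, laws (task R129/GLaw). Statements frozen; add lemmas freely. -/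

set_option autoImplicit false
open scoped BigOperators

namespace Crest.Agent.R129
namespace Par
variable (P : Par)

theorem gl_mem_ports {i : ℤ} {t : P.F} : t ∈ P.ports i ↔ (t.val < P.n / 2 ↔ Even i) := by
  simp [ports]

theorem gl_mb_pos (i : ℤ) : 0 < P.mb i := lt_of_lt_of_le (P.sz_pos _) (le_max_right _ _)

theorem mem_ports_iff {i j : ℤ} {t : P.F} (h : t ∈ P.ports i) : t ∈ P.ports j ↔ (Even i ↔ Even j) := by
  rw [gl_mem_ports] at h ⊢
  rw [h]

theorem pairOf_eq {i j : ℤ} {t : P.F} (h : t ∈ P.ports i) (hj : j = i ∨ j = i + 1) : P.pairOf j t = i := by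
  unfold pairOf
  rcases hj with rfl | rfl
  · rw [if_pos h]
  · rw [if_neg, add_sub_cancel_right]
    rw [P.mem_ports_iff h, Int.even_add_one]
    tauto

theorem card_ports (i : ℤ) : P.n ≤ 4 * (P.ports i).card ∧ (P.ports i).card ≤ P.n := by
  have h2 := P.prime.two_le
  have hc : (Finset.univ.filter fun t : P.F => t.val < P.n / 2).card = P.n / 2 := by
    conv_rhs => rw [← Finset.card_range (P.n / 2)]
    refine Finset.card_nbij' (fun t => t.val) (fun x => (x : P.F)) ?_ ?_ ?_ ?_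
    · intro t ht
      simpa using ht
    · intro x hx
      have hx' : x < P.n / 2 := by simpa using hx
      simp only [Finset.coe_filter, Finset.mem_univ, true_and, Set.mem_ofPred_eq]
      rwa [ZMod.val_cast_of_lt (by omega)]
    · intro t _
      exact ZMod.natCast_zmod_val t
    · intro x hx
      have hx' : x < P.n / 2 := by simpa using hx
      exact ZMod.val_cast_of_lt (by omega)
  have hu : (Finset.univ : Finset P.F).card = P.n := by rw [Finset.card_univ, ZMod.card]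
  refine ⟨?_, (Finset.card_le_univ _).trans (ZMod.card _).le⟩
  have h3 := Finset.card_filter_add_card_filter_not (s := (Finset.univ : Finset P.F))
    (fun t : P.F => t.val < P.n / 2)
  rw [hc, hu] at h3
  unfold ports
  by_cases hi : Even i
  · simp only [hi, iff_true]
    omega
  · simp only [hi, iff_false]
    omega

theorem match_unique (i : ℤ) {sh x y x' y' : ℕ} (h : P.Match i sh x y) (h' : P.Match i sh x' y') :
    x = x' ↔ y = y' := by
  obtain ⟨a1, a2, a3⟩ := h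
  obtain ⟨b1, b2, b3⟩ := h'
  have e : x + y + sh ≡ x' + y' + sh [MOD P.mb i] := a3.trans b3.symm
  have e' := Nat.ModEq.add_right_cancel' sh e
  constructor
  · rintro rfl
    exact (Nat.ModEq.add_left_cancel' x e').eq_of_lt_of_lt (a2.trans_le (le_max_right _ _))
      (b2.trans_le (le_max_right _ _))
  · rintro rfl
    exact (Nat.ModEq.add_right_cancel' y e').eq_of_lt_of_lt (a1.trans_le (le_max_left _ _))
      (b1.trans_le (le_max_left _ _))

/-- exactly one shift in `range (mb i)` matches `x` with `y` -/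
theorem card_match (i : ℤ) {x y : ℕ} (hx : x < P.ms i) (hy : y < P.mt i) :
    ∃! sh, sh < P.mb i ∧ P.Match i sh x y := by
  have h0 := P.gl_mb_pos i
  refine ⟨(P.mb i - (x + y) % P.mb i) % P.mb i, ⟨Nat.mod_lt _ h0, hx, hy, ?_⟩, ?_⟩
  · rw [Nat.add_mod_mod, ← Nat.mod_add_mod, Nat.add_sub_cancel' (Nat.mod_lt _ h0).le, Nat.mod_self]
  · rintro sh ⟨a1, -, -, a2⟩
    have a3 : (x + y + (P.mb i - (x + y) % P.mb i) % P.mb i) % P.mb i = 0 := by
      rw [Nat.add_mod_mod, ← Nat.mod_add_mod, Nat.add_sub_cancel' (Nat.mod_lt _ h0).le,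
        Nat.mod_self]
    have e : x + y + sh ≡ x + y + (P.mb i - (x + y) % P.mb i) % P.mb i [MOD P.mb i] :=
      a2.trans a3.symm
    exact (Nat.ModEq.add_left_cancel' _ e).eq_of_lt_of_lt a1 (Nat.mod_lt _ h0)

theorem lam_pos : 0 < P.lam := by
  have h1 : (0 : ℝ) < P.n := by exact_mod_cast P.prime.pos
  have h2 : (0 : ℝ) < P.C := by exact_mod_cast P.hC
  unfold lam
  positivity

theorem gl_card_pair (i : ℤ) : (P.node i).card * (P.node (i + 1)).card =
    (P.node (P.sub i)).card * (P.node (P.tp i)).card := by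
  rcases P.sub_tp i with ⟨h1, h2⟩ | ⟨h1, h2⟩
  · rw [h1, h2]
  · rw [h1, h2, mul_comm]

theorem gl_key (i : ℤ) : (P.mb i * P.n ^ (P.lvl i - 1)) ^ 2 ≤
    16 * P.C * ((P.node i).card * (P.node (i + 1)).card) := by
  rw [gl_card_pair, card_node, card_node]
  have hC := P.hC
  by_cases h : P.cross i
  · obtain ⟨-, -, h3, h4, h5⟩ := P.of_cross h
    have h6 : P.mb i = P.C := by
      unfold mb ms
      rw [if_pos h, h4]
      exact max_eq_right hC
    have h7 : P.sz (P.tp i) = P.C := h4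
    have h8 : P.stg (P.tp i) = P.lvl i := rfl
    have h9 := P.j₀_le_stg (P.sub i)
    have h10 := P.hj
    have e : P.lvl i - 1 = (P.stg (P.sub i) - 1) + 1 := by omega
    rw [h6, h7, h8, e]
    generalize P.stg (P.sub i) - 1 = k
    calc (P.C * P.n ^ (k + 1)) ^ 2 = P.n * (P.C * P.C * P.n ^ k * P.n ^ (k + 1)) := by ring
      _ ≤ (16 * P.sz (P.sub i)) * (P.C * P.C * P.n ^ k * P.n ^ (k + 1)) :=
          Nat.mul_le_mul_right _ h5
      _ = _ := by ring
  · obtain ⟨-, h3, h4⟩ := P.of_not_cross h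
    have h6 : P.sz (P.sub i) = P.ms i := by unfold ms; rw [if_neg h]
    have h7 : P.sz (P.tp i) = P.mt i := rfl
    have h8 : P.stg (P.tp i) = P.lvl i := rfl
    have h9 : P.mb i ^ 2 = 2 * (P.ms i * P.mt i) := by
      unfold mb
      rcases h4 with h4 | h4
      · rw [max_eq_left (by omega), h4]; ring
      · rw [max_eq_right (by omega), h4]; ring
    rw [h6, h7, h8, h3, mul_pow, h9]
    calc 2 * (P.ms i * P.mt i) * (P.n ^ (P.lvl i - 1)) ^ 2
        ≤ (16 * P.C) * (P.ms i * P.mt i) * (P.n ^ (P.lvl i - 1)) ^ 2 :=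
          Nat.mul_le_mul_right _ (Nat.mul_le_mul_right _ (by omega))
      _ = _ := by ring

theorem gl_lam_le_kap (i : ℤ) : P.lam ≤ P.kap i := by
  have h1 : (0 : ℝ) < P.n := by exact_mod_cast P.prime.pos
  have h2 : (0 : ℝ) < P.C := by exact_mod_cast P.hC
  have h3 : (0 : ℝ) < P.mb i := by exact_mod_cast P.gl_mb_pos i
  have h4 : (P.n : ℝ) ≤ 4 * (P.ports i).card := by exact_mod_cast (P.card_ports i).1
  have h5 : ((P.mb i : ℝ) * (P.n : ℝ) ^ (P.lvl i - 1)) ^ 2 ≤
      16 * P.C * ((P.node i).card * (P.node (i + 1)).card) := by exact_mod_cast P.gl_key i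
  have h6 : (P.mb i : ℝ) * (P.n : ℝ) ^ (P.lvl i - 1) ≤
      4 * Real.sqrt P.C * Real.sqrt ((P.node i).card * (P.node (i + 1)).card) := by
    refine (pow_le_pow_iff_left₀ (by positivity) (by positivity) two_ne_zero).1 ?_
    rw [mul_pow (4 * Real.sqrt P.C), mul_pow 4, Real.sq_sqrt h2.le, Real.sq_sqrt (by positivity)]
    linarith
  unfold lam kap
  rw [div_le_div_iff₀ (by positivity) (by positivity)]
  calc (P.n : ℝ) * (P.mb i * (P.n : ℝ) ^ (P.lvl i - 1)) ≤ (4 * (P.ports i).card) *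
        (4 * Real.sqrt P.C * Real.sqrt ((P.node i).card * (P.node (i + 1)).card)) :=
        mul_le_mul h4 h6 (by positivity) (by positivity)
    _ = _ := by ring

/-- `kap i = |ports| √(|node sub| |node tp|)/(mb n^(lvl-1))` is `|ports|/√2` or `|ports| √(sz (sub i)/(n C))` -/
theorem rho_mem (i : ℤ) : 0 < P.rho i ∧ P.rho i ≤ 1 := by
  have h1 := P.lam_pos
  have h2 := P.gl_lam_le_kap i
  unfold rho
  exact ⟨div_pos h1 (h1.trans_le h2), (div_le_one (h1.trans_le h2)).2 h2⟩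


variable {A : Type}
theorem gl_sum_eq {X : Type} (ν : X →₀ ℝ) (φ : X → ℝ) :
    ν.sum (fun x p => p * φ x) = Finsupp.linearCombination ℝ φ ν := by
  rw [Finsupp.linearCombination_apply]; rfl

theorem gl_damp_apply (ρ : ℝ) (ν : (A × ZMod 4) →₀ ℝ) (a : A) (ω : ZMod 4) :
    damp ρ ν (a, ω) = ρ * ν (a, ω) + (1 - ρ) / 4 * ∑ ω' : ZMod 4, ν (a, ω') := by
  unfold damp
  rw [Finsupp.add_apply, Finsupp.smul_apply, Finsupp.finsetSum_apply, smul_eq_mul,
    ← Equiv.sum_comp (Equiv.subLeft ω) (fun ω' => ν (a, ω')), Finset.mul_sum]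
  congr 1
  refine Finset.sum_congr rfl fun ω' _ => ?_
  rw [Finsupp.smul_apply, smul_eq_mul]
  congr 1
  have hinj : Function.Injective fun x : A × ZMod 4 => (x.1, x.2 + ω') := fun x y e =>
    Prod.ext (Prod.ext_iff.1 e).1 (add_right_cancel (Prod.ext_iff.1 e).2)
  have := Finsupp.mapDomain_apply hinj ν (a, ω - ω')
  simpa using this

theorem gl_sum_damp (ρ : ℝ) (ν : (A × ZMod 4) →₀ ℝ) (φ : A → ℝ) :
    (damp ρ ν).sum (fun x p => p * φ x.1) = ν.sum fun x p => p * φ x.1 := by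
  rw [gl_sum_eq (damp ρ ν) fun x => φ x.1, gl_sum_eq ν fun x => φ x.1]
  unfold damp
  rw [map_add, map_smul, map_sum]
  simp only [map_smul, Finsupp.linearCombination_mapDomain, Function.comp_def, smul_eq_mul]
  rw [Finset.sum_const, Finset.card_univ, ZMod.card, nsmul_eq_mul]
  push_cast
  ring

theorem isLaw_damp {ρ : ℝ} (h0 : 0 ≤ ρ) (h1 : ρ ≤ 1) {ν : (A × ZMod 4) →₀ ℝ} (h : IsLaw ν) :
    IsLaw (damp ρ ν) := by
  refine ⟨fun x => ?_, ?_⟩
  · rw [show x = (x.1, x.2) from rfl, gl_damp_apply]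
    have := h.1 (x.1, x.2)
    have h2 : 0 ≤ ∑ ω' : ZMod 4, ν (x.1, ω') := Finset.sum_nonneg fun _ _ => h.1 _
    have h3 : 0 ≤ 1 - ρ := by linarith
    positivity
  · have := gl_sum_damp ρ ν fun _ => 1
    simp only [mul_one] at this
    rw [this, h.2]

theorem sum_damp (ρ : ℝ) (ν : (A × ZMod 4) →₀ ℝ) (φ : A → ℝ) :
    (damp ρ ν).sum (fun x p => p * φ x.1) = ν.sum fun x p => p * φ x.1 := gl_sum_damp ρ ν φ

theorem qco_damp (ρ : ℝ) (ν : (A × ZMod 4) →₀ ℝ) (f : A) : qco (damp ρ ν) f = ρ * qco ν f := by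
  unfold qco
  simp only [gl_damp_apply]
  push_cast
  simp only [add_mul, Finset.sum_add_distrib, mul_assoc]
  rw [← Finset.mul_sum, ← Finset.mul_sum, ← Finset.mul_sum, sum_ph, mul_zero, mul_zero, add_zero]

theorem supp_damp {ρ : ℝ} {ν : (A × ZMod 4) →₀ ℝ} {x : A × ZMod 4} (h : x ∈ (damp ρ ν).support) :
    ∃ ω, (x.1, ω) ∈ ν.support := by
  by_contra hc
  push Not at hc
  simp only [Finsupp.notMem_support_iff] at hc
  rw [Finsupp.mem_support_iff, show x = (x.1, x.2) from rfl, gl_damp_apply] at h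
  simp [hc] at h

theorem isLaw_law [One A] {μ : ℤ → (A × ZMod 4) →₀ ℝ} (h : ∀ i, IsLaw (μ i)) (c : P.Co) :
    IsLaw (P.law μ c) := by
  rcases c with c | c
  · have h0 : (0 : ℝ) < P.mb c.1 := by exact_mod_cast P.gl_mb_pos c.1
    change IsLaw (shLaw (P.mb c.1))
    unfold shLaw
    refine ⟨fun x => ?_, ?_⟩
    · rw [Finsupp.finsetSum_apply]
      refine Finset.sum_nonneg fun s _ => ?_
      classical
      rw [Finsupp.single_apply]
      split_ifs <;> positivity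
    · have := gl_sum_eq (∑ s ∈ Finset.range (P.mb c.1),
        Finsupp.single (s, ((1 : A), (0 : ZMod 4))) ((P.mb c.1 : ℝ)⁻¹)) fun _ => 1
      simp only [mul_one] at this
      rw [this, map_sum]
      simp only [Finsupp.linearCombination_single, smul_eq_mul, mul_one]
      rw [Finset.sum_const, Finset.card_range, nsmul_eq_mul]
      exact mul_inv_cancel₀ h0.ne'
  · have hd := isLaw_damp (P.rho_mem (P.pairOf c.1 c.2.2)).1.le (P.rho_mem _).2
      (h (P.pairOf c.1 c.2.2))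
    change IsLaw (Finsupp.mapDomain _ _)
    refine ⟨fun x => ?_, ?_⟩
    · by_cases hx : x ∈ Set.range fun y : A × ZMod 4 => ((0 : ℕ), y)
      · obtain ⟨y, rfl⟩ := hx
        rw [Finsupp.mapDomain_apply (fun a b e => (Prod.ext_iff.1 e).2)]
        exact hd.1 y
      · rw [Finsupp.mapDomain_of_notMem_range _ _ hx]
    · rw [Finsupp.sum_mapDomain_index (fun _ => rfl) (fun _ _ _ => rfl)]
      exact hd.2

theorem mem_Dep {B : ℕ} {i : ℤ} {x : List P.F} {t : P.F} (hi : i.natAbs ≤ B) (hx : x.length ≤ B) :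
    Sum.inl (i, x, t) ∈ P.Dep B ∧ Sum.inr (i, x, t) ∈ P.Dep B ∧ Sum.inr (i, x, t) ∈ P.DG B := by
  have hs : (i, x, t) ∈ Finset.Icc (-(B : ℤ)) B ×ˢ
      ((Finset.range (B + 1)).biUnion fun k => lists Finset.univ k) ×ˢ
        (Finset.univ : Finset P.F) := by
    refine Finset.mem_product.2 ⟨Finset.mem_Icc.2 ⟨by simp only; omega, by simp only; omega⟩,
      Finset.mem_product.2 ⟨Finset.mem_biUnion.2 ⟨x.length, Finset.mem_range.2 (by omega),
        mem_lists.2 ⟨rfl, fun _ _ => Finset.mem_univ _⟩⟩, Finset.mem_univ _⟩⟩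
  have h2 : Sum.inr (i, x, t) ∈ P.Dep B :=
    Finset.mem_union_right _ (Finset.mem_image_of_mem _ hs)
  exact ⟨Finset.mem_union_left _ (Finset.mem_image_of_mem _ hs), h2,
    Finset.mem_filter.2 ⟨h2, rfl⟩⟩


end Par
end Crest.Agent.R129
end

-- ▼ part PVb/R129/GPsi
section

/-! # The permutations `psi`, adjacency, compatibility of edges with `tau` (task R129/GPsi). Statements frozen. -/

set_option autoImplicit false
open scoped BigOperators

namespace Crest.Agent.R129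
namespace Par
variable (P : Par) {A : Type} {ω ω' : P.Om A} {on : ℤ → Prop}

theorem sub_or (i : ℤ) : P.sub i = i ∨ P.sub i = i + 1 := by
  rcases P.sub_tp i with h | h
  · exact Or.inl h.1
  · exact Or.inr h.1

theorem tp_or (i : ℤ) : P.tp i = i ∨ P.tp i = i + 1 := by
  rcases P.sub_tp i with h | h
  · exact Or.inr h.2
  · exact Or.inl h.2

theorem sub_ne_tp (i : ℤ) : P.sub i ≠ P.tp i := by
  rcases P.sub_tp i with h | h <;> omega

/-- two pairs with a common port and a common node coincide -/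
theorem pair_eq {i i' j : ℤ} {t : P.F} (h : t ∈ P.ports i) (h' : t ∈ P.ports i')
    (hj : j = i ∨ j = i + 1) (hj' : j = i' ∨ j = i' + 1) : i = i' := by
  rw [← P.pairOf_eq h hj, P.pairOf_eq h' hj']

theorem lvl_eq_of_Blk {i i' : ℤ} {κ : List P.F} (h : κ ∈ P.Blk i) (h' : κ ∈ P.Blk i') :
    P.lvl i = P.lvl i' := by
  rw [← P.length_of_mem_Blk h, P.length_of_mem_Blk h']

theorem Nd_eq {i i' : ℤ} {x : List P.F} (h : x ∈ P.Nd i) (h' : x ∈ P.Nd i') : i = i' := by
  obtain ⟨y, κ, hy, hκ, rfl⟩ := P.mem_Nd.1 h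
  obtain ⟨y', κ', hy', hκ', he⟩ := P.mem_Nd.1 h'
  obtain ⟨h1, rfl⟩ := List.cons.inj he
  exact P.eq_of_em_eq (hκ.symm.trans hκ') hy hy' h1

theorem Blk_cross {i : ℤ} (h : P.cross i) : P.Blk i = P.Nd (P.sub i) := by
  rw [Blk, if_pos h, (P.of_cross h).1]

theorem es_eq {i i' : ℤ} {t : P.F} {κ : List P.F} (ht : t ∈ P.ports i) (ht' : t ∈ P.ports i')
    (hκ : κ ∈ P.Blk i) (hκ' : κ ∈ P.Blk i') {x x' : ℕ} (hx : x < P.ms i) (hx' : x' < P.ms i')
    (he : P.es i x = P.es i' x') : i = i' := by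
  by_cases hc : P.cross i <;> by_cases hc' : P.cross i'
  · rw [P.Blk_cross hc] at hκ; rw [P.Blk_cross hc'] at hκ'
    have := P.Nd_eq hκ hκ'
    exact P.pair_eq ht ht' (P.sub_or i) (this ▸ P.sub_or i')
  · exfalso
    simp only [es, ms, if_pos hc, if_neg hc'] at he hx'
    exact P.em_ne_zero _ hx' he.symm
  · exfalso
    simp only [es, ms, if_neg hc, if_pos hc'] at he hx
    exact P.em_ne_zero _ hx he
  · simp only [es, ms, if_neg hc, if_neg hc'] at he hx hx'
    have hs : P.stg (P.sub i) = P.stg (P.sub i') := by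
      rw [(P.of_not_cross hc).2.1, (P.of_not_cross hc').2.1, P.lvl_eq_of_Blk hκ hκ']
    have := P.eq_of_em_eq hs hx hx' he
    exact P.pair_eq ht ht' (P.sub_or i) (this ▸ P.sub_or i')

theorem et_eq {i i' : ℤ} {t : P.F} {κ : List P.F} (ht : t ∈ P.ports i) (ht' : t ∈ P.ports i')
    (hκ : κ ∈ P.Blk i) (hκ' : κ ∈ P.Blk i') {y y' : ℕ} (hy : y < P.mt i) (hy' : y' < P.mt i')
    (he : P.em (P.tp i) y = P.em (P.tp i') y') : i = i' := by
  have := P.eq_of_em_eq (i := P.tp i) (i' := P.tp i') (P.lvl_eq_of_Blk hκ hκ') hy hy' he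
  exact P.pair_eq ht ht' (P.tp_or i) (this ▸ P.tp_or i')

theorem psi_spec {t : P.F} {κ : List P.F} {γ β : P.F} (h : P.Rel ω t κ γ β) : P.psi ω t κ γ = β := by
  refine extP_spec ?_ ?_ h
  · rintro γ β β' (⟨i, x, y, ht, hκ, hm, rfl, rfl⟩ | ⟨rfl, rfl, hn⟩)
      (⟨i', x', y', ht', hκ', hm', he, rfl⟩ | ⟨he, rfl, hn'⟩)
    · obtain rfl := P.es_eq ht ht' hκ hκ' hm.1 hm'.1 he
      rw [(P.match_unique i hm hm').1 (P.es_inj i hm.1 hm'.1 he)]
    · exfalso
      by_cases hc : P.cross i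
      · exact hn' ⟨i, hc, ht, hκ⟩
      · have h1 := hm.1
        simp only [es, ms, if_neg hc] at he h1
        exact P.em_ne_zero _ h1 he
    · exfalso
      by_cases hc : P.cross i'
      · exact hn ⟨i', hc, ht', hκ'⟩
      · have h1 := hm'.1
        simp only [es, ms, if_neg hc] at he h1
        exact P.em_ne_zero _ h1 he.symm
    · rfl
  · rintro γ γ' β (⟨i, x, y, ht, hκ, hm, rfl, rfl⟩ | ⟨rfl, rfl, hn⟩)
      (⟨i', x', y', ht', hκ', hm', rfl, he⟩ | ⟨rfl, he, hn'⟩)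
    · obtain rfl := P.et_eq ht ht' hκ hκ' hm.2.1 hm'.2.1 he
      rw [(P.match_unique i hm hm').2 (P.em_inj _ hm.2.1 hm'.2.1 he)]
    · exact absurd he (P.em_ne_zero _ hm.2.1)
    · exact absurd he.symm (P.em_ne_zero _ hm'.2.1)
    · rfl

theorem psi_congr {t : P.F} {κ : List P.F}
    (h : ∀ i, κ ∈ P.Blk i → (ω (.inl (i, κ, t))).1 = (ω' (.inl (i, κ, t))).1) :
    P.psi ω t κ = P.psi ω' t κ := by
  unfold psi
  congr 1
  funext γ β
  unfold Rel
  apply propext
  refine or_congr_left (exists_congr fun i => exists_congr fun x => exists_congr fun y =>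
    and_congr_right fun _ => and_congr_right fun hκ => ?_)
  rw [h i hκ]

theorem Good_congr {v : P.V} (hv : v ∈ P.node v.1)
    (h : ∀ i κ t, κ ∈ P.Blk i → κ.length + 2 ≤ (P.ty v).length →
      (ω (.inl (i, κ, t))).1 = (ω' (.inl (i, κ, t))).1) : P.Good ω v ↔ P.Good ω' v := by
  unfold Good
  rw [Spec_congr (ψ := P.psi ω) (ψ' := P.psi ω') _ _
    fun t κ hκ => P.psi_congr fun i hi => h i κ t hi hκ]

theorem fst_of_mem {i : ℤ} {v : P.V} (h : v ∈ P.node i) : v.1 = i := (P.mem_node.1 h).1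

theorem mem_node_self {i : ℤ} {v : P.V} (h : v ∈ P.node i) : v ∈ P.node v.1 := by
  rw [P.fst_of_mem h]; exact h

theorem length_of_mem {i : ℤ} {v : P.V} (h : v ∈ P.node i) : v.2.length = P.stg i := by
  obtain ⟨y, κ, -, hκ, he⟩ := P.mem_Nd.1 (P.mem_node.1 h).2
  rw [he, List.length_cons, hκ]

theorem ty_tp {i : ℤ} {U : P.V} (h : U ∈ P.node (P.tp i)) : P.ty U = U.2 := by
  rw [ty, P.fst_of_mem h, if_pos (P.top_tp i)]

theorem SameBlk_congr {i : ℤ} (h : ∀ i' κ t, κ ∈ P.Blk i' → κ.length + 2 ≤ P.lvl i →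
      (ω (.inl (i', κ, t))).1 = (ω' (.inl (i', κ, t))).1) (t : P.F) (U W : P.V) :
    P.SameBlk ω i t U W ↔ P.SameBlk ω' i t U W := by
  unfold SameBlk
  refine and_congr_right fun _ => and_congr_right fun hU => and_congr_right fun hW => ?_
  have hlU : U.2.length = P.lvl i := P.length_of_mem hU
  have hlW := P.length_of_mem_Blk (P.ty_mem_Blk hW)
  rw [P.Good_congr (ω := ω) (ω' := ω') (P.mem_node_self hU)
      (fun i' κ t h1 h2 => h i' κ t h1 (by rwa [P.ty_tp hU, hlU] at h2)),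
    P.Good_congr (ω := ω) (ω' := ω') (P.mem_node_self hW)
      (fun i' κ t h1 h2 => h i' κ t h1 (by omega)),
    tau_congr (ψ := P.psi ω) (ψ' := P.psi ω') t U.2
      fun κ hκ => P.psi_congr fun i' hi => h i' κ t hi (by omega)]

theorem natAbs_le_of_Blk {i : ℤ} {κ : List P.F} (h : κ ∈ P.Blk i) : i.natAbs ≤ P.J * (κ.length + 2) := by
  have h1 := P.length_of_mem_Blk h
  have h2 := P.natAbs_le (P.tp i)
  have h3 : P.J * (P.stg (P.tp i) - P.j₀ + 1) ≤ P.J * (κ.length + 2) :=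
    Nat.mul_le_mul_left _ (by unfold lvl at h1; omega)
  rcases P.tp_or i with h4 | h4 <;> omega

theorem Adj.symm {t : P.F} {v v' : P.V} (h : P.Adj ω on t v v') : P.Adj ω on t v' v := by
  obtain ⟨i, h⟩ := h
  exact ⟨i, h.symm⟩

theorem Adj.pair {t : P.F} {v v' : P.V} (h : P.Adj ω on t v v') :
    on (P.pairOf v.1 t) ∧ t ∈ P.ports (P.pairOf v.1 t) ∧ P.pairOf v'.1 t = P.pairOf v.1 t ∧
    ((v.1 = P.pairOf v.1 t ∧ v'.1 = v.1 + 1) ∨ (v.1 = P.pairOf v.1 t + 1 ∧ v'.1 + 1 = v.1)) ∧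
    v ∈ P.node v.1 ∧ v' ∈ P.node v'.1 ∧ P.Good ω v ∧ P.Good ω v' ∧
    (P.PE ω on (P.pairOf v.1 t) t v v' ∨ P.PE ω on (P.pairOf v.1 t) t v' v) := by
  obtain ⟨i, h | h⟩ := h
  · obtain ⟨ho, ⟨ht, hU, hW, gU, gW, -⟩, -⟩ := id h
    have e1 := P.fst_of_mem hU
    have e2 := P.fst_of_mem hW
    have p1 : P.pairOf v.1 t = i := P.pairOf_eq ht (e1 ▸ P.tp_or i)
    have p2 : P.pairOf v'.1 t = i := P.pairOf_eq ht (e2 ▸ P.sub_or i)
    rw [p1, p2]
    refine ⟨ho, ht, rfl, ?_, P.mem_node_self hU, P.mem_node_self hW, gU, gW, Or.inl h⟩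
    rcases P.sub_tp i with h | h <;> omega
  · obtain ⟨ho, ⟨ht, hU, hW, gU, gW, -⟩, -⟩ := id h
    have e1 := P.fst_of_mem hU
    have e2 := P.fst_of_mem hW
    have p1 : P.pairOf v'.1 t = i := P.pairOf_eq ht (e1 ▸ P.tp_or i)
    have p2 : P.pairOf v.1 t = i := P.pairOf_eq ht (e2 ▸ P.sub_or i)
    rw [p1, p2]
    refine ⟨ho, ht, rfl, ?_, P.mem_node_self hW, P.mem_node_self hU, gW, gU, Or.inr h⟩
    rcases P.sub_tp i with h | h <;> omega

theorem Adj.parity {t : P.F} {v v' : P.V} (h : P.Adj ω on t v v') : Even v.1 ↔ ¬ Even v'.1 := by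
  rcases (Adj.pair P h).2.2.2.1 with h | h
  · rw [h.2, Int.even_add_one, not_not]
  · rw [← h.2, Int.even_add_one]

theorem PE.right_unique {i : ℤ} {t : P.F} {U W W' : P.V} (h : P.PE ω on i t U W)
    (h' : P.PE ω on i t U W') : W = W' := by
  obtain ⟨-, ⟨-, -, hW, -, -, e⟩, x, y, hm, hx, hy⟩ := h
  obtain ⟨-, ⟨-, -, hW', -, -, e'⟩, x', y', hm', hx', hy'⟩ := h'
  have hty : P.ty W = P.ty W' := e.symm.trans e'
  rw [← hty] at hm'
  have := (P.match_unique i hm hm').2 (P.em_inj _ hm.2.1 hm'.2.1 (hy.symm.trans hy'))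
  exact P.eq_of_six hW hW' hty (by rw [hx, hx', this])

theorem eq_fib {ψ : P.F → List P.F → Equiv.Perm P.F} {i : ℤ} {U : P.V} (h : U ∈ P.node i) (t : P.F) :
    U.2 = fib ψ t (tau ψ t U.2) (U.2.headD 0) := by
  obtain ⟨y, κ, -, -, he⟩ := P.mem_Nd.1 (P.mem_node.1 h).2
  rw [he, List.headD_cons, fib_tau]

theorem PE.left_unique {i : ℤ} {t : P.F} {U U' W : P.V} (h : P.PE ω on i t U W)
    (h' : P.PE ω on i t U' W) : U = U' := by
  obtain ⟨-, ⟨-, hU, -, -, -, e⟩, x, y, hm, hx, hy⟩ := h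
  obtain ⟨-, ⟨-, hU', -, -, -, e'⟩, x', y', hm', hx', hy'⟩ := h'
  have := (P.match_unique i hm hm').1 (P.es_inj _ hm.1 hm'.1 (hx.symm.trans hx'))
  refine Prod.ext ((P.fst_of_mem hU).trans (P.fst_of_mem hU').symm) ?_
  rw [P.eq_fib (ψ := P.psi ω) hU t, P.eq_fib (ψ := P.psi ω) hU' t, e, e', hy, hy', this]

theorem Adj.unique {t : P.F} {v w w' : P.V} (h : P.Adj ω on t v w) (h' : P.Adj ω on t v w') : w = w' := by
  rcases (Adj.pair P h).2.2.2.2.2.2.2.2 with a | a <;>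
    rcases (Adj.pair P h').2.2.2.2.2.2.2.2 with b | b
  · exact PE.right_unique P a b
  · exact absurd ((P.fst_of_mem b.2.1.2.2.1).symm.trans (P.fst_of_mem a.2.1.2.1)) (P.sub_ne_tp _)
  · exact absurd ((P.fst_of_mem a.2.1.2.2.1).symm.trans (P.fst_of_mem b.2.1.2.1)) (P.sub_ne_tp _)
  · exact PE.left_unique P a b

theorem nbr_eq_some {u w : P.V} {t : P.F} : P.nbr ω on u t = some w ↔ Even u.1 ∧ P.Adj ω on t u w := by
  unfold nbr
  split_ifs with h
  · constructor
    · intro e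
      obtain rfl := Option.some.inj e
      exact ⟨h.1, h.2.choose_spec⟩
    · intro e
      rw [Adj.unique P h.2.choose_spec e.2]
  · constructor
    · intro e; cases e
    · intro e; exact absurd ⟨e.1, w, e.2⟩ h

theorem psi_zero {t : P.F} {κ : List P.F} (h : ¬ ∃ i, P.cross i ∧ t ∈ P.ports i ∧ κ ∈ P.Blk i) :
    P.psi ω t κ 0 = 0 := P.psi_spec (Or.inr ⟨rfl, rfl, h⟩)

theorem psi_zero_cons (t : P.F) (κ : List P.F) : P.psi ω t (0 :: κ) 0 = 0 := by
  refine P.psi_zero ?_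
  rintro ⟨i, hc, -, hκ⟩
  rw [P.Blk_cross hc] at hκ
  obtain ⟨y, κ', hy, -, he⟩ := P.mem_Nd.1 hκ
  exact P.em_ne_zero _ hy (List.cons.inj he).1.symm

/-- one step up -/
theorem tau_up {ψ : P.F → List P.F → Equiv.Perm P.F} {t α : P.F} {x y : List P.F}
    (h : tau ψ t (0 :: α :: y) = x) (h0 : ψ t x 0 = 0) : tau ψ t (0 :: 0 :: x) = 0 :: α :: y := by
  rw [tau_cons_cons, zero_mul, add_zero, h0, ← h, fib_tau]

theorem PE.levels {i : ℤ} {t : P.F} {U W : P.V} (h : P.PE ω on i t U W) (k : ℕ) :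
    tau (P.psi ω) t (pre W.2 (P.lvl i + 2 * k + 1)) = pre U.2 (P.lvl i + 2 * k) ∧
    tau (P.psi ω) t (pre U.2 (P.lvl i + 2 * k + 2)) = pre W.2 (P.lvl i + 2 * k + 1) := by
  obtain ⟨-, ⟨ht, hU, hW, -, -, e⟩, x, y, hm, hx, hy⟩ := h
  have hlU : U.2.length = P.lvl i := P.length_of_mem hU
  have hB := P.ty_mem_Blk hW
  have hlκ := P.length_of_mem_Blk hB
  have hlW : W.2.length ≤ P.lvl i := by
    rw [P.length_of_mem hW]
    by_cases hc : P.cross i
    · have := (P.of_cross hc).2.2.1; omega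
    · exact (P.of_not_cross hc).2.1.le
  have hpW : pre W.2 (P.lvl i) = P.six i W.2 :: P.ty W := by
    by_cases hc : P.cross i
    · have h1 : P.ty W = W.2 := by rw [ty, P.fst_of_mem hW, if_pos (P.of_cross hc).2.1]
      rw [six, if_pos hc, ← hlκ, h1, pre_succ_of_le _ le_rfl, pre_length]
    · have h1 : P.ty W = W.2.tail := by rw [ty, P.fst_of_mem hW, if_neg (P.of_not_cross hc).1]
      have h2 : W.2.length = P.lvl i := (P.length_of_mem hW).trans (P.of_not_cross hc).2.1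
      obtain ⟨y, κ, -, -, he⟩ := P.mem_Nd.1 (P.mem_node.1 hW).2
      rw [six, if_neg hc, h1, ← h2, pre_length, he]; rfl
  have hpsi : P.psi ω t (P.ty W) (P.six i W.2) = U.2.headD 0 :=
    P.psi_spec (Or.inl ⟨i, x, y, ht, hB, hm, hx, hy⟩)
  have hU0 : P.psi ω t U.2 0 = 0 := by
    refine P.psi_zero ?_
    rintro ⟨i', hc, ht', hκ⟩
    rw [P.Blk_cross hc] at hκ
    have h1 := P.Nd_eq hκ (P.mem_node.1 hU).2
    obtain rfl := P.pair_eq ht' ht (P.sub_or i') (h1 ▸ P.tp_or i)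
    exact P.sub_ne_tp _ h1
  induction k with
  | zero =>
    have h1 : tau (P.psi ω) t (0 :: P.six i W.2 :: P.ty W) = U.2 := by
      rw [tau_cons_cons, zero_mul, add_zero, hpsi, ← e, ← P.eq_fib hU t]
    simp only [mul_zero, add_zero]
    rw [pre_succ_of_le _ hlW, hpW, pre_succ_of_le U.2 (m := P.lvl i + 1) (by omega),
      pre_succ_of_le U.2 hlU.le, ← hlU, pre_length]
    exact ⟨h1, P.tau_up h1 hU0⟩
  | succ k ih =>
    have e1 : P.lvl i + 2 * (k + 1) = P.lvl i + 2 * k + 2 := by ring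
    rw [e1]
    have a1 : pre U.2 (P.lvl i + 2 * k + 2) = 0 :: 0 :: pre U.2 (P.lvl i + 2 * k) := by
      rw [pre_succ_of_le U.2 (m := P.lvl i + 2 * k + 1) (by omega), pre_succ_of_le U.2 (by omega)]
    have a2 : pre W.2 (P.lvl i + 2 * k + 1) = 0 :: pre W.2 (P.lvl i + 2 * k) :=
      pre_succ_of_le _ (by omega)
    have a3 : pre W.2 (P.lvl i + 2 * k + 2 + 1) = 0 :: 0 :: pre W.2 (P.lvl i + 2 * k + 1) := by
      rw [pre_succ_of_le W.2 (m := P.lvl i + 2 * k + 2) (by omega), pre_succ_of_le W.2 (by omega)]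
    have a4 : pre U.2 (P.lvl i + 2 * k + 2 + 2) = 0 :: 0 :: pre U.2 (P.lvl i + 2 * k + 2) := by
      rw [pre_succ_of_le U.2 (m := P.lvl i + 2 * k + 2 + 1) (by omega),
        pre_succ_of_le U.2 (m := P.lvl i + 2 * k + 2) (by omega)]
    have b1 : tau (P.psi ω) t (pre W.2 (P.lvl i + 2 * k + 2 + 1)) = pre U.2 (P.lvl i + 2 * k + 2) := by
      rw [a3, a1]
      refine P.tau_up (a1 ▸ ih.2) ?_
      rw [a2]; exact P.psi_zero_cons t _
    refine ⟨b1, ?_⟩
    rw [a4, a3]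
    refine P.tau_up (a3 ▸ b1) ?_
    rw [a1]; exact P.psi_zero_cons t _

theorem tau_pre_down {ψ : P.F → List P.F → Equiv.Perm P.F} {t : P.F} {x y : List P.F} {m r : ℕ}
    (hr : Even r) (h : tau ψ t (pre x (m + r + 1)) = pre y (m + r)) :
    tau ψ t (pre x (m + 1)) = pre y m := by
  have := congrArg (List.drop r) h
  rwa [tau_drop_even _ _ hr, drop_pre, show m + r + 1 = m + 1 + r by ring, drop_pre] at this

theorem Adj.tau_pre {t : P.F} {v v' : P.V} (h : P.Adj ω on t v v') (m : ℕ) (hm : Even v.1 ↔ Even m) :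
    tau (P.psi ω) t (pre v.2 (m + 1)) = pre v'.2 m := by
  have hpar := Adj.parity P h
  obtain ⟨i, h | h⟩ := h
  · have hU := h.2.1.2.1
    have h1 := P.parity (P.tp i)
    rw [← P.fst_of_mem hU] at h1
    have h2 : Even v.1 ↔ Odd (P.lvl i) := by
      rw [h1, P.fst_of_mem hU]; simp [P.top_tp i, lvl]
    have h3 : Even (P.lvl i + m + 1) := by
      rw [Nat.even_add_one, Nat.even_add, ← hm, h2, ← Nat.not_odd_iff_even]; tauto
    refine P.tau_pre_down (r := P.lvl i + m + 1) h3 ?_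
    have := (PE.levels P h m).2
    rwa [show P.lvl i + 2 * m + 2 = m + (P.lvl i + m + 1) + 1 by ring,
      show P.lvl i + 2 * m + 1 = m + (P.lvl i + m + 1) by ring] at this
  · have hU := h.2.1.2.1
    have h1 := P.parity (P.tp i)
    rw [← P.fst_of_mem hU] at h1
    have h2 : Even v'.1 ↔ Odd (P.lvl i) := by
      rw [h1, P.fst_of_mem hU]; simp [P.top_tp i, lvl]
    have h3 : Even (P.lvl i + m) := by
      rw [Nat.even_add, ← hm, hpar, h2, Nat.not_odd_iff_even]
    refine P.tau_pre_down (r := P.lvl i + m) h3 ?_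
    have := (PE.levels P h m).1
    rwa [show P.lvl i + 2 * m = m + (P.lvl i + m) by ring] at this

end Par
end Crest.Agent.R129
end

-- ▼ part PVb/R129/GGraph

/-! # The base graph of a configuration (definitions; do not edit) -/

set_option autoImplicit false

namespace Crest.Agent.R129
namespace Par
variable (P : Par) {A : Type}

noncomputable def graph (ω : P.Om A) (on : ℤ → Prop) : BG P.F A where
  V := P.V
  isH v := Even v.1
  nb := P.nbr ω on
  nb_typ u t w h := by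
    have h' := (P.nbr_eq_some).1 h
    exact ⟨h'.1, (Adj.parity P h'.2).1 h'.1⟩
  nb_inj u u' t w h h' :=
    Adj.unique P (Adj.symm P ((P.nbr_eq_some).1 h).2) (Adj.symm P ((P.nbr_eq_some).1 h').2)
  z u := u.2.getLastD 0
  om u t := (ω (.inr (u.1, u.2, t))).2.2
  a u t := (ω (.inr (u.1, u.2, t))).2.1
  L v := 5 * (P.j₀ + (pos v.1 : ℝ) / P.J)

theorem edge_iff {ω : P.Om A} {on : ℤ → Prop} {v v' : P.V} {t : P.F} :
    (P.graph ω on).Edge v t v' ↔ P.Adj ω on t v v' := by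
  constructor
  · rintro (h | h)
    · exact ((P.nbr_eq_some).1 h).2
    · exact Adj.symm P ((P.nbr_eq_some).1 h).2
  · intro h
    by_cases hv : Even v.1
    · exact Or.inl ((P.nbr_eq_some).2 ⟨hv, h⟩)
    · refine Or.inr ((P.nbr_eq_some).2 ⟨?_, Adj.symm P h⟩)
      by_contra hv'
      exact hv ((Adj.parity P h).2 hv')

/-- the fluctuation of pair `i` is large -/
def badT [Group A] (μ : ℤ → (A × ZMod 4) →₀ ℝ) (on : ℤ → Prop) (i : ℤ) (ω : P.Om A) : Prop :=
  on i ∧ 16 * Real.sqrt (P.n * Real.sqrt P.n) < ‖P.fluct μ i ω‖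

/-- a short closed walk from node `i` has trivial voltage -/
def badG [Group A] (on : ℤ → Prop) (i : ℤ) (ω : P.Om A) : Prop :=
  ∃ (v : ℕ → P.V) (t : ℕ → P.F) (ℓ : ℕ), (P.graph ω on).NBWalk v t ℓ ∧ 0 < ℓ ∧ v ℓ = v 0 ∧ (v 0).1 = i ∧
    (P.graph ω on).wlab (P.graph ω on).a v t ℓ = 1 ∧ (ℓ : ℝ) < 100 * (P.graph ω on).L (v 0)

end Par
end Crest.Agent.R129
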