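import Crest.Agent.PVb.R129.Ty
import Crest.Agent.PVb.R129.GSC
import Crest.Agent.PVb.R129.Ker
import Crest.Agent.PVb.R129.WQ

-- ▼ part PVb/R129/TyMean
section

/-! # The mean operator (task R129/TyMean). Statement frozen. -/

set_option autoImplicit false
open scoped BigOperators

namespace Crest.Agent.R129
variable {F : Type} [Field F] [Fintype F] [DecidableEq F] (ψ : F → List F → Equiv.Perm F)

omit [DecidableEq F] in
theorem tm_one (σ : Equiv.Perm F) (t : F) (h : F → ℝ) :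
    ∑ β : F, ∑ α : F, h (σ (α + β * t)) = Fintype.card F * ∑ γ, h γ := by
  have : ∀ β : F, ∑ α : F, h (σ (α + β * t)) = ∑ γ, h γ := fun β =>
    Equiv.sum_comp ((Equiv.addRight (β * t)).trans σ) h
  simp only [this, Finset.sum_const, Finset.card_univ, nsmul_eq_mul]

omit [DecidableEq F] in
theorem tm_two (σ σ' : Equiv.Perm F) {t t' : F} (ht : t ≠ t') (h h' : F → ℝ) :
    ∑ β : F, ∑ α : F, h (σ (α + β * t)) * h' (σ' (α + β * t')) = (∑ γ, h γ) * ∑ γ, h' γ := by
  have h1 : ∀ β : F, ∑ α : F, h (σ (α + β * t)) * h' (σ' (α + β * t')) =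
      ∑ u : F, h (σ u) * h' (σ' (β * (t' - t) + u)) := fun β => by
    rw [← Equiv.sum_comp (Equiv.addRight (β * t))
      fun u => h (σ u) * h' (σ' (β * (t' - t) + u))]
    refine Finset.sum_congr rfl fun α _ => ?_
    rw [Equiv.coe_addRight]
    congr 3
    ring
  have h2 : ∀ u : F, ∑ β : F, h' (σ' (β * (t' - t) + u)) = ∑ γ, h' γ := fun u =>
    Equiv.sum_comp (((Equiv.mulRight₀ (t' - t) (sub_ne_zero.2 ht.symm)).trans
      (Equiv.addRight u)).trans σ') h'
  simp only [h1]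
  rw [Finset.sum_comm]
  simp only [← Finset.mul_sum, h2]
  rw [← Finset.sum_mul, Equiv.sum_comp σ h]

omit [DecidableEq F] in
theorem tm_local (T : Finset F) (σ : F → Equiv.Perm F) (Φ G : F → F → ℝ) (s f0 : ℝ)
    (hf : (Fintype.card F : ℝ) ^ 2 * f0 = ∑ β, ∑ α, Φ β α) :
    2 * s * ∑ t ∈ T, ∑ β, ∑ α, Φ β α * G t (σ t (α + β * t)) ≤
      2 * s * Fintype.card F * ∑ t ∈ T, ∑ γ, G t γ * f0 +
        s ^ 2 * (∑ β, ∑ α, Φ β α ^ 2 - (Fintype.card F : ℝ) ^ 2 * f0 ^ 2) +
        ∑ t ∈ T, (Fintype.card F * ∑ γ, G t γ ^ 2 - (∑ γ, G t γ) ^ 2) := by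
  have hn : (Fintype.card F : ℝ) ≠ 0 := by exact_mod_cast Fintype.card_ne_zero
  obtain ⟨n, hnd⟩ : ∃ n : ℝ, n = Fintype.card F := ⟨_, rfl⟩
  have hc : ∀ c : ℝ, ∑ _γ : F, c = n * c := fun c => by
    rw [Finset.sum_const, Finset.card_univ, nsmul_eq_mul, hnd]
  rw [← hnd] at hf hn ⊢
  let a : F → F → ℝ := fun t γ => G t γ - (∑ δ, G t δ) / n
  have ha : ∀ t, ∑ γ, a t γ = 0 := fun t => by
    simp only [a, Finset.sum_sub_distrib, hc]
    field_simp
    ring
  have ha2 : ∀ t, n * ∑ γ, a t γ ^ 2 = n * ∑ γ, G t γ ^ 2 - (∑ γ, G t γ) ^ 2 := fun t => by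
    simp only [a, sub_sq, Finset.sum_add_distrib, Finset.sum_sub_distrib, hc, mul_assoc,
      ← Finset.mul_sum, ← Finset.sum_mul]
    field_simp
    ring
  have e1 : ∀ t, ∑ β, ∑ α, Φ β α * G t (σ t (α + β * t)) =
      ∑ β, ∑ α, (Φ β α - f0) * a t (σ t (α + β * t)) + n * ∑ γ, G t γ * f0 := fun t => by
    have h1 := tm_one (σ t) t (G t)
    rw [← hnd] at h1
    have h2 : ∀ β α, (Φ β α - f0) * a t (σ t (α + β * t)) = Φ β α * G t (σ t (α + β * t)) -
        G t (σ t (α + β * t)) * f0 - Φ β α * ((∑ δ, G t δ) / n) + f0 * ((∑ δ, G t δ) / n) :=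
      fun β α => by simp only [a]; ring
    simp only [h2, Finset.sum_add_distrib, Finset.sum_sub_distrib, hc, ← Finset.sum_mul, h1, ← hf]
    ring
  have e2 : ∑ β, ∑ α, (Φ β α - f0) ^ 2 = ∑ β, ∑ α, Φ β α ^ 2 - n ^ 2 * f0 ^ 2 := by
    simp only [sub_sq, Finset.sum_add_distrib, Finset.sum_sub_distrib, hc, mul_assoc,
      ← Finset.mul_sum, ← Finset.sum_mul, ← hf]
    ring
  have e3 : ∑ β, ∑ α, (∑ t ∈ T, a t (σ t (α + β * t))) ^ 2 =
      ∑ t ∈ T, (n * ∑ γ, G t γ ^ 2 - (∑ γ, G t γ) ^ 2) := by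
    simp only [sq (∑ t ∈ T, _), Finset.sum_mul_sum]
    have h1 : ∀ β : F, ∑ α : F, ∑ t ∈ T, ∑ t' ∈ T, a t (σ t (α + β * t)) * a t' (σ t' (α + β * t')) =
        ∑ t ∈ T, ∑ t' ∈ T, ∑ α : F, a t (σ t (α + β * t)) * a t' (σ t' (α + β * t')) := fun β => by
      rw [Finset.sum_comm]
      exact Finset.sum_congr rfl fun t _ => Finset.sum_comm
    simp only [h1]
    rw [Finset.sum_comm]
    refine Finset.sum_congr rfl fun t ht => ?_
    rw [Finset.sum_comm, Finset.sum_eq_single_of_mem t ht fun t' _ h => by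
      rw [tm_two _ _ h.symm, ha, zero_mul], ← ha2, hnd, ← tm_one (σ t) t fun γ => a t γ ^ 2]
    simp only [sq]
  have e4 : ∑ t ∈ T, ∑ β, ∑ α, (Φ β α - f0) * a t (σ t (α + β * t)) =
      ∑ β, ∑ α, (Φ β α - f0) * ∑ t ∈ T, a t (σ t (α + β * t)) := by
    rw [Finset.sum_comm]
    refine Finset.sum_congr rfl fun β _ => ?_
    rw [Finset.sum_comm]
    simp only [Finset.mul_sum]
  have e5 : 2 * s * ∑ β, ∑ α, (Φ β α - f0) * ∑ t ∈ T, a t (σ t (α + β * t)) ≤
      s ^ 2 * ∑ β, ∑ α, (Φ β α - f0) ^ 2 + ∑ β, ∑ α, (∑ t ∈ T, a t (σ t (α + β * t))) ^ 2 := by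
    rw [Finset.mul_sum, Finset.mul_sum, ← Finset.sum_add_distrib]
    refine Finset.sum_le_sum fun β _ => ?_
    rw [Finset.mul_sum, Finset.mul_sum, ← Finset.sum_add_distrib]
    refine Finset.sum_le_sum fun α _ => ?_
    nlinarith [sq_nonneg (s * (Φ β α - f0) - ∑ t ∈ T, a t (σ t (α + β * t)))]
  simp only [e1]
  rw [Finset.sum_add_distrib, e4, ← Finset.mul_sum, ← e2, ← e3]
  linarith

/-- `‖R* f‖²` -/
noncomputable def tmRho : ℕ → (List F → ℝ) → ℝ
  | 0, _ => 0
  | m + 1, f => (Fintype.card F : ℝ) ^ 2 * ∑ κ ∈ lists Finset.univ m,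
      ((∑ β, ∑ α, f (β :: α :: κ)) / (Fintype.card F : ℝ) ^ 2) ^ 2

omit [Fintype F] [DecidableEq F] in
theorem tm_fib_fib (t : F) (κ : List F) (γ β : F) :
    fib ψ t (fib ψ t κ γ) β = β :: ((ψ t κ).symm γ - β * t) :: κ := by
  have h1 := tau_fib (ψ := ψ) t κ γ
  have h2 := head_fib (ψ := ψ) t κ γ
  cases h : fib ψ t κ γ with
  | nil => rw [h] at h2; simp at h2
  | cons a l =>
    rw [h] at h1 h2
    simp only [List.head?_cons, Option.some.injEq] at h2
    rw [fib, h1, h2]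

omit [Field F] [DecidableEq F] in
theorem tm_cs (h : F → ℝ) : (∑ γ, h γ) ^ 2 ≤ Fintype.card F * ∑ γ, h γ ^ 2 := by
  simpa using sq_sum_le_card_mul_sum_sq (s := Finset.univ) (f := h)

theorem tm_rho_le (t : F) (m : ℕ) (g : List F → ℝ) :
    Fintype.card F * tmRho m g ≤ ∑ κ ∈ lists Finset.univ m, (∑ γ, g (fib ψ t κ γ)) ^ 2 := by
  have hn : (0 : ℝ) < Fintype.card F := by exact_mod_cast Fintype.card_pos
  cases m with
  | zero => rw [tmRho, mul_zero]; positivity
  | succ m =>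
    rw [tmRho, sum_fib (ψ := ψ) t, Finset.mul_sum, Finset.mul_sum]
    refine Finset.sum_le_sum fun κ _ => ?_
    have h1 : ∑ β, ∑ α, g (β :: α :: κ) = ∑ δ, ∑ γ, g (fib ψ t (fib ψ t κ δ) γ) := by
      rw [Finset.sum_comm (f := fun δ γ => g (fib ψ t (fib ψ t κ δ) γ))]
      refine Finset.sum_congr rfl fun β _ => ?_
      simp only [tm_fib_fib]
      exact (Equiv.sum_comp ((ψ t κ).symm.trans (Equiv.subRight (β * t)))
        fun α => g (β :: α :: κ)).symm
    have h2 := tm_cs fun δ => ∑ γ, g (fib ψ t (fib ψ t κ δ) γ)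
    rw [← h1] at h2
    have h3 : (Fintype.card F : ℝ) * ((Fintype.card F : ℝ) ^ 2 *
        ((∑ β, ∑ α, g (β :: α :: κ)) / (Fintype.card F : ℝ) ^ 2) ^ 2) =
        (∑ β, ∑ α, g (β :: α :: κ)) ^ 2 / Fintype.card F := by field_simp
    rw [h3, div_le_iff₀' hn]
    exact h2

omit [Field F] in
theorem tm_two_sum (m : ℕ) (h : List F → ℝ) : ∑ x ∈ lists Finset.univ (m + 1 + 1), h x =
    ∑ κ ∈ lists Finset.univ m, ∑ β, ∑ α, h (β :: α :: κ) := by
  simp only [sum_lists_succ]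
  rw [Finset.sum_comm (s := lists Finset.univ m)]
  exact Finset.sum_congr rfl fun β _ => Finset.sum_comm

theorem tm_ind (T : Finset F) {s : ℝ} (hs : 0 < s) (hsT : s ^ 2 = T.card) (m : ℕ)
    (f g : List F → ℝ) :
    ∑ t ∈ T, ∑ x ∈ lists Finset.univ (m + 1), f x * g (tau ψ t x) -
        T.card * (∑ x ∈ lists Finset.univ (m + 1), f x) * (∑ y ∈ lists Finset.univ m, g y) /
          (Fintype.card F : ℝ) ^ m ≤
      s * (Fintype.card F * ∑ y ∈ lists Finset.univ m, g y ^ 2 +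
        (∑ x ∈ lists Finset.univ (m + 1), f x ^ 2) / 2 + tmRho m f / 2) := by
  have hn : (0 : ℝ) < Fintype.card F := by exact_mod_cast Fintype.card_pos
  induction m generalizing f g with
  | zero =>
    simp only [sum_lists_succ, sum_lists_zero, tau, tmRho, Finset.sum_const, nsmul_eq_mul,
      ← Finset.sum_mul, pow_zero, div_one]
    rw [mul_assoc, sub_self]
    positivity
  | succ m ih =>
    let f0 : List F → ℝ := fun κ => (∑ β, ∑ α, f (β :: α :: κ)) / (Fintype.card F : ℝ) ^ 2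
    have hf0 : ∀ κ, (Fintype.card F : ℝ) ^ 2 * f0 κ = ∑ β, ∑ α, f (β :: α :: κ) := fun κ => by
      simp only [f0]; field_simp
    have h1 := ih g f0
    have h2 := Finset.sum_le_sum fun κ (_ : κ ∈ lists (Finset.univ : Finset F) m) =>
      tm_local T (fun t => ψ t κ) (fun β α => f (β :: α :: κ)) (fun t γ => g (fib ψ t κ γ)) s
        (f0 κ) (hf0 κ)
    have e1 : ∑ t ∈ T, ∑ x ∈ lists Finset.univ (m + 1 + 1), f x * g (tau ψ t x) =
        ∑ κ ∈ lists Finset.univ m, ∑ t ∈ T, ∑ β, ∑ α,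
          f (β :: α :: κ) * g (fib ψ t κ (ψ t κ (α + β * t))) := by
      simp only [tm_two_sum, tau_cons_cons]
      exact Finset.sum_comm
    have e2 : ∑ t ∈ T, ∑ x ∈ lists Finset.univ (m + 1), g x * f0 (tau ψ t x) =
        ∑ κ ∈ lists Finset.univ m, ∑ t ∈ T, ∑ γ, g (fib ψ t κ γ) * f0 κ := by
      rw [Finset.sum_comm (s := lists Finset.univ m)]
      refine Finset.sum_congr rfl fun t _ => ?_
      rw [sum_fib (ψ := ψ) t]
      simp only [tau_fib]
    have e3 : ∑ x ∈ lists Finset.univ (m + 1 + 1), f x =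
        (Fintype.card F : ℝ) ^ 2 * ∑ κ ∈ lists Finset.univ m, f0 κ := by
      rw [tm_two_sum, Finset.mul_sum]
      simp only [hf0]
    have e4 : tmRho (m + 1) f = (Fintype.card F : ℝ) ^ 2 * ∑ κ ∈ lists Finset.univ m, f0 κ ^ 2 :=
      rfl
    have e5 : ∑ κ ∈ lists Finset.univ m, ∑ t ∈ T, (Fintype.card F * ∑ γ, g (fib ψ t κ γ) ^ 2 -
        (∑ γ, g (fib ψ t κ γ)) ^ 2) ≤ s ^ 2 * (Fintype.card F *
          ∑ y ∈ lists Finset.univ (m + 1), g y ^ 2 - Fintype.card F * tmRho m g) := by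
      rw [Finset.sum_comm, hsT, ← nsmul_eq_mul]
      refine Finset.sum_le_card_nsmul _ _ _ fun t _ => ?_
      rw [Finset.sum_sub_distrib, ← Finset.mul_sum, sum_fib (ψ := ψ) t]
      linarith [tm_rho_le ψ t m g]
    simp only [Finset.sum_add_distrib, ← Finset.mul_sum, Finset.sum_sub_distrib
      (s := lists (Finset.univ : Finset F) m)] at h2
    rw [← e1, ← e2, ← tm_two_sum m fun x => f x ^ 2] at h2
    have e6 : (T.card : ℝ) * (∑ x ∈ lists Finset.univ (m + 1 + 1), f x) *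
        (∑ y ∈ lists Finset.univ (m + 1), g y) / (Fintype.card F : ℝ) ^ (m + 1) =
        Fintype.card F * (T.card * (∑ x ∈ lists Finset.univ (m + 1), g x) *
          (∑ y ∈ lists Finset.univ m, f0 y) / (Fintype.card F : ℝ) ^ m) := by
      rw [e3]; field_simp; ring
    rw [e6, e4]
    refine le_of_mul_le_mul_left ?_ (show 0 < 2 * s by positivity)
    have h3 := mul_le_mul_of_nonneg_left h1 (show 0 ≤ 2 * s * Fintype.card F by positivity)
    linarith

theorem tm_real (T : Finset F) {s : ℝ} (hs : 0 < s) (hsT : s ^ 2 = T.card) (m : ℕ)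
    (f g : List F → ℝ) :
    ∑ t ∈ T, ∑ x ∈ lists Finset.univ (m + 1), f x * g (tau ψ t x) -
        T.card * (∑ x ∈ lists Finset.univ (m + 1), f x) * (∑ y ∈ lists Finset.univ m, g y) /
          (Fintype.card F : ℝ) ^ m ≤
      s * (Fintype.card F * ∑ y ∈ lists Finset.univ m, g y ^ 2 +
        ∑ x ∈ lists Finset.univ (m + 1), f x ^ 2) := by
  have hn : (0 : ℝ) < Fintype.card F := by exact_mod_cast Fintype.card_pos
  refine (tm_ind ψ T hs hsT m f g).trans (mul_le_mul_of_nonneg_left ?_ hs.le)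
  have h1 := tm_rho_le ψ 0 m f
  have h2 : ∑ κ ∈ lists Finset.univ m, (∑ γ, f (fib ψ 0 κ γ)) ^ 2 ≤
      Fintype.card F * ∑ x ∈ lists Finset.univ (m + 1), f x ^ 2 := by
    rw [sum_fib (ψ := ψ) 0, Finset.mul_sum]
    exact Finset.sum_le_sum fun κ _ => tm_cs _
  have h3 := le_of_mul_le_mul_left (h1.trans h2) hn
  linarith

theorem tm_cplx (T : Finset F) {s : ℝ} (hs : 0 < s) (hsT : s ^ 2 = T.card) (m : ℕ)
    (f g : List F → ℂ) :
    (∑ t ∈ T, ∑ x ∈ lists Finset.univ (m + 1), f x * g (tau ψ t x) -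
        T.card * (∑ x ∈ lists Finset.univ (m + 1), f x) * (∑ y ∈ lists Finset.univ m, g y) /
          (Fintype.card F : ℂ) ^ m).re ≤
      s * (Fintype.card F * ∑ y ∈ lists Finset.univ m, ‖g y‖ ^ 2 +
        ∑ x ∈ lists Finset.univ (m + 1), ‖f x‖ ^ 2) := by
  have h1 := tm_real ψ T hs hsT m (fun x => (f x).re) (fun y => (g y).re)
  have h2 := tm_real ψ T hs hsT m (fun x => -(f x).im) (fun y => (g y).im)
  have e : ((Fintype.card F : ℂ) ^ m) = (((Fintype.card F : ℝ) ^ m : ℝ) : ℂ) := by push_cast; rfl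
  rw [e]
  simp only [Complex.sub_re, Complex.re_sum, Complex.im_sum, Complex.mul_re, Complex.mul_im,
    Complex.div_ofReal_re, Complex.natCast_re, Complex.natCast_im, zero_mul, sub_zero, add_zero,
    Complex.sq_norm, Complex.normSq_apply, Finset.sum_sub_distrib, Finset.sum_add_distrib]
  simp only [neg_mul, Finset.sum_neg_distrib, sq, mul_neg, neg_neg] at h1 h2
  rw [sub_div]
  rw [neg_div] at h2
  linarith

/-- Normalised counting measure on `X_m = lists univ m`; `U_t g = g ∘ tau t : L²(X_m) → L²(X_{m+1})` is an isometry (`sum_fib`),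
`U_t U_t = R` (pull-back along `drop 2`), and for `t ≠ t'`: `⟨U_t g, U_t' g'⟩ = ⟨U_t* g, U_t'* g'⟩` (given `κ`, the map
`(β,α) ↦ (ψ t κ (α+βt), ψ t' κ (α+βt'))` is a bijection of `F²`, `tau_cons_cons`).  For mean-zero `f` on `X_{m+1}`, `g` on `X_m` prove by
induction on `m`:  `|⟨f, ∑_t U_t g⟩| ≤ √d (‖g‖² + ‖f‖²/2 + ‖R* f‖²/2)` (`R* f := 0` for `m = 0`, where `g = 0`):
`f = R f₀ + f⊥`, `f₀ = R* f`; `⟨R f₀, U_t g⟩ = ⟨U_t f₀, g⟩`, bounded by induction by `√d (‖f₀‖² + ‖g‖²/2 + ‖R* g‖²/2)`; the vectors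
`(1 - R R*) U_t g` are pairwise orthogonal with norm² `‖g‖² - ‖U_t* g‖² ≤ ‖g‖² - ‖R* g‖²`, so
`|⟨f⊥, ∑ U_t g⟩| ≤ √d (‖f⊥‖²/2 + ‖g‖²/2 - ‖R* g‖²/2)`.  Then `‖R* f‖ ≤ ‖f‖`, rescale (`f ↦ c f`, `g ↦ g / c`), and subtract means. -/
theorem mean_bound (T : Finset F) (m : ℕ) (f g : List F → ℂ) :
    ‖∑ t ∈ T, ∑ x ∈ lists Finset.univ (m + 1), f x * g (tau ψ t x) -
        T.card * (∑ x ∈ lists Finset.univ (m + 1), f x) * (∑ y ∈ lists Finset.univ m, g y) /
          (Fintype.card F : ℂ) ^ m‖ ≤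
      2 * Real.sqrt (T.card * Fintype.card F) *
        Real.sqrt (∑ x ∈ lists Finset.univ (m + 1), ‖f x‖ ^ 2) *
        Real.sqrt (∑ y ∈ lists Finset.univ m, ‖g y‖ ^ 2) := by
  rcases T.eq_empty_or_nonempty with rfl | hT
  · simp
  have hd : (0 : ℝ) < T.card := by exact_mod_cast hT.card_pos
  have hs := Real.sqrt_pos.2 hd
  have hsT := Real.sq_sqrt hd.le
  obtain ⟨z, hz⟩ : ∃ z, z = ∑ t ∈ T, ∑ x ∈ lists Finset.univ (m + 1), f x * g (tau ψ t x) -
      T.card * (∑ x ∈ lists Finset.univ (m + 1), f x) * (∑ y ∈ lists Finset.univ m, g y) /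
        (Fintype.card F : ℂ) ^ m := ⟨_, rfl⟩
  obtain ⟨A, hA⟩ : ∃ A, A = ∑ x ∈ lists Finset.univ (m + 1), ‖f x‖ ^ 2 := ⟨_, rfl⟩
  obtain ⟨B, hB⟩ : ∃ B, B = ∑ y ∈ lists Finset.univ m, ‖g y‖ ^ 2 := ⟨_, rfl⟩
  have hA0 : 0 ≤ A := by rw [hA]; positivity
  have hB0 : 0 ≤ B := by rw [hB]; positivity
  have key : ∀ c : ℂ, (c * z).re ≤ √(T.card) * (Fintype.card F * B + ‖c‖ ^ 2 * A) := fun c => by
    have h := tm_cplx ψ T hs hsT m (fun x => c * f x) g
    simp only [norm_mul, mul_pow, mul_assoc, ← Finset.mul_sum] at h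
    rw [← hA, ← hB] at h
    refine le_of_eq_of_le ?_ h
    rw [hz]
    congr 1
    ring
  rw [← hz, ← hA, ← hB]
  have h1 : discrim (√(T.card) * ‖z‖ ^ 2 * A) (-‖z‖ ^ 2) (√(T.card) * (Fintype.card F * B)) ≤ 0 := by
    refine discrim_le_zero fun l => ?_
    have h := key (l * (starRingEnd ℂ) z)
    rw [mul_assoc, Complex.conj_mul', ← Complex.ofReal_pow, ← Complex.ofReal_mul,
      Complex.ofReal_re, norm_mul, Complex.norm_conj, Complex.norm_real, mul_pow, Real.norm_eq_abs,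
      sq_abs] at h
    linarith
  rcases (norm_nonneg z).eq_or_lt with h0 | h0
  · rw [← h0]; positivity
  refine le_of_sq_le_sq ?_ (by positivity)
  rw [mul_pow, mul_pow, mul_pow, Real.sq_sqrt hA0, Real.sq_sqrt hB0, Real.sq_sqrt (by positivity)]
  refine le_of_mul_le_mul_left ?_ (pow_pos h0 2)
  unfold discrim at h1
  have e : 4 * (√(T.card) * ‖z‖ ^ 2 * A) * (√(T.card) * (Fintype.card F * B)) =
      ‖z‖ ^ 2 * (2 ^ 2 * (√(T.card) ^ 2 * Fintype.card F) * A * B) := by ring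
  rw [e, hsT] at h1
  nlinarith

end Crest.Agent.R129
private theorem rz_fa8e9dba13 : type_of% @_root_.Crest.Agent.R129.tmRho.eq_1 := @_root_.Crest.Agent.R129.tmRho.eq_1 -- L103
end

-- ▼ part PVb/R129/GMean
section

/-! # The mean operator of a pair (task R129/GMean). Statements frozen. -/

set_option autoImplicit false
open scoped BigOperators

namespace Crest.Agent.R129

theorem gm_inj {A : Type} (q : A → ℂ) (hq : ∀ s : Finset A, ∑ x ∈ s, ‖q x‖ ≤ 1) {g : A → A}
    (hg : Function.Injective g) (s : Finset A) : ∑ a ∈ s, ‖q (g a)‖ ≤ 1 := by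
  classical
  rw [← Finset.sum_image (f := fun a => ‖q a‖) fun a _ b _ h => hg h]
  exact hq _

theorem gm_row {A V : Type} (q : A → ℂ) (hq : ∀ s : Finset A, ∑ x ∈ s, ‖q x‖ ≤ 1) {g : A → A}
    (hg : Function.Injective g) (C : Finset V) (h : V → ℂ) (hC : ∀ w, h w ≠ 0 → w ∈ C)
    (s : Finset (A × V)) : ∑ p ∈ s, ‖q (g p.1) * h p.2‖ ≤ ∑ w ∈ C, ‖h w‖ := by
  classical
  calc ∑ p ∈ s, ‖q (g p.1) * h p.2‖ = ∑ p ∈ s.filter (fun p => p.2 ∈ C), ‖q (g p.1) * h p.2‖ := by
        rw [Finset.sum_filter_of_ne]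
        intro p _ hp
        refine hC _ fun h0 => hp ?_
        rw [h0, mul_zero, norm_zero]
    _ ≤ ∑ p ∈ s.image Prod.fst ×ˢ C, ‖q (g p.1) * h p.2‖ := by
        refine Finset.sum_le_sum_of_subset_of_nonneg (fun p hp => ?_) fun _ _ _ => norm_nonneg _
        rw [Finset.mem_filter] at hp
        exact Finset.mem_product.2 ⟨Finset.mem_image_of_mem _ hp.1, hp.2⟩
    _ = (∑ a ∈ s.image Prod.fst, ‖q (g a)‖) * ∑ w ∈ C, ‖h w‖ := by
        rw [Finset.sum_product, Finset.sum_mul_sum]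
        simp only [norm_mul]
    _ ≤ _ := mul_le_of_le_one_left (Finset.sum_nonneg fun _ _ => norm_nonneg _) (gm_inj q hq hg _)

theorem gm_schur {A : Type} [Group A] (q : A → ℂ) (hq : ∀ s : Finset A, ∑ x ∈ s, ‖q x‖ ≤ 1)
    (s t : Finset A) (x y : A → ℝ) :
    ∑ a' ∈ t, ∑ a ∈ s, ‖q (a * a'⁻¹)‖ * (x a * y a') ≤
      Real.sqrt (∑ a ∈ s, x a ^ 2) * Real.sqrt (∑ a' ∈ t, y a' ^ 2) := by
  rw [← Finset.sum_product' (f := fun a' a => ‖q (a * a'⁻¹)‖ * (x a * y a')),
    ← Real.sqrt_mul (Finset.sum_nonneg fun _ _ => sq_nonneg _)]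
  refine Real.le_sqrt_of_sq_le ?_
  refine (Finset.sum_sq_le_sum_mul_sum_of_sq_le_mul (t ×ˢ s)
    (f := fun p => ‖q (p.2 * p.1⁻¹)‖ * x p.2 ^ 2) (g := fun p => ‖q (p.2 * p.1⁻¹)‖ * y p.1 ^ 2)
    (fun _ _ => by positivity) (fun _ _ => by positivity) fun _ _ => le_of_eq (by ring)).trans ?_
  refine mul_le_mul ?_ ?_ (Finset.sum_nonneg fun _ _ => by positivity)
    (Finset.sum_nonneg fun _ _ => sq_nonneg _)
  · rw [Finset.sum_product_right]
    refine Finset.sum_le_sum fun a _ => ?_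
    simp only
    rw [← Finset.sum_mul]
    exact mul_le_of_le_one_left (sq_nonneg _) (gm_inj q hq (g := fun a' => a * a'⁻¹)
      (fun _ _ h => inv_injective (mul_left_cancel h)) _)
  · rw [Finset.sum_product]
    refine Finset.sum_le_sum fun a' _ => ?_
    simp only
    rw [← Finset.sum_mul]
    exact mul_le_of_le_one_left (sq_nonneg _) (gm_inj q hq (g := fun a => a * a'⁻¹)
      (fun _ _ h => mul_right_cancel h) _)

theorem gm_fin {a b x y y' m c : ℝ} (ha : 0 ≤ a) (hb : 0 ≤ b) (hx : 0 ≤ x) (hy : 0 ≤ y)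
    (h1 : y' ≤ m * y) (h2 : a * (2 * b) * m ≤ c) : a * (2 * b * x * y') ≤ c * x * y := by
  calc a * (2 * b * x * y') ≤ a * (2 * b * x * (m * y)) := by gcongr
    _ = (a * (2 * b) * m) * (x * y) := by ring
    _ ≤ c * (x * y) := by gcongr
    _ = _ := by ring

theorem gm_fin2 {Z D₁ S₁ S₂ D₂ : ℂ} {c e r a b x y l : ℝ} (hc : 0 ≤ c) (hr : 0 ≤ r) (ha : 0 ≤ a)
    (hx : 0 ≤ x) (hl : c * (a * b) = l) (h0 : ‖Z‖ ≤ e * x * y)
    (h1 : ‖D₁‖ ≤ r * a * x) (h2 : ‖S₁‖ ≤ b * y) (h3 : ‖S₂‖ ≤ a * x) (h4 : ‖D₂‖ ≤ r * b * y) :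
    ‖Z - (c : ℂ) * (D₁ * S₁ + S₂ * D₂)‖ ≤ (e + 2 * l * r) * x * y := by
  refine (norm_sub_le _ _).trans ?_
  rw [norm_mul, Complex.norm_real, Real.norm_of_nonneg hc]
  have a6 := (norm_add_le _ _).trans (add_le_add
    ((norm_mul_le _ _).trans (mul_le_mul h1 h2 (norm_nonneg _) (by positivity)))
    ((norm_mul_le _ _).trans (mul_le_mul h3 h4 (norm_nonneg _) (by positivity))))
  refine (add_le_add h0 (mul_le_mul_of_nonneg_left a6 hc)).trans (le_of_eq ?_)
  rw [← hl]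
  ring

theorem gm_cs {X : Type} (s : Finset X) (f : X → ℂ) :
    ‖∑ x ∈ s, f x‖ ≤ Real.sqrt s.card * Real.sqrt (∑ x ∈ s, ‖f x‖ ^ 2) := by
  rw [← Real.sqrt_mul (Nat.cast_nonneg _)]
  refine (norm_sum_le _ _).trans (Real.le_sqrt_of_sq_le ?_)
  exact sq_sum_le_card_mul_sum_sq

/-- `|⟨η, K ξ⟩| ≤ ∑_{a,a'} |q (a a'⁻¹)| e ‖η_a‖ ‖ξ_a'‖ ≤ e ‖η‖ ‖ξ‖`; existence of the operator by `schur₁`.  (One way: `K = ∑_x q x • K_x` on finitely
supported `q` is not available, so test on finitely supported vectors or use `hasSum_apply`.) -/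
theorem tensor_bound {A V : Type} [Group A] (q : A → ℂ) (hq : ∀ s : Finset A, ∑ x ∈ s, ‖q x‖ ≤ 1)
    (R C : Finset V) (E : V → V → ℂ) (hE : ∀ u w, E u w ≠ 0 → u ∈ R ∧ w ∈ C) (e : ℝ) (he : 0 ≤ e)
    (hb : ∀ f g : V → ℂ, ‖∑ u ∈ R, ∑ w ∈ C, f u * g w * E u w‖ ≤
      e * Real.sqrt (∑ u ∈ R, ‖f u‖ ^ 2) * Real.sqrt (∑ w ∈ C, ‖g w‖ ^ 2)) :
    (∀ p p' : A × V, mat (kop fun p p' : A × V => q (p.1 * p'.1⁻¹) * E p.2 p'.2) p p' =
      q (p.1 * p'.1⁻¹) * E p.2 p'.2) ∧
    ‖kop fun p p' : A × V => q (p.1 * p'.1⁻¹) * E p.2 p'.2‖ ≤ e := by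
  classical
  have hM : 0 ≤ ∑ u ∈ R, ∑ w ∈ C, ‖E u w‖ :=
    Finset.sum_nonneg fun _ _ => Finset.sum_nonneg fun _ _ => norm_nonneg _
  have hmat := (schur₁ (fun p p' : A × V => q (p.1 * p'.1⁻¹) * E p.2 p'.2) _ _ hM hM
    (fun p s => ?_) (fun p' s => ?_)).1
  · refine ⟨hmat, ContinuousLinearMap.opNorm_le_bound _ he fun ξ => ?_⟩
    set T := kop fun p p' : A × V => q (p.1 * p'.1⁻¹) * E p.2 p'.2 with hT
    set y : A × V → ℂ := (T ξ : A × V → ℂ) with hy
    have hs : ∀ p : A × V, HasSum (fun a' => ∑ w ∈ C, q (p.1 * a'⁻¹) * E p.2 w *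
        (ξ : A × V → ℂ) (a', w)) (y p) := by
      intro p
      have h1 := hasSum_apply T ξ p
      simp only [hmat] at h1
      refine h1.prod_fiberwise fun a' => hasSum_sum_of_ne_finset_zero fun w hw => ?_
      have : E p.2 w = 0 := by by_contra h0; exact hw (hE _ _ h0).2
      simp [this]
    have key : ∀ s : Finset A, ∑ a ∈ s, ∑ u ∈ R, ‖y (a, u)‖ ^ 2 ≤ (e * ‖ξ‖) ^ 2 := by
      intro s
      set N := ∑ a ∈ s, ∑ u ∈ R, ‖y (a, u)‖ ^ 2 with hN
      have hN0 : 0 ≤ N := Finset.sum_nonneg fun _ _ => Finset.sum_nonneg fun _ _ => sq_nonneg _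
      have h1 : HasSum (fun a' => ∑ a ∈ s, ∑ u ∈ R, (starRingEnd ℂ) (y (a, u)) *
          ∑ w ∈ C, q (a * a'⁻¹) * E u w * (ξ : A × V → ℂ) (a', w))
          (∑ a ∈ s, ∑ u ∈ R, (starRingEnd ℂ) (y (a, u)) * y (a, u)) :=
        hasSum_sum fun a _ => hasSum_sum fun u _ => (hs (a, u)).mul_left _
      have h2 : (∑ a ∈ s, ∑ u ∈ R, (starRingEnd ℂ) (y (a, u)) * y (a, u)) = (N : ℂ) := by
        rw [hN]
        push_cast
        simp only [Complex.conj_mul']
      rw [h2] at h1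
      unfold HasSum at h1
      simp only [SummationFilter.unconditional_filter] at h1
      have h3 : ‖(N : ℂ)‖ ≤ e * Real.sqrt N * ‖ξ‖ := by
        refine le_of_tendsto' h1.norm fun t => ?_
        have a1 : ∀ a' a, ‖∑ u ∈ R, (starRingEnd ℂ) (y (a, u)) *
            ∑ w ∈ C, q (a * a'⁻¹) * E u w * (ξ : A × V → ℂ) (a', w)‖ ≤
            e * (‖q (a * a'⁻¹)‖ * (Real.sqrt (∑ u ∈ R, ‖y (a, u)‖ ^ 2) *
              Real.sqrt (∑ w ∈ C, ‖(ξ : A × V → ℂ) (a', w)‖ ^ 2))) := by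
          intro a' a
          have b1 := hb (fun u => (starRingEnd ℂ) (y (a, u))) fun w => (ξ : A × V → ℂ) (a', w)
          simp only [Complex.norm_conj] at b1
          have b2 : ∑ u ∈ R, (starRingEnd ℂ) (y (a, u)) *
              ∑ w ∈ C, q (a * a'⁻¹) * E u w * (ξ : A × V → ℂ) (a', w) =
              q (a * a'⁻¹) * ∑ u ∈ R, ∑ w ∈ C,
                (starRingEnd ℂ) (y (a, u)) * (ξ : A × V → ℂ) (a', w) * E u w := by
            simp only [Finset.mul_sum]
            exact Finset.sum_congr rfl fun _ _ => Finset.sum_congr rfl fun _ _ => by ring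
          rw [b2, norm_mul]
          refine (mul_le_mul_of_nonneg_left b1 (norm_nonneg _)).trans (le_of_eq (by ring))
        refine (norm_sum_le _ _).trans ((Finset.sum_le_sum fun a' _ =>
          (norm_sum_le _ _).trans (Finset.sum_le_sum fun a _ => a1 a' a)).trans ?_)
        simp only [← Finset.mul_sum]
        rw [mul_assoc]
        refine mul_le_mul_of_nonneg_left ((gm_schur q hq s t _ _).trans ?_) he
        have c1 : ∀ (X : Finset V) (z : V → ℂ), Real.sqrt (∑ u ∈ X, ‖z u‖ ^ 2) ^ 2 =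
            ∑ u ∈ X, ‖z u‖ ^ 2 := fun X z =>
          Real.sq_sqrt (Finset.sum_nonneg fun _ _ => sq_nonneg _)
        simp only [c1]
        refine mul_le_mul_of_nonneg_left (Real.sqrt_le_iff.2 ⟨norm_nonneg _, ?_⟩)
          (Real.sqrt_nonneg _)
        rw [← Finset.sum_product' (f := fun a' w => ‖(ξ : A × V → ℂ) (a', w)‖ ^ 2)]
        exact sum_le_hasSum _ (fun _ _ => sq_nonneg _) (hasSum_norm_sq ξ)
      rw [Complex.norm_real, Real.norm_of_nonneg hN0] at h3
      have h4 := Real.mul_self_sqrt hN0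
      have h5 := Real.sqrt_nonneg N
      have h6 : 0 ≤ e * ‖ξ‖ := by positivity
      nlinarith [sq_nonneg (Real.sqrt N - e * ‖ξ‖)]
    refine lp.norm_le_of_forall_sum_le (p := 2) (by norm_num) (by positivity) fun t => ?_
    simp only [ENNReal.toReal_ofNat, Real.rpow_ofNat]
    refine le_trans ?_ (key (t.image Prod.fst))
    rw [← Finset.sum_product' (f := fun a u => ‖y (a, u)‖ ^ 2),
      ← Finset.sum_filter_of_ne (p := fun p : A × V => p.2 ∈ R)]
    · refine Finset.sum_le_sum_of_subset_of_nonneg (fun p hp => ?_) fun _ _ _ => sq_nonneg _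
      rw [Finset.mem_filter] at hp
      exact Finset.mem_product.2 ⟨Finset.mem_image_of_mem _ hp.1, hp.2⟩
    · intro p _ hp
      by_contra hR
      have h0 : ∀ w, E p.2 w = 0 := fun w => by by_contra h0; exact hR (hE _ _ h0).1
      have h1 := hs p
      simp only [h0, mul_zero, zero_mul, Finset.sum_const_zero] at h1
      refine hp ?_
      rw [show (T ξ : A × V → ℂ) p = 0 from h1.unique hasSum_zero, norm_zero]
      norm_num
  · refine (gm_row q hq (g := fun a' => p.1 * a'⁻¹)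
      (fun _ _ h => inv_injective (mul_left_cancel h)) C (E p.2) (fun w h => (hE _ _ h).2) s).trans ?_
    by_cases hp : p.2 ∈ R
    · exact Finset.single_le_sum (f := fun u => ∑ w ∈ C, ‖E u w‖)
        (fun _ _ => Finset.sum_nonneg fun _ _ => norm_nonneg _) hp
    · rw [Finset.sum_eq_zero fun w _ => ?_]
      · exact hM
      · by_contra h0; exact hp (hE _ _ (norm_ne_zero_iff.1 h0)).1
  · refine (gm_row q hq (g := fun a => a * p'.1⁻¹)
      (fun _ _ h => mul_right_cancel h) R (fun u => E u p'.2) (fun u h => (hE _ _ h).1) s).trans ?_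
    refine Finset.sum_le_sum fun u _ => ?_
    by_cases hp : p'.2 ∈ C
    · exact Finset.single_le_sum (f := fun w => ‖E u w‖) (fun _ _ => norm_nonneg _) hp
    · have : E u p'.2 = 0 := by by_contra h0; exact hp (hE _ _ h0).2
      rw [this, norm_zero]
      exact Finset.sum_nonneg fun _ _ => norm_nonneg _


namespace Par
variable (P : Par) {A : Type} (ω : P.Om A)

theorem gm_ty (i : ℤ) (κ : List P.F) (x : ℕ) :
    P.ty (P.sub i, if P.cross i then κ else P.es i x :: κ) = κ := by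
  unfold ty
  by_cases h : P.cross i
  · rw [if_pos (P.of_cross h).2.1, if_pos h]
  · rw [if_neg (P.of_not_cross h).1, if_neg h]; rfl

theorem gm_lvl (i : ℤ) : P.lvl i - 1 + 1 = P.lvl i := by
  have := P.j₀_le_stg (P.tp i)
  have := P.hj
  unfold lvl
  omega

theorem gm_sum_tp {M : Type} [AddCommMonoid M] (i : ℤ) (φ : P.V → M) :
    ∑ x ∈ lists Finset.univ (P.lvl i - 1 + 1), (if x ∈ P.Nd (P.tp i) then φ (P.tp i, x) else 0) =
      ∑ U ∈ P.node (P.tp i), φ U := by
  unfold node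
  rw [Finset.sum_image fun a _ b _ h => (Prod.ext_iff.1 h).2, ← Finset.sum_filter,
    Finset.filter_mem_eq_inter, Finset.inter_eq_right.2]
  intro x hx
  obtain ⟨y, κ, -, h2, rfl⟩ := P.mem_Nd.1 hx
  refine mem_lists.2 ⟨?_, fun _ _ => Finset.mem_univ _⟩
  rw [gm_lvl, List.length_cons, h2]; rfl

theorem gm_sum_blk {M : Type} [AddCommMonoid M] (i : ℤ) (φ : List P.F → M) :
    ∑ x ∈ lists Finset.univ (P.lvl i - 1), (if x ∈ P.Blk i then φ x else 0) =
      ∑ κ ∈ P.Blk i, φ κ := by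
  rw [← Finset.sum_filter, Finset.filter_mem_eq_inter, Finset.inter_eq_right.2]
  intro x hx
  refine mem_lists.2 ⟨?_, fun _ _ => Finset.mem_univ _⟩
  have := P.length_of_mem_Blk hx
  omega

theorem gm_pos (i : ℤ) : 0 < Real.sqrt ((P.node i).card * (P.node (i + 1)).card) := by
  have h1 : (0 : ℝ) < (P.node i).card := by exact_mod_cast (P.node_nonempty i).card_pos
  have h2 : (0 : ℝ) < (P.node (i + 1)).card := by exact_mod_cast (P.node_nonempty _).card_pos
  positivity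

theorem gm_coef (i : ℤ) : P.rho i / P.mb i * (P.ports i).card / (P.n : ℝ) ^ (P.lvl i - 1) =
    P.lam / Real.sqrt ((P.node i).card * (P.node (i + 1)).card) := by
  have h1 : (0 : ℝ) < P.n := by exact_mod_cast P.prime.pos
  have h3 : (0 : ℝ) < P.mb i := by exact_mod_cast P.gl_mb_pos i
  have h4 : (P.n : ℝ) ≤ 4 * (P.ports i).card := by exact_mod_cast (P.card_ports i).1
  have h5 : (0 : ℝ) < (P.ports i).card := by linarith
  have h6 := P.gm_pos i
  unfold rho kap
  field_simp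

theorem gm_err (i : ℤ) : P.rho i / P.mb i * (2 * Real.sqrt ((P.ports i).card * P.n)) *
    Real.sqrt (P.ms i) ≤ 16 * P.lam / Real.sqrt P.C := by
  have h1 : (0 : ℝ) < P.n := by exact_mod_cast P.prime.pos
  have h2 : (0 : ℝ) < P.C := by exact_mod_cast P.hC
  have h3 : (0 : ℝ) < P.mb i := by exact_mod_cast P.gl_mb_pos i
  have h4 : (P.n : ℝ) ≤ 4 * (P.ports i).card := by exact_mod_cast (P.card_ports i).1
  have h6 := P.gm_pos i
  have h7 := P.gm_coef i
  have h8 : (P.C : ℝ) ≤ P.mt i := by exact_mod_cast P.C_le_sz (P.tp i)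
  have h9 : (P.n : ℝ) ^ (P.lvl i - 1) ≤ 16 * (P.Blk i).card := by exact_mod_cast (P.card_Blk i).1
  have h10 : Real.sqrt ((P.node i).card * (P.node (i + 1)).card) ^ 2 =
      P.ms i * (P.Blk i).card * (P.mt i * (P.n : ℝ) ^ (P.lvl i - 1)) := by
    rw [Real.sq_sqrt (by positivity)]
    have := P.gl_card_pair i
    rw [(P.card_Blk i).2, P.card_node (P.tp i)] at this
    exact_mod_cast this
  have ha : 0 < P.rho i / P.mb i := div_pos (P.rho_mem i).1 h3
  have hl := P.lam_pos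
  have hnm : (0 : ℝ) < (P.n : ℝ) ^ (P.lvl i - 1) := by positivity
  rw [div_eq_div_iff hnm.ne' h6.ne'] at h7
  rw [le_div_iff₀ (Real.sqrt_pos.2 h2)]
  refine (pow_le_pow_iff_left₀ (by positivity) (by positivity) two_ne_zero).1 ?_
  rw [mul_pow, mul_pow, mul_pow, mul_pow, Real.sq_sqrt h2.le, Real.sq_sqrt (by positivity),
    Real.sq_sqrt (by positivity)]
  generalize P.rho i / P.mb i = a at *
  generalize Real.sqrt ((P.node i).card * (P.node (i + 1)).card) = S at *
  generalize (P.n : ℝ) ^ (P.lvl i - 1) = nm at *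
  have hms : (0 : ℝ) ≤ P.ms i := Nat.cast_nonneg _
  have hT : (0 : ℝ) < (P.ports i).card := by linarith
  refine le_of_mul_le_mul_right ?_ (show 0 < nm ^ 2 by positivity)
  have e : (16 * P.lam) ^ 2 * nm ^ 2 = 256 * (a * (P.ports i).card) ^ 2 * S ^ 2 := by
    calc (16 * P.lam) ^ 2 * nm ^ 2 = 256 * (P.lam * nm) ^ 2 := by ring
      _ = _ := by rw [← h7]; ring
  rw [e, h10]
  have k : P.n * P.C * nm ≤ (4 * (P.ports i).card) * P.mt i * (16 * (P.Blk i).card) :=
    mul_le_mul (mul_le_mul h4 h8 h2.le (by positivity)) h9 hnm.le (by positivity)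
  calc a ^ 2 * (2 ^ 2 * ((P.ports i).card * P.n)) * P.ms i * P.C * nm ^ 2
      = (4 * a ^ 2 * (P.ports i).card * P.ms i * nm) * (P.n * P.C * nm) := by ring
    _ ≤ (4 * a ^ 2 * (P.ports i).card * P.ms i * nm) *
        ((4 * (P.ports i).card) * P.mt i * (16 * (P.Blk i).card)) :=
        mul_le_mul_of_nonneg_left k (by positivity)
    _ = _ := by ring

/-- `mean_bound` with `T = ports i`, `m = lvl i - 1`, `f` extended by zero, `g⁺ κ = ∑_{W : ty W = κ} g W` (`sum_sub`, `‖g⁺‖² ≤ ms ‖g‖²`); the main term is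
`rho/mb · |T| (∑f)(∑g) / n^m = lam (∑f)(∑g)/√(|N||N'|)` by definition of `kap`; the error is
`lam · 2 √(n/|T|) · √(n^m/(|Blk| mt)) ≤ 16 lam / √C` (`card_ports`, `card_Blk`, `C_le_sz`). -/
theorem mean_pair (i : ℤ) (f g : P.V → ℂ) :
    ‖∑ U ∈ P.node (P.tp i), ∑ W ∈ P.node (P.sub i), f U * g W *
        (((P.rho i / P.mb i * ((P.ports i).filter fun t => tau (P.psi ω) t U.2 = P.ty W).card -
          P.lam / Real.sqrt ((P.node i).card * (P.node (i + 1)).card) : ℝ)) : ℂ)‖ ≤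
      16 * P.lam / Real.sqrt P.C * Real.sqrt (∑ U ∈ P.node (P.tp i), ‖f U‖ ^ 2) *
        Real.sqrt (∑ W ∈ P.node (P.sub i), ‖g W‖ ^ 2) := by
  have h3 : (0 : ℝ) < P.mb i := by exact_mod_cast P.gl_mb_pos i
  have ha : 0 < P.rho i / P.mb i := div_pos (P.rho_mem i).1 h3
  let g' : List P.F → ℂ := fun κ => ∑ x ∈ Finset.range (P.ms i),
    g (P.sub i, if P.cross i then κ else P.es i x :: κ)
  have hmb := mean_bound (P.psi ω) (P.ports i) (P.lvl i - 1)
    (fun x => if x ∈ P.Nd (P.tp i) then f (P.tp i, x) else 0)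
    (fun κ => if κ ∈ P.Blk i then g' κ else 0)
  have e1 : ∀ κ, (if κ ∈ P.Blk i then g' κ else 0) =
      ∑ W ∈ P.node (P.sub i), g W * if κ = P.ty W then 1 else 0 := by
    intro κ
    rw [sum_sub]
    simp only [gm_ty]
    simp only [← Finset.sum_mul]
    simp only [mul_ite, mul_one, mul_zero]
    rw [Finset.sum_ite_eq]
  have e2 : ∑ t ∈ P.ports i, ∑ x ∈ lists Finset.univ (P.lvl i - 1 + 1),
      (if x ∈ P.Nd (P.tp i) then f (P.tp i, x) else 0) *
        (if tau (P.psi ω) t x ∈ P.Blk i then g' (tau (P.psi ω) t x) else 0) =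
      ∑ U ∈ P.node (P.tp i), ∑ W ∈ P.node (P.sub i), f U * g W *
        (((P.ports i).filter fun t => tau (P.psi ω) t U.2 = P.ty W).card : ℂ) := by
    simp only [e1, ite_mul, zero_mul]
    rw [Finset.sum_congr rfl fun t _ => P.gm_sum_tp i fun U => f U *
      ∑ W ∈ P.node (P.sub i), g W * if tau (P.psi ω) t U.2 = P.ty W then 1 else 0,
      Finset.sum_comm]
    refine Finset.sum_congr rfl fun U _ => ?_
    simp only [Finset.mul_sum]
    rw [Finset.sum_comm]
    refine Finset.sum_congr rfl fun W _ => ?_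
    rw [Finset.card_filter]
    push_cast
    rw [Finset.mul_sum]
    exact Finset.sum_congr rfl fun t _ => by ring
  have e3 : ∑ x ∈ lists Finset.univ (P.lvl i - 1 + 1),
      ‖if x ∈ P.Nd (P.tp i) then f (P.tp i, x) else 0‖ ^ 2 = ∑ U ∈ P.node (P.tp i), ‖f U‖ ^ 2 := by
    rw [← P.gm_sum_tp i fun U => ‖f U‖ ^ 2]
    refine Finset.sum_congr rfl fun x _ => ?_
    split_ifs <;> simp
  have e4 : ∑ x ∈ lists Finset.univ (P.lvl i - 1), ‖if x ∈ P.Blk i then g' x else 0‖ ^ 2 ≤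
      P.ms i * ∑ W ∈ P.node (P.sub i), ‖g W‖ ^ 2 := by
    rw [Finset.sum_congr rfl (g := fun x => if x ∈ P.Blk i then ‖g' x‖ ^ 2 else 0)
      fun x _ => by split_ifs <;> simp, gm_sum_blk, sum_sub, Finset.mul_sum]
    refine Finset.sum_le_sum fun κ _ => ?_
    refine (pow_le_pow_left₀ (norm_nonneg _) (norm_sum_le _ _) 2).trans ?_
    refine sq_sum_le_card_mul_sum_sq.trans (le_of_eq ?_)
    rw [Finset.card_range]
  rw [e2, e3, gm_sum_tp, gm_sum_blk, ← sum_sub, ZMod.card] at hmb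
  have e5 : ∑ U ∈ P.node (P.tp i), ∑ W ∈ P.node (P.sub i), f U * g W *
      (((P.rho i / P.mb i * ((P.ports i).filter fun t => tau (P.psi ω) t U.2 = P.ty W).card -
        P.lam / Real.sqrt ((P.node i).card * (P.node (i + 1)).card) : ℝ)) : ℂ) =
      ((P.rho i / P.mb i : ℝ) : ℂ) * (∑ U ∈ P.node (P.tp i), ∑ W ∈ P.node (P.sub i), f U * g W *
        (((P.ports i).filter fun t => tau (P.psi ω) t U.2 = P.ty W).card : ℂ) -
        (P.ports i).card * (∑ U ∈ P.node (P.tp i), f U) * (∑ W ∈ P.node (P.sub i), g W) /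
          (P.n : ℂ) ^ (P.lvl i - 1)) := by
    rw [← P.gm_coef i, mul_assoc ((P.ports i).card : ℂ), Finset.sum_mul_sum]
    simp only [Finset.mul_sum, Finset.sum_div, ← Finset.sum_sub_distrib]
    refine Finset.sum_congr rfl fun U _ => Finset.sum_congr rfl fun W _ => ?_
    push_cast
    ring
  rw [e5, norm_mul, Complex.norm_real, Real.norm_of_nonneg ha.le]
  refine (mul_le_mul_of_nonneg_left hmb ha.le).trans ?_
  have e6 := Real.sqrt_le_sqrt e4
  rw [Real.sqrt_mul (Nat.cast_nonneg _)] at e6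
  have e7 := P.gm_err i
  have e8 := Real.sqrt_nonneg ((P.ports i).card * P.n : ℝ)
  have e9 := Real.sqrt_nonneg (∑ U ∈ P.node (P.tp i), ‖f U‖ ^ 2)
  have e10 := Real.sqrt_nonneg (∑ W ∈ P.node (P.sub i), ‖g W‖ ^ 2)
  exact gm_fin ha.le e8 e9 e10 e6 e7


open Classical in
theorem gm_bad (i : ℤ) (f : P.V → ℂ) :
    ‖∑ U ∈ P.node i, f U - ∑ U ∈ P.node i, (if P.Good ω U then f U else 0)‖ ≤
      Real.sqrt (3 / P.n) * Real.sqrt (P.node i).card * Real.sqrt (∑ U ∈ P.node i, ‖f U‖ ^ 2) := by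
  have h1 : (0 : ℝ) < P.n := by exact_mod_cast P.prime.pos
  have e : ∑ U ∈ P.node i, f U - ∑ U ∈ P.node i, (if P.Good ω U then f U else 0) =
      ∑ U ∈ (P.node i).filter fun U => ¬ P.Good ω U, f U := by
    rw [Finset.sum_filter, ← Finset.sum_sub_distrib]
    refine Finset.sum_congr rfl fun U _ => ?_
    by_cases h : P.Good ω U <;> simp [h]
  rw [e]
  refine (gm_cs _ _).trans (mul_le_mul ?_ (Real.sqrt_le_sqrt ?_) (Real.sqrt_nonneg _)
    (by positivity))
  · rw [← Real.sqrt_mul (by positivity)]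
    refine Real.sqrt_le_sqrt ?_
    rw [div_mul_eq_mul_div, le_div_iff₀ h1]
    exact_mod_cast P.card_bad_le i
  · exact Finset.sum_le_sum_of_subset_of_nonneg (Finset.filter_subset _ _)
      fun _ _ _ => sq_nonneg _

open Classical in
theorem gm_norm_le (s : Finset P.V) (f : P.V → ℂ) :
    Real.sqrt (∑ U ∈ s, ‖if P.Good ω U then f U else 0‖ ^ 2) ≤ Real.sqrt (∑ U ∈ s, ‖f U‖ ^ 2) := by
  refine Real.sqrt_le_sqrt (Finset.sum_le_sum fun U _ => ?_)
  split_ifs
  · exact le_rfl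
  · rw [norm_zero, zero_pow two_ne_zero]; positivity

open Classical in
/-- apply `mean_pair` to `1_Good f`, `1_Good g`; the rank-one term changes by at most `2 lam √(3/n)` (`card_bad_le`, Cauchy–Schwarz) -/
theorem mean_pair_good (i : ℤ) (f g : P.V → ℂ) :
    ‖∑ U ∈ P.node (P.tp i), ∑ W ∈ P.node (P.sub i), f U * g W *
        (((P.rho i / P.mb i * ((P.ports i).filter fun t => P.SameBlk ω i t U W).card -
          P.lam / Real.sqrt ((P.node i).card * (P.node (i + 1)).card) : ℝ)) : ℂ)‖ ≤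
      (16 * P.lam / Real.sqrt P.C + 2 * P.lam * Real.sqrt (3 / P.n)) *
        Real.sqrt (∑ U ∈ P.node (P.tp i), ‖f U‖ ^ 2) * Real.sqrt (∑ W ∈ P.node (P.sub i), ‖g W‖ ^ 2) := by
  have hl := P.lam_pos
  have h6 := P.gm_pos i
  have h1 := P.mean_pair ω i (fun U => if P.Good ω U then f U else 0)
    (fun W => if P.Good ω W then g W else 0)
  set c := P.lam / Real.sqrt ((P.node i).card * (P.node (i + 1)).card) with hc
  have hc0 : 0 < c := by positivity
  have hcS : c * (Real.sqrt (P.node (P.tp i)).card * Real.sqrt (P.node (P.sub i)).card) =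
      P.lam := by
    have : ((P.node (P.tp i)).card : ℝ) * (P.node (P.sub i)).card =
        (P.node i).card * (P.node (i + 1)).card := by
      have := P.gl_card_pair i
      rw [mul_comm (P.node (P.sub i)).card] at this
      exact_mod_cast this.symm
    rw [← Real.sqrt_mul (Nat.cast_nonneg _), this, hc, div_mul_cancel₀ _ h6.ne']
  have e : ∑ U ∈ P.node (P.tp i), ∑ W ∈ P.node (P.sub i), f U * g W *
        (((P.rho i / P.mb i * ((P.ports i).filter fun t => P.SameBlk ω i t U W).card -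
          c : ℝ)) : ℂ) =
      ∑ U ∈ P.node (P.tp i), ∑ W ∈ P.node (P.sub i),
        (if P.Good ω U then f U else 0) * (if P.Good ω W then g W else 0) *
        (((P.rho i / P.mb i * ((P.ports i).filter fun t => tau (P.psi ω) t U.2 = P.ty W).card -
          c : ℝ)) : ℂ) -
      (c : ℂ) * ((∑ U ∈ P.node (P.tp i), f U -
          ∑ U ∈ P.node (P.tp i), (if P.Good ω U then f U else 0)) * ∑ W ∈ P.node (P.sub i), g W +
        (∑ U ∈ P.node (P.tp i), (if P.Good ω U then f U else 0)) * (∑ W ∈ P.node (P.sub i), g W -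
          ∑ W ∈ P.node (P.sub i), (if P.Good ω W then g W else 0))) := by
    rw [show ∀ a b x y : ℂ, (a - b) * x + b * (x - y) = a * x - b * y from fun _ _ _ _ => by ring,
      Finset.sum_mul_sum, Finset.sum_mul_sum]
    simp only [Finset.mul_sum, ← Finset.sum_sub_distrib]
    refine Finset.sum_congr rfl fun U hU => Finset.sum_congr rfl fun W hW => ?_
    by_cases hg : P.Good ω U ∧ P.Good ω W
    · rw [if_pos hg.1, if_pos hg.2, Finset.filter_congr (q := fun t =>
        tau (P.psi ω) t U.2 = P.ty W) fun t ht => ⟨fun h => h.2.2.2.2.2,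
          fun h => ⟨ht, hU, hW, hg.1, hg.2, h⟩⟩]
      ring
    · have z : (if P.Good ω U then f U else 0) * (if P.Good ω W then g W else 0) = 0 := by
        split_ifs with a b
        · exact absurd ⟨a, b⟩ hg
        all_goals simp
      rw [z, Finset.filter_eq_empty_iff.2 fun t _ h => hg ⟨h.2.2.2.1, h.2.2.2.2.1⟩]
      push_cast
      simp [mul_comm]
  rw [e]
  have a1 := P.gm_bad ω (P.tp i) f
  have a2 := P.gm_bad ω (P.sub i) g
  have a3 := gm_cs (P.node (P.sub i)) g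
  have a4 := (gm_cs (P.node (P.tp i)) fun U => if P.Good ω U then f U else 0).trans
    (mul_le_mul_of_nonneg_left (P.gm_norm_le ω _ f) (Real.sqrt_nonneg _))
  have a0 : 0 ≤ 16 * P.lam / Real.sqrt P.C := by positivity
  have a5 := h1.trans (mul_le_mul (mul_le_mul_of_nonneg_left (P.gm_norm_le ω _ f) a0)
    (P.gm_norm_le ω _ g) (Real.sqrt_nonneg _) (mul_nonneg a0 (Real.sqrt_nonneg _)))
  exact gm_fin2 hc0.le (Real.sqrt_nonneg _) (Real.sqrt_nonneg _) (Real.sqrt_nonneg _) hcS a5 a1 a3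
    a4 a2


end Par
end Crest.Agent.R129
end

-- ▼ part PVb/R129/GOp

/-! # The operator inequality (task R129/GOp). Statements frozen. -/

set_option autoImplicit false
set_option linter.unusedSectionVars false
open scoped BigOperators

namespace Crest.Agent.R129

theorem gop_schur {A V : Type} [Group A] (h : V → V → A → ℂ) (N : Finset V)
    (hN : ∀ u w f, h u w f ≠ 0 → u ∈ N ∧ w ∈ N) (c : ℝ) (hc0 : 0 ≤ c)
    (hc : ∀ u w (s : Finset A), ∑ f ∈ s, ‖h u w f‖ ≤ c) (p q : A × V) :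
    mat (kop fun p q : A × V => h p.2 q.2 (p.1 * q.1⁻¹)) p q = h p.2 q.2 (p.1 * q.1⁻¹) := by
  classical
  have key : ∀ (g : A × V → ℂ) (s : Finset (A × V)), (∀ x, g x ≠ 0 → x.2 ∈ N) →
      (∀ w (s' : Finset A), ∑ a ∈ s', ‖g (a, w)‖ ≤ c) → ∑ x ∈ s, ‖g x‖ ≤ N.card * c := by
    intro g s h1 h2
    calc ∑ x ∈ s, ‖g x‖ = ∑ x ∈ s.filter (fun x => x.2 ∈ N), ‖g x‖ := by
          symm
          refine Finset.sum_subset (Finset.filter_subset _ _) fun x hx hx' => ?_
          by_contra hne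
          exact hx' (Finset.mem_filter.2 ⟨hx, h1 x fun h0 => hne (by rw [h0, norm_zero])⟩)
      _ ≤ ∑ x ∈ (s.image Prod.fst) ×ˢ N, ‖g x‖ := by
          refine Finset.sum_le_sum_of_subset_of_nonneg (fun x hx => ?_) fun _ _ _ => norm_nonneg _
          obtain ⟨h3, h4⟩ := Finset.mem_filter.1 hx
          exact Finset.mem_product.2 ⟨Finset.mem_image_of_mem _ h3, h4⟩
      _ = ∑ w ∈ N, ∑ a ∈ s.image Prod.fst, ‖g (a, w)‖ := Finset.sum_product_right _ _ _
      _ ≤ ∑ _w ∈ N, c := Finset.sum_le_sum fun w _ => h2 w _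
      _ = _ := by simp
  refine (schur₁ _ (N.card * c) (N.card * c) (by positivity) (by positivity) ?_ ?_).1 p q
  · intro p s
    refine key (fun q => h p.2 q.2 (p.1 * q.1⁻¹)) s (fun x hx => (hN _ _ _ hx).2) fun w s' => ?_
    have := hc p.2 w (s'.image fun a => p.1 * a⁻¹)
    rwa [Finset.sum_image fun a _ b _ hab => inv_injective (mul_left_cancel hab)] at this
  · intro q s
    refine key (fun p => h p.2 q.2 (p.1 * q.1⁻¹)) s (fun x hx => (hN _ _ _ hx).1) fun w s' => ?_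
    have := hc w q.2 (s'.image fun a => a * q.1⁻¹)
    rwa [Finset.sum_image fun a _ b _ hab => mul_right_cancel hab] at this

theorem gop_blocks {I J C : Type} (T : L2 I →L[ℂ] L2 J) (c : I → C) (c' : J → C)
    (Tx : C → L2 I →L[ℂ] L2 J) (a : ℝ) (ha : 0 ≤ a)
    (hT : ∀ j i, mat T j i ≠ 0 → c' j = c i)
    (he : ∀ j i, c' j = c i → mat T j i = mat (Tx (c i)) j i) (hb : ∀ x, ‖Tx x‖ ≤ a) :
    ‖T‖ ≤ a := by
  classical
  refine norm_le_of_blocks T c c' hT a ha fun x ξ hξ => ?_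
  have e : T ξ = prj {j | c' j = x} (Tx x ξ) := by
    ext j
    rw [prj_apply]
    refine (hasSum_apply T ξ j).unique ?_
    by_cases hj : j ∈ {j | c' j = x}
    · rw [if_pos hj]
      have e1 : (fun i => mat T j i * (ξ : I → ℂ) i) = fun i => mat (Tx x) j i * (ξ : I → ℂ) i := by
        funext i
        by_cases h0 : (ξ : I → ℂ) i = 0
        · rw [h0, mul_zero, mul_zero]
        · have := hξ i h0
          rw [he j i (Eq.trans hj this.symm), this]
      rw [e1]
      exact hasSum_apply _ _ _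
    · rw [if_neg hj]
      have e1 : (fun i => mat T j i * (ξ : I → ℂ) i) = fun _ => 0 := by
        funext i
        by_cases h0 : (ξ : I → ℂ) i = 0
        · rw [h0, mul_zero]
        · by_cases h1 : mat T j i = 0
          · rw [h1, zero_mul]
          · exact absurd ((hT j i h1).trans (hξ i h0)) hj
      rw [e1]
      exact hasSum_zero
  rw [e]
  calc ‖prj {j | c' j = x} (Tx x ξ)‖ ≤ ‖prj {j | c' j = x}‖ * ‖Tx x ξ‖ :=
        ContinuousLinearMap.le_opNorm _ _
    _ ≤ 1 * (a * ‖ξ‖) := mul_le_mul (norm_prj_le _)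
        (((Tx x).le_opNorm ξ).trans (mul_le_mul_of_nonneg_right (hb x) (norm_nonneg _)))
        (norm_nonneg _) zero_le_one
    _ = _ := one_mul _

/-- a bidiagonal operator is the sum of two block diagonal ones -/
theorem gop_split {I : Type} (Z : L2 I →L[ℂ] L2 I) (d : I → ℤ) (Zx : ℤ → L2 I →L[ℂ] L2 I)
    (b : ℝ) (hb0 : 0 ≤ b) (hb : ∀ x, ‖Zx x‖ ≤ b)
    (hs : ∀ p q, mat Z p q ≠ 0 → Even (d p) ∧ (d q = d p + 1 ∨ d q + 1 = d p))
    (h1 : ∀ p q, d q = d p + 1 → mat Z p q = mat (Zx (d p)) p q)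
    (h2 : ∀ p q, d q + 1 = d p → mat Z p q = mat (Zx (d q)) p q) : ‖Z‖ ≤ 2 * b := by
  classical
  set Z₀ := prj {p | d p % 4 = 0} ∘L Z ∘L prj {p | d p % 4 = 1}
    + prj {p | d p % 4 = 2} ∘L Z ∘L prj {p | d p % 4 = 3} with hZ₀
  have m0 : ∀ p q, mat Z₀ p q = if d q = d p + 1 then mat Z p q else 0 := by
    intro p q
    rw [hZ₀, mat_add, mat_prj_comp, mat_prj_comp]
    by_cases h0 : mat Z p q = 0
    · simp [h0]
    · obtain ⟨⟨k, hk⟩, h4⟩ := hs p q h0
      simp only [Set.mem_ofPred_eq]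
      split_ifs <;> first | omega | simp
  have m1 : ∀ p q, mat (Z - Z₀) p q = if d q + 1 = d p then mat Z p q else 0 := by
    intro p q
    rw [mat_sub, m0]
    by_cases h0 : mat Z p q = 0
    · simp [h0]
    · obtain ⟨-, h4⟩ := hs p q h0
      split_ifs <;> first | omega | simp
  have n0 : ‖Z₀‖ ≤ b := by
    refine gop_blocks Z₀ (fun q => d q - 1) d Zx b hb0 (fun p q hne => ?_) (fun p q h => ?_) hb
    · rw [m0] at hne
      have : d q = d p + 1 := by by_contra hh; exact hne (if_neg hh)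
      omega
    · have h' : d q = d p + 1 := by omega
      rw [m0, if_pos h', h1 p q h', h]
  have n1 : ‖Z - Z₀‖ ≤ b := by
    refine gop_blocks (Z - Z₀) d (fun p => d p - 1) Zx b hb0 (fun p q hne => ?_)
      (fun p q h => ?_) hb
    · rw [m1] at hne
      have : d q + 1 = d p := by by_contra hh; exact hne (if_neg hh)
      omega
    · have h' : d q + 1 = d p := by omega
      rw [m1, if_pos h', h2 p q h']
  calc ‖Z‖ = ‖Z₀ + (Z - Z₀)‖ := by rw [add_sub_cancel]
    _ ≤ _ := norm_add_le _ _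
    _ ≤ 2 * b := by linarith

open Classical in
theorem BG.gop_matW {F A K : Type} (Γ : BG F A) (node : ℤ → Finset Γ.V)
    (hd : ∀ i j, i ≠ j → Disjoint (node i) (node j)) (d : Γ.V → ℤ)
    (hdn : ∀ i v, v ∈ node i → d v = i) (Q : L2 (K × ℤ) →L[ℂ] L2 (K × ℤ)) (p q : K × Γ.V) :
    mat (Γ.Wop K node ∘L Q ∘L adj (Γ.Wop K node)) p q =
      if p.2 ∈ node (d p.2) ∧ q.2 ∈ node (d q.2) then
        mat Q (p.1, d p.2) (q.1, d q.2) *
          (((Real.sqrt ((node (d p.2)).card * (node (d q.2)).card))⁻¹ : ℝ) : ℂ) else 0 := by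
  have hW : ∀ (x : K × Γ.V) (y : K × ℤ), y ≠ (x.1, d x.2) → mat (Γ.Wop K node) x y = 0 := by
    intro x y hy
    rw [BG.mat_Wop Γ K node hd, if_neg]
    rintro ⟨h1, h2⟩
    exact hy (Prod.ext h1.symm (hdn _ _ h2).symm)
  have e1 : ∀ y, mat (Q ∘L adj (Γ.Wop K node)) y q =
      mat Q y (q.1, d q.2) * mat (adj (Γ.Wop K node)) (q.1, d q.2) q := by
    intro y
    refine (hasSum_mat_comp _ _ y q).unique (hasSum_single (q.1, d q.2) fun z hz => ?_)
    rw [mat_adj, hW q z hz, map_zero, mul_zero]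
  have e2 : mat (Γ.Wop K node ∘L Q ∘L adj (Γ.Wop K node)) p q =
      mat (Γ.Wop K node) p (p.1, d p.2) * mat (Q ∘L adj (Γ.Wop K node)) (p.1, d p.2) q := by
    refine (hasSum_mat_comp _ _ p q).unique (hasSum_single (p.1, d p.2) fun z hz => ?_)
    rw [hW p z hz, zero_mul]
  rw [e2, e1, mat_adj, BG.mat_Wop Γ K node hd, BG.mat_Wop Γ K node hd]
  by_cases hp : p.2 ∈ node (d p.2) <;> by_cases hq : q.2 ∈ node (d q.2)
  · rw [if_pos ⟨rfl, hp⟩, if_pos ⟨rfl, hq⟩, if_pos ⟨hp, hq⟩, Complex.conj_ofReal,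
      Real.sqrt_mul (Nat.cast_nonneg _), mul_inv]
    push_cast; ring
  · simp [hq]
  · simp [hp]
  · simp [hp]

namespace Par
variable (P : Par) {A : Type} [Group A] {μ : ℤ → (A × ZMod 4) →₀ ℝ} {on : ℤ → Prop} {ω : P.Om A}

/-- crude Schur test (finitely many `u, w, t`; `∑_f ‖cH … f‖ ≤ 2`) -/
theorem mat_fluct (hμ : ∀ i, IsLaw (μ i)) (i : ℤ) (p q : A × P.V) :
    mat (P.fluct μ i ω) p q = ∑ t ∈ P.ports i, P.cH μ i ω ω p.2 t q.2 (p.1 * q.1⁻¹) := by
  classical
  unfold fluct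
  refine gop_schur (fun u w f => ∑ t ∈ P.ports i, P.cH μ i ω ω u t w f)
    (P.node (P.tp i) ∪ P.node (P.sub i)) ?_ ((P.ports i).card * (1 + |P.rho i / P.mb i|))
    (by positivity) ?_ p q
  · intro u w f hne
    obtain ⟨t, -, ht⟩ := Finset.exists_ne_zero_of_sum_ne_zero hne
    unfold cH at ht
    have : Even u.1 ∧ (P.SameBlk ω i t u w ∨ P.SameBlk ω i t w u) := by
      by_contra hh; exact ht (if_neg hh)
    rcases this.2 with h | h
    · exact ⟨Finset.mem_union_left _ h.2.1, Finset.mem_union_right _ h.2.2.1⟩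
    · exact ⟨Finset.mem_union_right _ h.2.2.1, Finset.mem_union_left _ h.2.1⟩
  · intro u w s
    refine (Finset.sum_le_sum fun f _ => norm_sum_le _ _).trans ?_
    rw [Finset.sum_comm]
    refine (Finset.sum_le_sum (g := fun _ => 1 + |P.rho i / P.mb i|) fun t _ => ?_).trans
      (by rw [Finset.sum_const, nsmul_eq_mul])
    have hb : ∀ f, ‖P.cH μ i ω ω u t w f‖ ≤
        ‖(if (ω (.inr (u.1, u.2, t))).2.1 = f then (1 : ℂ) else 0)‖ +
          |P.rho i / P.mb i| * ‖qco (μ i) f‖ := by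
      intro f
      unfold cH
      split_ifs with h1 h2 h3 h3 h3
      · refine (norm_sub_le _ _).trans (le_of_eq ?_)
        rw [norm_ph, norm_one, norm_mul, Complex.norm_real, Real.norm_eq_abs]
      · exact absurd h2.2 h3
      · rw [zero_sub, norm_neg, norm_mul, Complex.norm_real, Real.norm_eq_abs, norm_one]
        linarith
      · rw [zero_sub, norm_neg, norm_mul, Complex.norm_real, Real.norm_eq_abs, norm_zero, zero_add]
      · rw [norm_zero]; positivity
      · rw [norm_zero]; positivity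
    refine (Finset.sum_le_sum fun f _ => hb f).trans ?_
    rw [Finset.sum_add_distrib, ← Finset.mul_sum]
    have h1 := wq_sum_one (fun f => if (ω (.inr (u.1, u.2, t))).2.1 = f then (1 : ℂ) else 0)
      (fun f => by split_ifs <;> simp) (fun f f' hf hf' => by
        have a1 : (ω (.inr (u.1, u.2, t))).2.1 = f := by by_contra hh; exact hf (if_neg hh)
        have a2 : (ω (.inr (u.1, u.2, t))).2.1 = f' := by by_contra hh; exact hf' (if_neg hh)
        exact a1.symm.trans a2) s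
    have h2 := mul_le_mul_of_nonneg_left (sum_norm_qco_le (hμ i) s) (abs_nonneg (P.rho i / P.mb i))
    linarith

open Classical in
/-- the bracket of `mean_pair_good`, cut to the pair -/
noncomputable def Ebr (ω : P.Om A) (i : ℤ) (U W : P.V) : ℂ :=
  if U ∈ P.node (P.tp i) ∧ W ∈ P.node (P.sub i) then
    (((P.rho i / P.mb i * ((P.ports i).filter fun t => P.SameBlk ω i t U W).card -
      P.lam / Real.sqrt ((P.node i).card * (P.node (i + 1)).card) : ℝ)) : ℂ)
  else 0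

theorem Ebr_ne {i : ℤ} {U W : P.V} (h : P.Ebr ω i U W ≠ 0) :
    U ∈ P.node (P.tp i) ∧ W ∈ P.node (P.sub i) := by
  by_contra hh
  exact h (if_neg hh)

theorem Ebr_bound (i : ℤ) (f g : P.V → ℂ) :
    ‖∑ U ∈ P.node (P.tp i), ∑ W ∈ P.node (P.sub i), f U * g W * P.Ebr ω i U W‖ ≤
      (16 * P.lam / Real.sqrt P.C + 2 * P.lam * Real.sqrt (3 / P.n)) *
        Real.sqrt (∑ U ∈ P.node (P.tp i), ‖f U‖ ^ 2) *
        Real.sqrt (∑ W ∈ P.node (P.sub i), ‖g W‖ ^ 2) := by
  classical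
  refine le_of_eq_of_le ?_ (P.mean_pair_good ω i f g)
  refine congrArg norm (Finset.sum_congr rfl fun U hU => Finset.sum_congr rfl fun W hW => ?_)
  unfold Ebr
  rw [if_pos ⟨hU, hW⟩]

theorem adj_iff_pair {i : ℤ} {t : P.F} {u w : P.V}
    (hi : (u.1 = i ∧ w.1 = i + 1) ∨ (u.1 = i + 1 ∧ w.1 = i)) :
    P.Adj ω on t u w ↔ P.PE ω on i t u w ∨ P.PE ω on i t w u := by
  refine ⟨?_, fun h => ⟨i, h⟩⟩
  rintro ⟨j, hj⟩
  have : j = i := by
    have h3 := P.sub_tp j
    rcases hj with h | h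
    · have h1 := P.fst_of_mem h.2.1.2.1
      have h2 := P.fst_of_mem h.2.1.2.2.1
      omega
    · have h1 := P.fst_of_mem h.2.1.2.1
      have h2 := P.fst_of_mem h.2.1.2.2.1
      omega
  rwa [this] at hj

open Classical in
theorem mat_B (p q : A × P.V) :
    mat ((P.graph ω on).Bop (P.graph ω on).a) p q = ∑ t : P.F,
      if (Even p.2.1 ∧ P.Adj ω on t p.2 q.2) ∧ (ω (.inr (p.2.1, p.2.2, t))).2.1 = p.1 * q.1⁻¹
      then ph (ω (.inr (p.2.1, p.2.2, t))).2.2 else 0 := by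
  refine (BG.mat_Bop (P.graph ω on) (P.graph ω on).a p q).trans ?_
  refine Finset.sum_congr rfl fun t _ => ?_
  exact if_congr (and_congr P.nbr_eq_some Iff.rfl) rfl rfl

open Classical in
theorem mat_X (hμ : ∀ i, IsLaw (μ i)) (p q : A × P.V) :
    mat ((P.graph ω on).Wop A P.node ∘L Qop μ on ∘L adj ((P.graph ω on).Wop A P.node)) p q =
      if p.2 ∈ P.node p.2.1 ∧ q.2 ∈ P.node q.2.1 then
        (if Even p.2.1 then
          (if q.2.1 = p.2.1 + 1 ∧ on p.2.1 then qco (μ p.2.1) (p.1 * q.1⁻¹) else 0) +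
          (if q.2.1 = p.2.1 - 1 ∧ on (p.2.1 - 1) then qco (μ (p.2.1 - 1)) (p.1 * q.1⁻¹) else 0)
        else 0) *
          (((Real.sqrt ((P.node p.2.1).card * (P.node q.2.1).card))⁻¹ : ℝ) : ℂ) else 0 := by
  refine (BG.gop_matW (P.graph ω on) P.node P.node_disjoint (fun v : P.V => v.1)
    (fun i v hv => P.fst_of_mem hv) (Qop μ on) p q).trans ?_
  rw [mat_Qop hμ]
  by_cases h : p.2 ∈ P.node p.2.1 ∧ q.2 ∈ P.node q.2.1
  · rw [if_pos h]
    exact if_pos h
  · rw [if_neg h]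
    exact if_neg h

open Classical in
theorem sum_cH {i : ℤ} (hon : on i) {u w : P.V} (hu : Even u.1)
    (hi : (u.1 = i ∧ w.1 = i + 1) ∨ (u.1 = i + 1 ∧ w.1 = i)) (f : A) :
    ∑ t ∈ P.ports i, P.cH μ i ω ω u t w f =
      (∑ t : P.F, if (Even u.1 ∧ P.Adj ω on t u w) ∧ (ω (.inr (u.1, u.2, t))).2.1 = f
        then ph (ω (.inr (u.1, u.2, t))).2.2 else 0) -
      ((P.rho i / P.mb i : ℝ) : ℂ) * qco (μ i) f *
        (((P.ports i).filter fun t => P.SameBlk ω i t u w ∨ P.SameBlk ω i t w u).card : ℂ) := by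
  rw [← Finset.sum_subset (Finset.subset_univ (P.ports i)), Finset.card_filter, Nat.cast_sum,
    Finset.mul_sum, ← Finset.sum_sub_distrib]
  · refine Finset.sum_congr rfl fun t _ => ?_
    unfold cH
    rw [P.adj_iff_pair hi]
    unfold PE
    by_cases hS : P.SameBlk ω i t u w ∨ P.SameBlk ω i t w u
    · rw [if_pos ⟨hu, hS⟩, if_pos hS]
      simp only [hu, hon, true_and, Nat.cast_one, mul_one]
    · rw [if_neg fun hh => hS hh.2, if_neg hS, if_neg]
      · simp
      · rintro ⟨⟨-, hh | hh⟩, -⟩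
        · exact hS (Or.inl hh.2.1)
        · exact hS (Or.inr hh.2.1)
  · intro t _ ht
    rw [if_neg]
    rintro ⟨⟨-, hh⟩, -⟩
    rcases (P.adj_iff_pair hi).1 hh with hh | hh
    · exact ht hh.2.1.1
    · exact ht hh.2.1.1

open Classical in
theorem mat_Z (hμ : ∀ i, IsLaw (μ i)) (p q : A × P.V) :
    (mat ((P.graph ω on).Bop (P.graph ω on).a - (P.lam : ℂ) • ((P.graph ω on).Wop A P.node ∘L
        Qop μ on ∘L adj ((P.graph ω on).Wop A P.node))) p q ≠ 0 →
      Even p.2.1 ∧ (q.2.1 = p.2.1 + 1 ∨ q.2.1 + 1 = p.2.1)) ∧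
    ∀ i, (p.2.1 = i ∧ q.2.1 = i + 1) ∨ (p.2.1 = i + 1 ∧ q.2.1 = i) →
      mat ((P.graph ω on).Bop (P.graph ω on).a - (P.lam : ℂ) • ((P.graph ω on).Wop A P.node ∘L
        Qop μ on ∘L adj ((P.graph ω on).Wop A P.node))) p q =
      if on i then ∑ t ∈ P.ports i, P.cH μ i ω ω p.2 t q.2 (p.1 * q.1⁻¹) +
        (if Even (P.tp i) then qco (μ i) (p.1 * q.1⁻¹) * P.Ebr ω i p.2 q.2
         else qco (μ i) (p.1 * q.1⁻¹) * P.Ebr ω i q.2 p.2)
      else 0 := by
  have e0 : mat ((P.graph ω on).Bop (P.graph ω on).a - (P.lam : ℂ) •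
      ((P.graph ω on).Wop A P.node ∘L Qop μ on ∘L adj ((P.graph ω on).Wop A P.node))) p q =
      mat ((P.graph ω on).Bop (P.graph ω on).a) p q - (P.lam : ℂ) *
        mat ((P.graph ω on).Wop A P.node ∘L Qop μ on ∘L adj ((P.graph ω on).Wop A P.node)) p q :=
    rfl
  rw [e0, P.mat_B, P.mat_X hμ]
  obtain ⟨a, u⟩ := p
  obtain ⟨a', w⟩ := q
  simp only
  constructor
  · intro hne
    by_contra hh
    apply hne
    rw [Finset.sum_eq_zero, zero_sub, neg_eq_zero, mul_eq_zero]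
    · right
      split_ifs with h1 h2 h3 h4 h4
      · exact absurd ⟨h2, Or.inl h3.1⟩ hh
      · exact absurd ⟨h2, Or.inl h3.1⟩ hh
      · exact absurd ⟨h2, Or.inr (by omega)⟩ hh
      · simp
      · simp
      · rfl
    · intro t _
      rw [if_neg]
      rintro ⟨⟨h1, h2⟩, -⟩
      refine hh ⟨h1, ?_⟩
      rcases (Adj.pair P h2).2.2.2.1 with h3 | h3
      · exact Or.inl h3.2
      · exact Or.inr h3.2
  · intro i hi
    have hst := P.sub_tp i
    by_cases hon : on i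
    swap
    · rw [if_neg hon, Finset.sum_eq_zero, zero_sub, neg_eq_zero, mul_eq_zero]
      · right
        split_ifs with h1 h2 h3 h4 h4
        · omega
        · exact absurd (show on i by rw [show i = u.1 by omega]; exact h3.2) hon
        · exact absurd (show on i by rw [show i = u.1 - 1 by omega]; exact h4.2) hon
        · simp
        · simp
        · rfl
      · intro t _
        rw [if_neg]
        rintro ⟨⟨-, h2⟩, -⟩
        rcases (P.adj_iff_pair hi).1 h2 with h3 | h3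
        · exact hon h3.1
        · exact hon h3.1
    rw [if_pos hon]
    by_cases hu : Even u.1
    swap
    · have z1 : ∑ t ∈ P.ports i, P.cH μ i ω ω u t w (a * a'⁻¹) = 0 :=
        Finset.sum_eq_zero fun t _ => by unfold cH; exact if_neg fun hh => hu hh.1
      have z2 : (if Even (P.tp i) then qco (μ i) (a * a'⁻¹) * P.Ebr ω i u w
          else qco (μ i) (a * a'⁻¹) * P.Ebr ω i w u) = 0 := by
        split_ifs with h1
        · rw [mul_eq_zero]; right
          by_contra hne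
          exact hu (by rw [P.fst_of_mem (P.Ebr_ne hne).1]; exact h1)
        · rw [mul_eq_zero]; right
          by_contra hne
          have h2 := P.fst_of_mem (P.Ebr_ne hne).2
          rw [Int.not_even_iff_odd] at h1 hu
          obtain ⟨k, hk⟩ := h1
          obtain ⟨k', hk'⟩ := hu
          omega
      rw [z1, z2, Finset.sum_eq_zero fun t _ => if_neg fun hh => hu hh.1.1]
      simp [hu]
    rw [P.sum_cH (on := on) hon hu hi, if_pos hu]
    have eq : ((if w.1 = u.1 + 1 ∧ on u.1 then qco (μ u.1) (a * a'⁻¹) else 0) +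
        (if w.1 = u.1 - 1 ∧ on (u.1 - 1) then qco (μ (u.1 - 1)) (a * a'⁻¹) else 0))
        = qco (μ i) (a * a'⁻¹) := by
      rcases hi with ⟨h1, h2⟩ | ⟨h1, h2⟩
      · rw [if_pos ⟨by omega, by rw [h1]; exact hon⟩, if_neg fun hh => by have := hh.1; omega,
          add_zero, h1]
      · have h3 : u.1 - 1 = i := by omega
        rw [if_neg fun hh => by have := hh.1; omega, if_pos ⟨by omega, by rw [h3]; exact hon⟩,
          zero_add, h3]
    have es : Real.sqrt ((P.node u.1).card * (P.node w.1).card)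
        = Real.sqrt ((P.node i).card * (P.node (i + 1)).card) := by
      rcases hi with ⟨h1, h2⟩ | ⟨h1, h2⟩
      · rw [h1, h2]
      · rw [h1, h2, mul_comm]
    rw [eq, es, sub_add, sub_right_inj]
    by_cases hev : Even (P.tp i)
    · have h1 : u.1 = P.tp i := by
        obtain ⟨k, hk⟩ := hev
        obtain ⟨k', hk'⟩ := hu
        omega
      have h2 : w.1 = P.sub i := by omega
      have e1 : ((P.ports i).filter fun t => P.SameBlk ω i t u w ∨ P.SameBlk ω i t w u)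
          = (P.ports i).filter fun t => P.SameBlk ω i t u w := by
        refine Finset.filter_congr fun t _ => or_iff_left fun hh => ?_
        have := P.fst_of_mem hh.2.1
        omega
      rw [if_pos hev, e1, h1, h2]
      unfold Ebr
      split_ifs with h3
      · push_cast; ring
      · rw [Finset.filter_eq_empty_iff.2 fun t _ hh => h3 ⟨hh.2.1, hh.2.2.1⟩]
        simp
    · have h1 : u.1 = P.sub i := by
        rw [Int.not_even_iff_odd] at hev
        obtain ⟨k, hk⟩ := hev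
        obtain ⟨k', hk'⟩ := hu
        omega
      have h2 : w.1 = P.tp i := by omega
      have e1 : ((P.ports i).filter fun t => P.SameBlk ω i t u w ∨ P.SameBlk ω i t w u)
          = (P.ports i).filter fun t => P.SameBlk ω i t w u := by
        refine Finset.filter_congr fun t _ => or_iff_right fun hh => ?_
        have := P.fst_of_mem hh.2.1
        omega
      rw [if_neg hev, e1, h1, h2]
      unfold Ebr
      by_cases h3 : w ∈ P.node (P.tp i) ∧ u ∈ P.node (P.sub i)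
      · rw [if_pos h3, if_pos h3.symm]
        push_cast; ring
      · rw [if_neg h3, if_neg fun hh => h3 hh.symm,
          Finset.filter_eq_empty_iff.2 fun t _ hh => h3 ⟨hh.2.1, hh.2.2.1⟩]
        simp

/-- `Z = B - lam W Q W*`.  For `u ∈ node iu` (even), `w ∈ node (iu ± 1)` in the pair `i` with `on i`:
`mat Z (a,u) (a',w) = mat (fluct i) + qco (μ i) (a a'⁻¹) · E_i u w`, `E_i` the bracket of `mean_pair_good` (in the order `tp`/`sub`); all other entries
vanish (`mat_Bop`, `nbr_eq_some`, `Adj.pair`, `mat_Wop`, `mat_Qop`, `hasSum_mat_comp`).  So `Z_i := fluct i + kop(q ⊗ E_i)` has norm `≤ b` (`tensor_bound`).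
Split `Z = prj{even pairs} + prj{odd pairs}`: e.g. `Z₀ = ∑` over entries with `q.2.1 = p.2.1 + 1`, `Z₁` with `q.2.1 = p.2.1 - 1`; they exist by Schur (or as
`kop` with row/column bounds), each is block diagonal (`norm_le_of_blocks`, `c' p = p.2.1`, `c q = q.2.1 ∓ 1`) and on a block it acts as `Z_i`. -/
theorem op_bound (hμ : ∀ i, IsLaw (μ i)) (h : ∀ i, ¬ P.badT μ on i ω) :
    ‖(P.graph ω on).Bop (P.graph ω on).a - (P.lam : ℂ) • ((P.graph ω on).Wop A P.node ∘L Qop μ on ∘L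
        adj ((P.graph ω on).Wop A P.node))‖ ≤
      2 * (16 * Real.sqrt (P.n * Real.sqrt P.n) + 16 * P.lam / Real.sqrt P.C +
        2 * P.lam * Real.sqrt (3 / P.n)) := by
  classical
  set Z := (P.graph ω on).Bop (P.graph ω on).a - (P.lam : ℂ) •
    ((P.graph ω on).Wop A P.node ∘L Qop μ on ∘L adj ((P.graph ω on).Wop A P.node)) with hZ
  have hlam := P.lam_pos
  have he0 : 0 ≤ 16 * P.lam / Real.sqrt P.C + 2 * P.lam * Real.sqrt (3 / P.n) := by positivity
  have hT1 := fun i => tensor_bound (qco (μ i)) (sum_norm_qco_le (hμ i)) (P.node (P.tp i))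
    (P.node (P.sub i)) (P.Ebr ω i) (fun u w => P.Ebr_ne) _ he0 (fun f g => P.Ebr_bound i f g)
  have hT2 := fun i => tensor_bound (qco (μ i)) (sum_norm_qco_le (hμ i)) (P.node (P.sub i))
    (P.node (P.tp i)) (fun u w => P.Ebr ω i w u) (fun u w h => (P.Ebr_ne h).symm) _ he0
    (fun f g => by
      have := P.Ebr_bound (ω := ω) i g f
      rw [Finset.sum_comm, mul_right_comm]
      simpa only [mul_comm (g _) (f _)] using this)
  let Zx : ℤ → L2 (A × P.V) →L[ℂ] L2 (A × P.V) := fun i =>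
    if on i then P.fluct μ i ω +
      (if Even (P.tp i) then kop fun p p' : A × P.V => qco (μ i) (p.1 * p'.1⁻¹) * P.Ebr ω i p.2 p'.2
       else kop fun p p' : A × P.V => qco (μ i) (p.1 * p'.1⁻¹) * P.Ebr ω i p'.2 p.2)
    else 0
  have hmat := P.mat_Z (on := on) (ω := ω) hμ
  have hkey : ∀ (p q : A × P.V) i, (p.2.1 = i ∧ q.2.1 = i + 1) ∨ (p.2.1 = i + 1 ∧ q.2.1 = i) →
      mat Z p q = mat (Zx i) p q := by
    intro p q i hi
    have e := (hmat p q).2 i hi
    refine e.trans ?_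
    by_cases hon : on i
    · simp only [Zx, if_pos hon]
      rw [mat_add, P.mat_fluct hμ]
      by_cases hev : Even (P.tp i)
      · rw [if_pos hev, if_pos hev, (hT1 i).1]
      · rw [if_neg hev, if_neg hev, (hT2 i).1]
    · simp only [Zx, if_neg hon]
      rfl
  have := gop_split (I := A × P.V) Z (fun p => p.2.1) Zx
    (16 * Real.sqrt (P.n * Real.sqrt P.n) +
      (16 * P.lam / Real.sqrt P.C + 2 * P.lam * Real.sqrt (3 / P.n))) (by positivity)
    (fun i => by
      by_cases hon : on i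
      · simp only [Zx, if_pos hon]
        refine (norm_add_le _ _).trans (add_le_add ?_ ?_)
        · by_contra hlt
          exact h i ⟨hon, not_le.1 hlt⟩
        · split_ifs
          · exact (hT1 i).2
          · exact (hT2 i).2
      · simp only [Zx, if_neg hon, norm_zero]
        positivity)
    (fun p q hne => (hmat p q).1 hne)
    (fun p q hpq => hkey p q _ (Or.inl ⟨rfl, hpq⟩))
    (fun p q hpq => hkey p q _ (Or.inr ⟨hpq.symm, rfl⟩))
  rw [add_assoc]
  exact this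

end Par
end Crest.Agent.R129
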