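import Crest.Agent.PVb.R129.TrSeg_Mg
import Crest.Agent.PVb.R129.GGraph
import Crest.Agent.PVb.R129.GOp
import Crest.Agent.PVb.R129.Prob
import Crest.Agent.PVb.R129.GSC

-- ▼ part PVb/R129/TrMain
section

/-! # The trace method (task R129/TrMain). Statements frozen. -/

set_option autoImplicit false
set_option linter.unusedSectionVars false
open scoped BigOperators

namespace Crest.Agent.R129
namespace TrStr
variable {V F Bl A : Type} [DecidableEq V] [DecidableEq F] [DecidableEq Bl] [Group A] [DecidableEq A]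
  (X : TrStr V F Bl A) {Co Val : Type} [DecidableEq Co] {ν : Co → Val →₀ ℝ}

/-- random centred coefficients, independent from block to block -/
structure Rand (ν : Co → Val →₀ ℝ) (D : Finset Co) (Db : Bl → Finset Co)
    (c : (Co → Val) → V → F → V → A → ℂ) : Prop where
  adm : ∀ ω, (∀ x ∈ D, ω x ∈ (ν x).support) → X.Adm (c ω)
  sub : ∀ v ∈ X.Vs, ∀ t ∈ X.T, Db (X.bl v t) ⊆ D
  disj : ∀ b b', b ≠ b' → Disjoint (Db b) (Db b')
  dep : ∀ v t w f ω ω', (∀ x ∈ Db (X.bl v t), ω x = ω' x) → c ω v t w f = c ω' v t w f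
  mean : ∀ v t w f ω, Ex ν (Db (X.bl v t)) (fun ω => c ω v t w f) ω = 0

variable {X} in
theorem Rand.trm_dep {D : Finset Co} {Db : Bl → Finset Co} {c : (Co → Val) → V → F → V → A → ℂ}
    (h : X.Rand ν D Db c) {b : Bl} {ω ω' : Co → Val} (hω : ∀ x, x ∉ Db b → ω x = ω' x) {v : V}
    {t : F} (hb : X.bl v t ≠ b) (w : V) (f : A) : c ω v t w f = c ω' v t w f :=
  h.dep v t w f ω ω' fun x hx => hω x (Finset.disjoint_left.1 (h.disj _ _ hb) hx)

variable {X} in
theorem Rand.trm_wwt {D : Finset Co} {Db : Bl → Finset Co} {c : (Co → Val) → V → F → V → A → ℂ}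
    (h : X.Rand ν D Db c) {b : Bl} {ω ω' : Co → Val} (hω : ∀ x, x ∉ Db b → ω x = ω' x) (v : V)
    (l : List (F × V × A)) (hb : b ∉ X.blocks v l) : wwt (c ω) v l = wwt (c ω') v l := by
  induction l generalizing v with
  | nil => rfl
  | cons σ l ih =>
    rw [blocks, List.mem_cons, not_or] at hb
    rw [wwt, wwt, ih _ hb.2, h.trm_dep hω (Ne.symm hb.1)]

variable {X} in
theorem Rand.trm_split {D : Finset Co} {Db : Bl → Finset Co} {c : (Co → Val) → V → F → V → A → ℂ}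
    (h : X.Rand ν D Db c) {v : V} (hv : v ∈ X.Vs) {l : List (F × V × A)} (hl : ∀ σ ∈ l, σ ∈ X.St)
    {b : Bl} (hb : (X.blocks v l).count b = 1) :
    ∃ (u : V) (t : F) (w : V) (f : A) (g : (Co → Val) → ℂ), u ∈ X.Vs ∧ t ∈ X.T ∧ X.bl u t = b ∧
      (∀ ω ω', (∀ x, x ∉ Db b → ω x = ω' x) → g ω = g ω') ∧
      ∀ ω, wwt (c ω) v l = g ω * c ω u t w f := by
  induction l generalizing v with
  | nil => simp [blocks] at hb
  | cons σ l ih =>
    obtain ⟨h1, h2⟩ := Finset.mem_product.1 (hl σ List.mem_cons_self)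
    by_cases h3 : X.bl v σ.1 = b
    · rw [blocks, h3, List.count_cons_self, Nat.add_eq_right, List.count_eq_zero] at hb
      exact ⟨v, σ.1, σ.2.1, σ.2.2, fun ω => wwt (c ω) σ.2.1 l, hv, h1, h3,
        fun ω ω' hω => h.trm_wwt hω _ _ hb, fun ω => mul_comm _ _⟩
    · rw [blocks, List.count_cons_of_ne h3] at hb
      obtain ⟨u, t, w, f, g, a1, a2, a3, a4, a5⟩ :=
        ih (Finset.mem_product.1 h2).1 (fun τ hτ => hl τ (List.mem_cons_of_mem _ hτ)) hb
      refine ⟨u, t, w, f, fun ω => c ω v σ.1 σ.2.1 σ.2.2 * g ω, a1, a2, a3, fun ω ω' hω => ?_,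
        fun ω => by rw [wwt, a5, mul_assoc]⟩
      beta_reduce
      rw [a4 ω ω' hω, h.trm_dep hω h3]

omit [DecidableEq A] in
theorem trm_length (v : V) (l : List (F × V × A)) : (X.blocks v l).length = l.length := by
  induction l generalizing v with
  | nil => rfl
  | cons σ l ih => rw [blocks, List.length_cons, List.length_cons, ih]

theorem trm_card {β : Type} [DecidableEq β] {L : List β} (h : ∀ b, L.count b ≠ 1) :
    2 * L.toFinset.card ≤ L.length := by
  rw [← List.sum_toFinset_count_eq_length, mul_comm, ← smul_eq_mul]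
  refine Finset.card_nsmul_le_sum _ _ _ fun b hb => ?_
  have h1 := List.count_pos_iff.2 (List.mem_toFinset.1 hb)
  have h2 := h b
  omega

/-- split `l` at the step in the block met once; `Ex_mul_eq_zero` -/
theorem Ex_wwt_eq_zero {D : Finset Co} {Db : Bl → Finset Co} {c : (Co → Val) → V → F → V → A → ℂ}
    (h : X.Rand ν D Db c) {v : V} (hv : v ∈ X.Vs) {l : List (F × V × A)} (hl : ∀ σ ∈ l, σ ∈ X.St) {b : Bl}
    (hb : (X.blocks v l).count b = 1) (ω₀ : Co → Val) : Ex ν D (fun ω => wwt (c ω) v l) ω₀ = 0 := by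
  obtain ⟨u, t, w, f, g, a1, a2, rfl, a4, a5⟩ := h.trm_split hv hl hb
  simp only [a5]
  exact Ex_mul_eq_zero (h.sub u a1 t a2) a4 (h.mean u t w f) ω₀

open Classical in
theorem trm_trace (hν : ∀ x, IsLaw (ν x)) {D : Finset Co} {Db : Bl → Finset Co}
    {c : (Co → Val) → V → F → V → A → ℂ} (h : X.Rand ν D Db c) (N k : ℕ) (hk : 2 * N ≤ k * X.g)
    (ω₀ : Co → Val) {v : V} (hv : v ∈ X.Vs) :
    Ex ν D (fun ω => (mat (X.op (c ω) ^ (2 * N)) (1, v) (1, v)).re) ω₀ ≤ Real.sqrt X.d ^ N *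
      (((X.g + 1) * ((2 * N : ℕ) * X.m + 1) : ℝ) ^ k * (4 * Real.sqrt X.d) ^ (2 * N)) := by
  have hs : 1 ≤ Real.sqrt X.d := Real.one_le_sqrt.2 (by exact_mod_cast X.one_le_d)
  have h1 : ∀ l ∈ lists X.St (2 * N),
      ‖Ex ν D (fun ω => if wend v l = v ∧ wprod l = 1 * 1⁻¹ then wwt (c ω) v l else 0) ω₀‖ ≤
      Ex ν D (fun ω => Real.sqrt X.d ^ N *
        ((Real.sqrt X.d)⁻¹ ^ ((X.blocks v l).toFinset \ ∅).card * ‖wwt (c ω) v l‖)) ω₀ := by
    intro l hl
    obtain ⟨h2, h3⟩ := mem_lists.1 hl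
    have h4 : 0 ≤ Ex ν D (fun ω => Real.sqrt X.d ^ N *
        ((Real.sqrt X.d)⁻¹ ^ ((X.blocks v l).toFinset \ ∅).card * ‖wwt (c ω) v l‖)) ω₀ :=
      (Ex_const hν D 0 ω₀).ge.trans (Ex_mono hν fun ω _ _ => by positivity)
    by_cases h5 : wend v l = v ∧ wprod l = 1 * 1⁻¹
    · simp only [if_pos h5]
      by_cases h6 : ∃ b, (X.blocks v l).count b = 1
      · obtain ⟨b, hb⟩ := h6
        rwa [X.Ex_wwt_eq_zero h hv h3 hb, norm_zero]
      · have h7 := trm_card (not_exists.1 h6)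
        rw [trm_length, h2] at h7
        refine (norm_Ex_le hν D _ ω₀).trans (Ex_mono hν fun ω _ _ => ?_)
        rw [← mul_assoc, Finset.sdiff_empty, inv_pow, ← div_eq_mul_inv]
        refine le_mul_of_one_le_left (norm_nonneg _) ?_
        rw [one_le_div (by positivity)]
        exact pow_le_pow_right₀ hs (by omega)
    · simp only [if_neg h5]
      rwa [Ex_const hν, norm_zero]
  rw [Ex_re, Ex_congr (g := fun ω => ∑ l ∈ lists X.St (2 * N),
    if wend v l = v ∧ wprod l = 1 * 1⁻¹ then wwt (c ω) v l else 0)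
    fun ω _ hω => X.mat_pow (h.adm ω hω) (2 * N) (1, v) (1, v), Ex_sum]
  refine (Complex.re_le_norm _).trans ((norm_sum_le _ _).trans ((Finset.sum_le_sum h1).trans ?_))
  rw [← Ex_sum]
  refine (Ex_mono hν fun ω _ hω => ?_).trans (Ex_const hν D _ ω₀).le
  rw [← Finset.mul_sum]
  exact mul_le_mul_of_nonneg_left (X.walks_le (h.adm ω hω) (2 * N) k (2 * N) hk v ∅ (by simp))
    (by positivity)

open Classical in
/-- Markov with `norm_pow_le_trace`; expand with `mat_pow`; walks of length `2N` (`N = 2^r`) with every block met at least twice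
meet `≤ N` blocks, so `1 ≤ √d^N z^{#blocks}`; `walks_le` with `O = ∅`, `N₀ = 2N`.  Note `θ² = 256 d √d`, so
`√d^N (4√d)^(2N) / θ^(2N) = 16^(-N)`. -/
theorem prob_norm_gt (hν : ∀ x, IsLaw (ν x)) {D : Finset Co} {Db : Bl → Finset Co}
    {c : (Co → Val) → V → F → V → A → ℂ} (h : X.Rand ν D Db c) (r k : ℕ) (hk : 2 * 2 ^ r ≤ k * X.g)
    (FN : Finset A) (hFN : ∀ l : List A, l.length ≤ 2 ^ r → (∀ x ∈ l, x ∈ X.Fs) → l.prod ∈ FN)
    (ω₀ : Co → Val) :
    Ex ν D (fun ω => if 16 * Real.sqrt (X.d * Real.sqrt X.d) < ‖X.op (c ω)‖ then (1 : ℝ) else 0) ω₀ ≤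
      (X.Vs.card : ℝ) ^ 2 * FN.card * ((X.g + 1) * (2 * 2 ^ r * X.m + 1) : ℝ) ^ k / 16 ^ 2 ^ r := by
  have hs : 1 ≤ Real.sqrt X.d := Real.one_le_sqrt.2 (by exact_mod_cast X.one_le_d)
  have hθ : (16 * Real.sqrt (X.d * Real.sqrt X.d)) ^ 2 = 256 * Real.sqrt X.d ^ 3 := by
    rw [mul_pow, Real.sq_sqrt (by positivity), pow_succ _ 2, Real.sq_sqrt (Nat.cast_nonneg _)]
    norm_num
  have h1 : ∀ ω, (∀ x ∈ D, ω x ∈ (ν x).support) →
      (if 16 * Real.sqrt (X.d * Real.sqrt X.d) < ‖X.op (c ω)‖ then (1 : ℝ) else 0) ≤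
      X.Vs.card * FN.card / (256 * Real.sqrt X.d ^ 3) ^ 2 ^ r *
        ∑ v ∈ X.Vs, (mat (X.op (c ω) ^ (2 * 2 ^ r)) (1, v) (1, v)).re := by
    intro ω hω
    have h2 := X.norm_pow_le_trace (h.adm ω hω) r FN hFN
    rw [div_mul_eq_mul_div, le_div_iff₀ (by positivity)]
    refine le_trans ?_ h2
    split_ifs with h3
    · rw [one_mul, ← hθ, ← pow_mul]
      exact pow_le_pow_left₀ (by positivity) h3.le _
    · rw [zero_mul]
      positivity
  refine (Ex_mono hν fun ω _ hω => h1 ω hω).trans ?_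
  rw [Ex_mul_left, Ex_sum]
  refine (mul_le_mul_of_nonneg_left (Finset.sum_le_card_nsmul _ _ _
    fun v hv => X.trm_trace hν h (2 ^ r) k hk ω₀ hv) (by positivity)).trans (le_of_eq ?_)
  have e1 : (256 * Real.sqrt X.d ^ 3) ^ 2 ^ r =
      16 ^ 2 ^ r * (Real.sqrt X.d ^ 2 ^ r * (4 * Real.sqrt X.d) ^ (2 * 2 ^ r)) := by
    rw [pow_mul, ← mul_pow, ← mul_pow]
    congr 1
    ring
  rw [e1, nsmul_eq_mul]
  push_cast
  field_simp

end TrStr
end Crest.Agent.R129
end

-- ▼ part PVb/R129/GTr1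
section

/-! # Block structure of a pair (task R129/GTr1: the two sorries). Definitions and statements frozen. -/

set_option autoImplicit false
open scoped BigOperators

namespace Crest.Agent.R129
namespace Par
variable (P : Par) {A : Type}

open Classical in
noncomputable def Vs (ω₀ : P.Om A) (i : ℤ) : Finset P.V := (P.node i ∪ P.node (i + 1)).filter (P.Good ω₀)

noncomputable def bl (ω₀ : P.Om A) (i : ℤ) (v : P.V) (t : P.F) : List P.F × P.F :=
  (if v.1 = P.tp i then tau (P.psi ω₀) t v.2 else P.ty v, t)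

theorem mem_Vs {ω₀ : P.Om A} {i : ℤ} {v : P.V} : v ∈ P.Vs ω₀ i ↔
    (v ∈ P.node (P.tp i) ∨ v ∈ P.node (P.sub i)) ∧ P.Good ω₀ v := by
  classical
  unfold Vs
  rw [Finset.mem_filter, Finset.mem_union]
  rcases P.sub_tp i with h | h
  · rw [h.1, h.2, or_comm]
  · rw [h.1, h.2]

theorem bl_tp {ω₀ : P.Om A} {i : ℤ} {v : P.V} (h : v ∈ P.node (P.tp i)) (t : P.F) :
    P.bl ω₀ i v t = (tau (P.psi ω₀) t (P.ty v), t) := by
  rw [bl, if_pos (P.fst_of_mem h), P.ty_tp h]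

theorem bl_sub {ω₀ : P.Om A} {i : ℤ} {v : P.V} (h : v ∈ P.node (P.sub i)) (t : P.F) :
    P.bl ω₀ i v t = (P.ty v, t) := by
  rw [bl, if_neg (by rw [P.fst_of_mem h]; exact P.sub_ne_tp i)]

theorem ms_le (i : ℤ) : 8 * P.ms i ≤ P.n := by
  unfold ms
  split_ifs
  · have := P.sz_le i; have := P.sz_pos i; omega
  · exact P.sz_le _

theorem card_tp_le (ψ : P.F → List P.F → Equiv.Perm P.F) (i : ℤ) (κ : List P.F) (t : P.F) :
    ((P.node (P.tp i)).filter fun v => tau ψ t v.2 = κ).card ≤ P.mt i := by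
  classical
  rw [← Finset.card_range (P.mt i)]
  refine le_trans (Finset.card_le_card (t := (Finset.range (P.mt i)).image
    fun y => (P.tp i, fib ψ t κ (P.em (P.tp i) y))) ?_) Finset.card_image_le
  intro v hv
  obtain ⟨h1, h2⟩ := Finset.mem_filter.1 hv
  obtain ⟨y, κ', hy, -, he⟩ := P.mem_Nd.1 (P.mem_node.1 h1).2
  refine Finset.mem_image.2 ⟨y, Finset.mem_range.2 hy, Prod.ext (P.fst_of_mem h1).symm ?_⟩
  rw [P.eq_fib (ψ := ψ) h1 t, h2, he]; rfl

theorem card_sub_le (i : ℤ) (κ : List P.F) :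
    ((P.node (P.sub i)).filter fun v => P.ty v = κ).card ≤ P.ms i := by
  classical
  refine le_trans (Finset.card_le_card_of_injOn (t := (Finset.range (P.ms i)).image (P.es i))
    (fun v => P.six i v.2) ?_ ?_) (Finset.card_image_le.trans (Finset.card_range _).le)
  · intro v hv
    obtain ⟨x, hx, he⟩ := P.six_mem (Finset.mem_filter.1 (Finset.mem_coe.1 hv)).1
    exact Finset.mem_coe.2 (Finset.mem_image.2 ⟨x, Finset.mem_range.2 hx, he.symm⟩)
  · intro v hv w hw h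
    obtain ⟨h1, h2⟩ := Finset.mem_filter.1 (Finset.mem_coe.1 hv)
    obtain ⟨h3, h4⟩ := Finset.mem_filter.1 (Finset.mem_coe.1 hw)
    exact P.eq_of_six h1 h3 (h2.trans h4.symm) h

theorem bl_size (ω₀ : P.Om A) (i : ℤ) (b : List P.F × P.F) (t : P.F) :
    ((P.Vs ω₀ i).filter fun v => P.bl ω₀ i v t = b).card ≤ P.n := by
  classical
  have h1 := P.card_tp_le (P.psi ω₀) i b.1 t
  have h2 := P.card_sub_le i b.1
  have h3 := P.ms_le i
  have h4 : 8 * P.mt i ≤ P.n := P.sz_le _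
  refine le_trans (Finset.card_le_card (t := ((P.node (P.tp i)).filter fun v => tau (P.psi ω₀) t v.2 = b.1) ∪
    ((P.node (P.sub i)).filter fun v => P.ty v = b.1)) ?_) ((Finset.card_union_le _ _).trans (by omega))
  intro v hv
  obtain ⟨hv1, hv2⟩ := Finset.mem_filter.1 hv
  rcases (P.mem_Vs.1 hv1).1 with h | h
  · rw [P.bl_tp h, P.ty_tp h] at hv2
    exact Finset.mem_union_left _ (Finset.mem_filter.2 ⟨h, congrArg Prod.fst hv2⟩)
  · rw [P.bl_sub h] at hv2
    exact Finset.mem_union_right _ (Finset.mem_filter.2 ⟨h, congrArg Prod.fst hv2⟩)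

theorem sides {ω₀ : P.Om A} {i : ℤ} {v w : P.V} (hv : v ∈ P.Vs ω₀ i) (hw : w ∈ P.Vs ω₀ i)
    (h : decide (Even w.1) = !decide (Even v.1)) :
    (v ∈ P.node (P.tp i) ∧ w ∈ P.node (P.sub i)) ∨ (v ∈ P.node (P.sub i) ∧ w ∈ P.node (P.tp i)) := by
  rcases (P.mem_Vs.1 hv).1 with a | a <;> rcases (P.mem_Vs.1 hw).1 with b | b
  · rw [P.fst_of_mem a, P.fst_of_mem b] at h; simp at h
  · exact Or.inl ⟨a, b⟩
  · exact Or.inr ⟨a, b⟩
  · rw [P.fst_of_mem a, P.fst_of_mem b] at h; simp at h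

theorem not_both {i : ℤ} {v : P.V} (a : v ∈ P.node (P.tp i)) (b : v ∈ P.node (P.sub i)) : False :=
  P.sub_ne_tp i ((P.fst_of_mem b).symm.trans (P.fst_of_mem a))

theorem bl_walk (ω₀ : P.Om A) (i : ℤ) (x : ℕ → P.V) (tt : ℕ → P.F) (s : ℕ)
    (hx : ∀ p, p ≤ s → x p ∈ P.Vs ω₀ i)
    (hp : ∀ p, p < s → tt p ∈ P.ports i ∧ decide (Even (x (p + 1)).1) = !decide (Even (x p).1) ∧
      P.bl ω₀ i (x p) (tt p) = P.bl ω₀ i (x (p + 1)) (tt p)) :
    ∃ e, Even e ∧ tauL (P.psi ω₀) ((List.range s).map tt) (P.ty (x 0)) = (P.ty (x s)).drop e ∧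
      ((x 0 ∈ P.node (P.tp i) ∧ x s ∈ P.node (P.tp i) ∧ e = s) ∨
       (x 0 ∈ P.node (P.tp i) ∧ x s ∈ P.node (P.sub i) ∧ e + 1 = s) ∨
       (x 0 ∈ P.node (P.sub i) ∧ x s ∈ P.node (P.tp i) ∧ e = s + 1) ∨
       (x 0 ∈ P.node (P.sub i) ∧ x s ∈ P.node (P.sub i) ∧ e = s)) := by
  induction s with
  | zero =>
    refine ⟨0, Even.zero, rfl, ?_⟩
    rcases (P.mem_Vs.1 (hx 0 le_rfl)).1 with a | a
    · exact Or.inl ⟨a, a, rfl⟩
    · exact Or.inr (Or.inr (Or.inr ⟨a, a, rfl⟩))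
  | succ s ih =>
    obtain ⟨e, he, h1, h2⟩ := ih (fun p h => hx p (by omega)) (fun p h => hp p (by omega))
    obtain ⟨-, hs, hb⟩ := hp s (by omega)
    have hst : tauL (P.psi ω₀) ((List.range (s + 1)).map tt) (P.ty (x 0)) =
        (tau (P.psi ω₀) (tt s) (P.ty (x s))).drop e := by
      rw [List.range_succ, List.map_append, tauL_append, h1, tau_drop_even _ _ he]; rfl
    rcases P.sides (hx s (by omega)) (hx (s + 1) le_rfl) hs with ⟨a, b⟩ | ⟨a, b⟩
    · rw [P.bl_tp a, P.bl_sub b] at hb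
      refine ⟨e, he, by rw [hst, (Prod.mk.inj hb).1], ?_⟩
      rcases h2 with h | h | h | h
      · exact Or.inr (Or.inl ⟨h.1, b, by omega⟩)
      · exact (P.not_both a h.2.1).elim
      · exact Or.inr (Or.inr (Or.inr ⟨h.1, b, by omega⟩))
      · exact (P.not_both a h.2.1).elim
    · rw [P.bl_sub a, P.bl_tp b] at hb
      refine ⟨e + 2, he.add (by decide), ?_, ?_⟩
      · rw [hst, (Prod.mk.inj hb).1, tau_tau, List.drop_drop, add_comm]
      rcases h2 with h | h | h | h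
      · exact (P.not_both h.2.1 a).elim
      · exact Or.inl ⟨h.1, b, by omega⟩
      · exact (P.not_both h.2.1 a).elim
      · exact Or.inr (Or.inr (Or.inl ⟨h.1, b, by omega⟩))

theorem bl_cg (ω₀ : P.Om A) (i : ℤ) (x : ℕ → P.V) (tt : ℕ → P.F) (s : ℕ) (hs : s ≤ 2 * (P.stg (lo i) / 16))
    (hx : ∀ p, p ≤ s → x p ∈ P.Vs ω₀ i)
    (hp : ∀ p, p < s → tt p ∈ P.ports i ∧ decide (Even (x (p + 1)).1) = !decide (Even (x p).1) ∧
      P.bl ω₀ i (x p) (tt p) = P.bl ω₀ i (x (p + 1)) (tt p))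
    (t : P.F) (ht : t ∈ P.ports i) (h : P.bl ω₀ i (x 0) t = P.bl ω₀ i (x s) t) :
    pw (decide (Even (x 0).1)) ((List.range s).map tt) =
      if Even s then 1 else sg (t, decide (Even (x 0).1)) := by
  obtain ⟨e, he, h1, h2⟩ := P.bl_walk ω₀ i x tt s hx hp
  obtain ⟨h0, hg, -⟩ := P.mem_Vs.1 (hx 0 (Nat.zero_le _))
  have hG : Even (gir (P.stg (x 0).1)) := even_two_mul _
  have hle : 2 * (P.stg (lo i) / 16) ≤ gir (P.stg (x 0).1) := by
    have h3 := P.stg_lo_le i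
    have h4 : P.stg (lo i) ≤ P.stg (x 0).1 := by
      rcases h0 with a | a <;> rw [P.fst_of_mem a]
      · rcases P.tp_or i with b | b <;> rw [b] <;> omega
      · rcases P.sub_or i with b | b <;> rw [b] <;> omega
    exact Nat.mul_le_mul_left 2 (Nat.div_le_div_right h4)
  have hlen : ((List.range s).map tt).length = s := by simp
  have even_case : Even s → tauL (P.psi ω₀) ((List.range s).map tt) (P.ty (x 0)) = (P.ty (x 0)).drop s →
      pw (decide (Even (x 0).1)) ((List.range s).map tt) =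
        if Even s then 1 else sg (t, decide (Even (x 0).1)) := fun hes hh => by
    rw [if_pos hes]
    exact pw_eq_one_of_not_spec hG hg _ _ 0 (by rwa [hlen]) Even.zero (by omega) (by simpa using hh)
  have odd_case : Even (s + 1) →
      tau (P.psi ω₀) t (tauL (P.psi ω₀) ((List.range s).map tt) (P.ty (x 0))) = (P.ty (x 0)).drop (s + 1) →
      pw (decide (Even (x 0).1)) ((List.range s).map tt) =
        if Even s then 1 else sg (t, decide (Even (x 0).1)) := fun hes hh => by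
    have hns : ¬ Even s := Nat.even_add_one.1 hes
    rw [if_neg hns]
    have h5 := pw_eq_one_of_not_spec hG hg (decide (Even (x 0).1)) ((List.range s).map tt ++ [t]) 0
      (by simpa using hes) Even.zero
      (by
        obtain ⟨k, hk⟩ := hes
        simp only [List.length_append, hlen, List.length_singleton]; omega)
      (by rw [tauL_append]; simpa [tauL] using hh)
    rw [pw_append, hlen, if_neg hns] at h5
    simp only [pw, mul_one] at h5
    rw [eq_inv_of_mul_eq_one_left h5, sg_inv]; simp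
  rcases h2 with ⟨a, b, c⟩ | ⟨a, b, c⟩ | ⟨a, b, c⟩ | ⟨a, b, c⟩
  · subst c
    refine even_case he ?_
    rcases Nat.eq_zero_or_pos e with rfl | hpos
    · rfl
    rw [P.bl_tp a, P.bl_tp b] at h
    have h6 := congrArg (tau (P.psi ω₀) t) (Prod.mk.inj h).1
    simp only [tau_tau] at h6
    obtain ⟨k, hk⟩ := he
    have h7 : ∀ y : List P.F, y.drop e = (y.drop 2).drop (e - 2) := fun y => by
      rw [List.drop_drop]; congr 1; omega
    rw [h1, h7, h7, h6]
  · rw [P.bl_tp a, P.bl_sub b] at h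
    refine odd_case (by rw [← c]; exact he.add (b := 2) (by decide)) ?_
    rw [h1, ← tau_drop_even _ _ he, ← (Prod.mk.inj h).1]
    simp only [tau_tau, List.drop_drop]
    congr 1; omega
  · rw [P.bl_sub a, P.bl_tp b] at h
    refine odd_case (c ▸ he) ?_
    rw [h1, ← tau_drop_even _ _ he, c]
    exact congrArg _ (Prod.mk.inj h).1.symm
  · subst c
    rw [P.bl_sub a, P.bl_sub b] at h
    refine even_case he ?_
    rw [h1]
    exact congrArg _ (Prod.mk.inj h).1.symm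

variable [Group A] [DecidableEq A]

/-- symmetric support -/
def Fs (ν : (A × ZMod 4) →₀ ℝ) : Finset A :=
  ν.support.image Prod.fst ∪ ν.support.image fun x => x.1⁻¹

noncomputable def trS (μ : ℤ → (A × ZMod 4) →₀ ℝ) (ω₀ : P.Om A) (i : ℤ) :
    TrStr P.V P.F (List P.F × P.F) A where
  Vs := P.Vs ω₀ i
  side v := decide (Even v.1)
  T := P.ports i
  bl := P.bl ω₀ i
  Fs := Fs (μ i)
  d := P.n
  m := P.n
  g := P.stg (lo i) / 16
  one_le_d := P.prime.one_lt.le
  one_le_g := by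
    have := P.j₀_le_stg (lo i); have := P.hj; omega
  card_T := (P.card_ports i).2
  Fs_inv f hf := by
    simp only [Fs, Finset.mem_union, Finset.mem_image] at hf ⊢
    rcases hf with ⟨x, hx, rfl⟩ | ⟨x, hx, rfl⟩
    · exact Or.inr ⟨x, hx, rfl⟩
    · exact Or.inl ⟨x, hx, by simp⟩
  port v t w t' h := congrArg Prod.snd h
  size := P.bl_size ω₀ i
  cg := P.bl_cg ω₀ i

/-- the coordinates of a block -/
noncomputable def Db (ω₀ : P.Om A) (i : ℤ) (b : List P.F × P.F) : Finset P.Co :=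
  insert (Sum.inl (i, b.1, b.2))
    (((P.Vs ω₀ i).filter fun v => Even v.1 ∧ P.bl ω₀ i v b.2 = b).image fun v => Sum.inr (v.1, v.2, b.2))

/-- symmetrised coefficients -/
noncomputable def cS (μ : ℤ → (A × ZMod 4) →₀ ℝ) (i : ℤ) (ω₀ ω : P.Om A) (v : P.V) (t : P.F) (w : P.V)
    (f : A) : ℂ :=
  if Even v.1 then P.cH μ i ω₀ ω v t w f else (starRingEnd ℂ) (P.cH μ i ω₀ ω w t v f⁻¹)

end Par
end Crest.Agent.R129
end

-- ▼ part PVb/R129/GTr2
section

/-! # The fluctuation is small with high probability (task R129/GTr2). Statements frozen. -/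

set_option autoImplicit false
open scoped BigOperators

namespace Crest.Agent.R129

theorem Ex_conj {Co Val : Type} [DecidableEq Co] {ν : Co → Val →₀ ℝ} (D : Finset Co)
    (f : (Co → Val) → ℂ) (ω₀ : Co → Val) :
    Ex ν D (fun ω => (starRingEnd ℂ) (f ω)) ω₀ = (starRingEnd ℂ) (Ex ν D f ω₀) := by
  unfold Ex
  rw [map_sum]
  refine Finset.sum_congr rfl fun x _ => ?_
  rw [Complex.real_smul, Complex.real_smul, map_mul, Complex.conj_ofReal]

theorem Ex_two {Co Val : Type} [DecidableEq Co] {ν : Co → Val →₀ ℝ} (hν : ∀ c, IsLaw (ν c))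
    {D : Finset Co} {c₁ c₂ : Co} (h₁ : c₁ ∈ D) (h₂ : c₂ ∈ D) (hne : c₁ ≠ c₂) (G : Val → Val → ℂ)
    (ω₀ : Co → Val) : Ex ν D (fun ω => G (ω c₁) (ω c₂)) ω₀ =
      (ν c₁).sum fun x p => p • (ν c₂).sum fun y q => q • G x y := by
  rw [Ex_sdiff hν (D' := D \ {c₁, c₂}) (fun ω ω' h => by rw [h c₁ (by simp), h c₂ (by simp)]),
    Finset.sdiff_sdiff_eq_self (by intro c hc; simp at hc; rcases hc with rfl | rfl <;> assumption),
    Ex_insert (by simpa using hne)]
  refine Finsupp.sum_congr fun x _ => ?_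
  rw [Ex_singleton]
  congr 1
  refine Finsupp.sum_congr fun y _ => ?_
  rw [Function.update_self, Function.update_of_ne hne, Function.update_self]

open Classical in
theorem qco_eq_sum {A : Type} (ν : (A × ZMod 4) →₀ ℝ) (f : A) :
    (ν.sum fun x p => p • (if x.1 = f then ph x.2 else 0)) = qco ν f := by
  rw [← Finsupp.linearCombination_apply ℝ]
  induction ν using Finsupp.induction_linear with
  | zero => simp [qco]
  | add a b ha hb =>
    rw [map_add, ha, hb]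
    simp only [qco, Finsupp.add_apply, Complex.ofReal_add, add_mul, Finset.sum_add_distrib]
  | single x p =>
    obtain ⟨a, ω⟩ := x
    rw [Finsupp.linearCombination_single]
    simp only [qco, Finsupp.single_apply, Prod.mk.injEq]
    by_cases h : a = f
    · simp only [h, true_and, if_true]
      rw [Finset.sum_eq_single ω]
      · simp
      · intro b _ hb; simp [Ne.symm hb]
      · simp
    · simp [h]

namespace Par
variable (P : Par) {A : Type}

theorem sum_shLaw [One A] (m : ℕ) (g : ℕ → ℂ) :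
    ((shLaw m : Val A →₀ ℝ).sum fun x p => p • g x.1) = ∑ s ∈ Finset.range m, ((m : ℝ)⁻¹) • g s := by
  rw [← Finsupp.linearCombination_apply ℝ, shLaw, map_sum]
  simp only [Finsupp.linearCombination_single]

/-- same block, either orientation -/
def SB (ω₀ : P.Om A) (i : ℤ) (t : P.F) (u w : P.V) : Prop := P.SameBlk ω₀ i t u w ∨ P.SameBlk ω₀ i t w u

/-- matched -/
def Mt (ω₀ ω : P.Om A) (i : ℤ) (t : P.F) (u w : P.V) : Prop :=
  (P.SameBlk ω₀ i t u w ∧ P.MatchV i (ω (.inl (i, P.ty w, t))).1 u w) ∨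
    (P.SameBlk ω₀ i t w u ∧ P.MatchV i (ω (.inl (i, P.ty u, t))).1 w u)

variable {μ : ℤ → (A × ZMod 4) →₀ ℝ} {i : ℤ} {ω₀ ω : P.Om A} {u w : P.V} {t : P.F} {f : A}

theorem cH_zero (h : ¬ (Even u.1 ∧ P.SB ω₀ i t u w)) : P.cH μ i ω₀ ω u t w f = 0 := if_neg h

open Classical in
theorem cH_eq (h : Even u.1 ∧ P.SB ω₀ i t u w) : P.cH μ i ω₀ ω u t w f =
    (if P.Mt ω₀ ω i t u w ∧ (ω (.inr (u.1, u.2, t))).2.1 = f then ph (ω (.inr (u.1, u.2, t))).2.2 else 0) -
      ((P.rho i / P.mb i : ℝ) : ℂ) * qco (μ i) f := by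
  unfold cH
  rw [if_pos (show Even u.1 ∧ (P.SameBlk ω₀ i t u w ∨ P.SameBlk ω₀ i t w u) from h)]
  congr

theorem SB.symm (h : P.SB ω₀ i t u w) : P.SB ω₀ i t w u := Or.symm h
theorem Mt.symm (h : P.Mt ω₀ ω i t u w) : P.Mt ω₀ ω i t w u := Or.symm h

theorem SameBlk.facts (h : P.SameBlk ω₀ i t u w) : u ∈ P.Vs ω₀ i ∧ w ∈ P.Vs ω₀ i ∧ t ∈ P.ports i ∧
    P.bl ω₀ i u t = (P.ty w, t) ∧ P.bl ω₀ i w t = (P.ty w, t) ∧ (Even u.1 ↔ ¬ Even w.1) := by
  obtain ⟨ht, hU, hW, gU, gW, e⟩ := h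
  refine ⟨P.mem_Vs.2 ⟨Or.inl hU, gU⟩, P.mem_Vs.2 ⟨Or.inr hW, gW⟩, ht, ?_, P.bl_sub hW t, ?_⟩
  · rw [P.bl_tp hU, P.ty_tp hU, e]
  · rw [P.fst_of_mem hU, P.fst_of_mem hW]
    rcases P.sub_tp i with h | h <;> rw [h.1, h.2, Int.even_add_one]
    rw [not_not]

theorem SB.facts (h : P.SB ω₀ i t u w) : u ∈ P.Vs ω₀ i ∧ w ∈ P.Vs ω₀ i ∧ t ∈ P.ports i ∧
    P.bl ω₀ i u t = P.bl ω₀ i w t ∧ (Even u.1 ↔ ¬ Even w.1) := by
  rcases h with h | h
  · obtain ⟨a, b, c, d, e, g⟩ := SameBlk.facts P h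
    exact ⟨a, b, c, d.trans e.symm, g⟩
  · obtain ⟨a, b, c, d, e, g⟩ := SameBlk.facts P h
    exact ⟨b, a, c, e.trans d.symm, by tauto⟩

theorem matchV_iff {U W : P.V} (hU : U ∈ P.node (P.tp i)) (hW : W ∈ P.node (P.sub i)) :
    ∃ x y, x < P.ms i ∧ y < P.mt i ∧ ∀ sh, P.MatchV i sh U W ↔ P.Match i sh x y := by
  obtain ⟨x, hx, ex⟩ := P.six_mem hW
  obtain ⟨y, κ, hy, -, ey⟩ := P.mem_Nd.1 (P.mem_node.1 hU).2
  have ey' : U.2.headD 0 = P.em (P.tp i) y := by rw [ey]; rfl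
  refine ⟨x, y, hx, hy, fun sh => ⟨?_, fun h => ⟨x, y, h, ex, ey'⟩⟩⟩
  rintro ⟨x', y', hm, e1, e2⟩
  rw [P.es_inj i hx hm.1 (ex.symm.trans e1), P.em_inj _ hy hm.2.1 (ey'.symm.trans e2)]
  exact hm

theorem SB.mt_iff (h : P.SB ω₀ i t u w) : ∃ x y, x < P.ms i ∧ y < P.mt i ∧ ∀ ω : P.Om A,
    P.Mt ω₀ ω i t u w ↔ P.Match i (ω (.inl (i, (P.bl ω₀ i u t).1, t))).1 x y := by
  rcases h with h | h
  · obtain ⟨x, y, hx, hy, e⟩ := P.matchV_iff h.2.1 h.2.2.1
    refine ⟨x, y, hx, hy, fun ω => ?_⟩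
    rw [(SameBlk.facts P h).2.2.2.1, ← e]
    exact ⟨fun a => a.elim (fun a => a.2) fun a => (P.not_both h.2.1 a.1.2.2.1).elim,
      fun a => Or.inl ⟨h, a⟩⟩
  · obtain ⟨x, y, hx, hy, e⟩ := P.matchV_iff h.2.1 h.2.2.1
    refine ⟨x, y, hx, hy, fun ω => ?_⟩
    rw [(SameBlk.facts P h).2.2.2.2.1, ← e]
    exact ⟨fun a => a.elim (fun a => (P.not_both a.1.2.1 h.2.2.1).elim) fun a => a.2,
      fun a => Or.inr ⟨h, a⟩⟩

theorem Mt.unique {w' : P.V} (h : P.Mt ω₀ ω i t u w) (h' : P.Mt ω₀ ω i t u w') : w = w' := by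
  rcases h with ⟨⟨-, hU, hW, -, -, e⟩, x, y, hm, hx, hy⟩ | ⟨⟨-, hU, hW, -, -, e⟩, x, y, hm, hx, hy⟩ <;>
    rcases h' with ⟨⟨-, hU', hW', -, -, e'⟩, x', y', hm', hx', hy'⟩ |
      ⟨⟨-, hU', hW', -, -, e'⟩, x', y', hm', hx', hy'⟩
  · have hty : P.ty w = P.ty w' := e.symm.trans e'
    rw [← hty] at hm'
    have := (P.match_unique i hm hm').2 (P.em_inj _ hm.2.1 hm'.2.1 (hy.symm.trans hy'))
    exact P.eq_of_six hW hW' hty (by rw [hx, hx', this])
  · exact (P.not_both hU hW').elim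
  · exact (P.not_both hU' hW).elim
  · have := (P.match_unique i hm hm').1 (P.es_inj _ hm.1 hm'.1 (hx.symm.trans hx'))
    refine Prod.ext ((P.fst_of_mem hU).trans (P.fst_of_mem hU').symm) ?_
    rw [P.eq_fib (ψ := P.psi ω₀) hU t, P.eq_fib (ψ := P.psi ω₀) hU' t, e, e', hy, hy', this]

open Classical in
theorem card_SB_le (s : Finset P.V) : (s.filter fun w => P.SB ω₀ i t u w).card ≤ P.mb i := by
  by_cases hu : u ∈ P.node (P.tp i)
  · refine le_trans (Finset.card_le_card ?_)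
      ((P.card_sub_le i (tau (P.psi ω₀) t u.2)).trans (le_max_left _ _))
    intro w hw
    rcases (Finset.mem_filter.1 hw).2 with h | h
    · exact Finset.mem_filter.2 ⟨h.2.2.1, h.2.2.2.2.2.symm⟩
    · exact (P.not_both hu h.2.2.1).elim
  · refine le_trans (Finset.card_le_card ?_)
      ((P.card_tp_le (P.psi ω₀) i (P.ty u) t).trans (le_max_right _ _))
    intro w hw
    rcases (Finset.mem_filter.1 hw).2 with h | h
    · exact (hu h.2.1).elim
    · exact Finset.mem_filter.2 ⟨h.2.1, h.2.2.2.2.2⟩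

theorem mb_pos (i : ℤ) : 0 < P.mb i := lt_of_lt_of_le (P.sz_pos _) (le_max_right _ _)

open Classical in
theorem sum_cH_le (hμ : IsLaw (μ i)) (s : Finset A) :
    ∑ f ∈ s, ‖P.cH μ i ω₀ ω u t w f‖ ≤
      (if P.Mt ω₀ ω i t u w then 1 else 0) + (if P.SB ω₀ i t u w then ((P.mb i : ℝ))⁻¹ else 0) := by
  by_cases h : Even u.1 ∧ P.SB ω₀ i t u w
  · have hr := P.rho_mem i
    have hm : (0 : ℝ) < P.mb i := by exact_mod_cast P.mb_pos i
    rw [if_pos h.2]
    simp only [P.cH_eq h]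
    refine (Finset.sum_le_sum fun f _ => norm_sub_le _ _).trans ?_
    rw [Finset.sum_add_distrib]
    refine add_le_add ?_ ?_
    · split_ifs with hM
      · simp only [hM, true_and]
        refine le_trans (Finset.sum_le_sum (g := fun f => if (ω (.inr (u.1, u.2, t))).2.1 = f then 1 else 0)
          fun f _ => ?_) ?_
        · split_ifs <;> simp [norm_ph]
        · rw [Finset.sum_ite_eq]; split_ifs <;> norm_num
      · simp [hM]
    · simp only [norm_mul, ← Finset.mul_sum]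
      rw [Complex.norm_real, Real.norm_of_nonneg (div_nonneg hr.1.le hm.le)]
      calc P.rho i / P.mb i * ∑ f ∈ s, ‖qco (μ i) f‖ ≤ 1 / P.mb i * 1 :=
            mul_le_mul (div_le_div_of_nonneg_right hr.2 hm.le) (sum_norm_qco_le hμ s)
              (Finset.sum_nonneg fun _ _ => norm_nonneg _) (by positivity)
        _ = _ := by simp
  · simp only [P.cH_zero h, norm_zero, Finset.sum_const_zero]
    split_ifs <;> positivity

open Classical in
theorem sum_ind_le (s : Finset P.V) :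
    ∑ w ∈ s, ((if P.Mt ω₀ ω i t u w then (1 : ℝ) else 0) +
      (if P.SB ω₀ i t u w then ((P.mb i : ℝ))⁻¹ else 0)) ≤ 2 := by
  have hm : (0 : ℝ) < P.mb i := by exact_mod_cast P.mb_pos i
  rw [Finset.sum_add_distrib, ← one_add_one_eq_two]
  refine add_le_add ?_ ?_
  · rw [Finset.sum_boole]
    exact_mod_cast Finset.card_le_one.2 fun a ha b hb =>
      Mt.unique P (Finset.mem_filter.1 ha).2 (Finset.mem_filter.1 hb).2
  · rw [← Finset.sum_filter, Finset.sum_const, nsmul_eq_mul, mul_inv_le_iff₀ hm, one_mul]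
    exact_mod_cast P.card_SB_le s

theorem mem_DT_inr {v : P.V} (hv : v ∈ P.Vs ω₀ i) (ht : t ∈ P.ports i) :
    Sum.inr (v.1, v.2, t) ∈ P.DT i := by
  classical
  exact Finset.mem_union_right _ (Finset.mem_image.2
    ⟨(v, t), Finset.mem_product.2 ⟨(Finset.mem_filter.1 hv).1, ht⟩, rfl⟩)

theorem pairOf_Vs {v : P.V} (hv : v ∈ P.Vs ω₀ i) (ht : t ∈ P.ports i) : P.pairOf v.1 t = i := by
  refine P.pairOf_eq ht ?_
  rcases (P.mem_Vs.1 hv).1 with h | h <;> rw [P.fst_of_mem h]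
  · exact P.tp_or i
  · exact P.sub_or i

variable [Group A]

theorem cH_supp [DecidableEq A] (hω : ∀ x ∈ P.DT i, ω x ∈ (P.law μ x).support)
    (h : P.cH μ i ω₀ ω u t w f ≠ 0) : (Even u.1 ∧ P.SB ω₀ i t u w) ∧ f ∈ Fs (μ i) := by
  have h1 : Even u.1 ∧ P.SB ω₀ i t u w := by
    by_contra hc; exact h (P.cH_zero hc)
  refine ⟨h1, Finset.mem_union_left _ ?_⟩
  obtain ⟨a, -, c, -⟩ := SB.facts P h1.2
  by_cases hq : qco (μ i) f = 0
  · rw [P.cH_eq h1, hq, mul_zero, sub_zero] at h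
    have h2 : (ω (.inr (u.1, u.2, t))).2.1 = f := by
      by_contra hc; exact h (if_neg fun a => hc a.2)
    have h3 := hω _ (P.mem_DT_inr a c)
    simp only [law, P.pairOf_Vs a c] at h3
    classical
    obtain ⟨y, hy, e⟩ := Finset.mem_image.1 (Finsupp.mapDomain_support h3)
    obtain ⟨ω', hω'⟩ := supp_damp hy
    refine Finset.mem_image.2 ⟨_, hω', ?_⟩
    rw [← h2, ← e]
  · obtain ⟨ω', -, hω'⟩ := Finset.exists_ne_zero_of_sum_ne_zero hq
    refine Finset.mem_image.2 ⟨(f, ω'), Finsupp.mem_support_iff.2 fun h0 => hω' ?_, rfl⟩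
    rw [h0]; simp

omit [Group A] in
theorem cH_dep {ω' : P.Om A} {b : List P.F × P.F} (hb : P.SB ω₀ i t u w → P.bl ω₀ i u t = b)
    (h : ∀ x ∈ P.Db ω₀ i b, ω x = ω' x) : P.cH μ i ω₀ ω u t w f = P.cH μ i ω₀ ω' u t w f := by
  by_cases h1 : Even u.1 ∧ P.SB ω₀ i t u w
  · obtain rfl := hb h1.2
    obtain ⟨x, y, -, -, e⟩ := SB.mt_iff P h1.2
    have e1 : ω (.inl (i, (P.bl ω₀ i u t).1, t)) = ω' (.inl (i, (P.bl ω₀ i u t).1, t)) :=
      h _ (Finset.mem_insert_self _ _)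
    have e2 : ω (.inr (u.1, u.2, t)) = ω' (.inr (u.1, u.2, t)) :=
      h _ (Finset.mem_insert_of_mem (Finset.mem_image.2
        ⟨u, Finset.mem_filter.2 ⟨(SB.facts P h1.2).1, h1.1, rfl⟩, rfl⟩))
    rw [P.cH_eq h1, P.cH_eq h1, e2]
    have : P.Mt ω₀ ω i t u w ↔ P.Mt ω₀ ω' i t u w := by rw [e, e, e1]
    rw [propext this]
  · rw [P.cH_zero h1, P.cH_zero h1]

theorem cH_mean (hμ : ∀ i, IsLaw (μ i)) {b : List P.F × P.F} (hb : P.SB ω₀ i t u w → P.bl ω₀ i u t = b)
    (ω : P.Om A) : Ex (P.law μ) (P.Db ω₀ i b) (fun ω => P.cH μ i ω₀ ω u t w f) ω = 0 := by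
  classical
  have hlaw := P.isLaw_law hμ
  by_cases h1 : Even u.1 ∧ P.SB ω₀ i t u w
  · obtain rfl := hb h1.2
    obtain ⟨x, y, hx, hy, e⟩ := SB.mt_iff P h1.2
    obtain ⟨a, -, c, -⟩ := SB.facts P h1.2
    simp only [P.cH_eq h1, e]
    rw [Ex_sub, Ex_const hlaw, sub_eq_zero]
    have key := Ex_two hlaw (D := P.Db ω₀ i (P.bl ω₀ i u t)) (c₁ := .inl (i, (P.bl ω₀ i u t).1, t))
      (c₂ := .inr (u.1, u.2, t)) (Finset.mem_insert_self _ _)
      (Finset.mem_insert_of_mem (Finset.mem_image.2 ⟨u, Finset.mem_filter.2 ⟨a, h1.1, rfl⟩, rfl⟩))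
      (by simp) (fun p q => if P.Match i p.1 x y ∧ q.2.1 = f then ph q.2.2 else 0) ω
    refine key.trans ?_
    simp only [law, P.pairOf_Vs a c]
    have inner : ∀ p : Val A, (((damp (P.rho i) (μ i)).mapDomain fun y => ((0 : ℕ), y)).sum
        fun q r => r • (if P.Match i p.1 x y ∧ q.2.1 = f then ph q.2.2 else 0)) =
        if P.Match i p.1 x y then (P.rho i : ℂ) * qco (μ i) f else 0 := fun p => by
      rw [Finsupp.sum_mapDomain_index (by simp) (fun _ _ _ => add_smul _ _ _)]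
      split_ifs with hm
      · simp only [hm, true_and]
        rw [← qco_damp, ← qco_eq_sum]
      · simp [hm]
    simp only [inner]
    rw [sum_shLaw (P.mb i) fun s => if P.Match i s x y then (P.rho i : ℂ) * qco (μ i) f else 0]
    obtain ⟨s₀, hs₀, hs⟩ := P.card_match i hx hy
    rw [Finset.sum_eq_single s₀]
    · rw [if_pos hs₀.2, Complex.real_smul]; push_cast; ring
    · intro s h h'
      rw [if_neg fun hm => h' (hs s ⟨Finset.mem_range.1 h, hm⟩), smul_zero]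
    · intro h; exact absurd (Finset.mem_range.2 hs₀.1) h
  · simp only [P.cH_zero h1]
    exact Ex_const hlaw _ _ _

end Par

namespace Par
variable (P : Par) {A : Type} [Group A] {μ : ℤ → (A × ZMod 4) →₀ ℝ} {on : ℤ → Prop}

theorem rand [DecidableEq A] (hμ : ∀ i, IsLaw (μ i)) (ω₀ : P.Om A) (i : ℤ) :
    (P.trS μ ω₀ i).Rand (P.law μ) (P.DT i) (P.Db ω₀ i) (P.cS μ i ω₀) := by
  classical
  refine ⟨fun ω hω => ⟨?_, ?_, ?_⟩, ?_, ?_, ?_, ?_⟩
  · intro v t w f h
    unfold cS at h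
    split_ifs at h with hv
    · obtain ⟨h1, h2⟩ := P.cH_supp hω h
      obtain ⟨a, b, c, d, e⟩ := SB.facts P h1.2
      refine ⟨a, b, c, h2, ?_, d⟩
      change decide (Even w.1) = !decide (Even v.1)
      simp [hv, e.1 hv]
    · obtain ⟨h1, h2⟩ := P.cH_supp hω (fun h0 => h (by rw [h0, map_zero]))
      obtain ⟨a, b, c, d, e⟩ := SB.facts P h1.2
      refine ⟨b, a, c, ?_, ?_, d.symm⟩
      · simpa using (P.trS μ ω₀ i).Fs_inv _ h2
      · change decide (Even w.1) = !decide (Even v.1)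
        simp [hv, h1.1]
  · intro v t w f
    unfold cS
    by_cases hv : Even v.1 <;> by_cases hw : Even w.1
    · rw [if_pos hv, if_pos hw, P.cH_zero fun h => (SB.facts P h.2).2.2.2.2.1 hw hv,
        P.cH_zero fun h => (SB.facts P h.2).2.2.2.2.1 hv hw, map_zero]
    · rw [if_pos hv, if_neg hw, inv_inv]
    · rw [if_neg hv, if_pos hw, Complex.conj_conj]
    · rw [if_neg hv, if_neg hw, P.cH_zero fun h => hv h.1, P.cH_zero fun h => hw h.1, map_zero, map_zero]
  · intro v t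
    refine le_trans (Finset.sum_le_sum fun w _ => ?_) (P.sum_ind_le (ω₀ := ω₀) (ω := ω) (i := i) (t := t) (u := v) _)
    unfold cS
    by_cases hv : Even v.1
    · simp only [if_pos hv]
      exact P.sum_cH_le (hμ i) _
    · simp only [if_neg hv, RCLike.norm_conj]
      have h1 := P.sum_cH_le (μ := μ) (ω₀ := ω₀) (ω := ω) (u := w) (w := v) (t := t) (hμ i)
        ((P.trS μ ω₀ i).Fs.image fun f => f⁻¹)
      rw [Finset.sum_image (fun a _ b _ h => inv_injective h)] at h1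
      refine h1.trans (le_of_eq ?_)
      congr 1
      · exact if_congr ⟨Mt.symm P, Mt.symm P⟩ rfl rfl
      · exact if_congr ⟨SB.symm P, SB.symm P⟩ rfl rfl
  · intro v hv t ht x hx
    change v ∈ P.Vs ω₀ i at hv
    change t ∈ P.ports i at ht
    change x ∈ P.Db ω₀ i (P.bl ω₀ i v t) at hx
    rcases Finset.mem_insert.1 hx with rfl | hx
    · refine Finset.mem_union_left _ (Finset.mem_image.2 ⟨((P.bl ω₀ i v t).1, t),
        Finset.mem_product.2 ⟨mem_lists.2 ⟨?_, fun _ _ => Finset.mem_univ _⟩, ht⟩, rfl⟩)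
      rcases (P.mem_Vs.1 hv).1 with h | h
      · rw [P.bl_tp h, P.ty_tp h, length_tau, P.length_of_mem h]; rfl
      · rw [P.bl_sub h, ← P.length_of_mem_Blk (P.ty_mem_Blk h)]; rfl
    · obtain ⟨w, hw, rfl⟩ := Finset.mem_image.1 hx
      exact P.mem_DT_inr (Finset.mem_filter.1 hw).1 ht
  · intro b b' hne
    rw [Finset.disjoint_left]
    intro x hx hx'
    rcases Finset.mem_insert.1 hx with rfl | hx
    · rcases Finset.mem_insert.1 hx' with h | h
      · simp only [Sum.inl.injEq, Prod.mk.injEq, true_and] at h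
        exact hne (Prod.ext h.1 h.2)
      · obtain ⟨w, -, h⟩ := Finset.mem_image.1 h
        cases h
    · obtain ⟨w, hw, rfl⟩ := Finset.mem_image.1 hx
      rcases Finset.mem_insert.1 hx' with h | h
      · cases h
      · obtain ⟨w', hw', h⟩ := Finset.mem_image.1 h
        simp only [Sum.inr.injEq, Prod.mk.injEq] at h
        obtain rfl : w' = w := Prod.ext h.1 h.2.1
        apply hne
        rw [← (Finset.mem_filter.1 hw).2.2, ← (Finset.mem_filter.1 hw').2.2, h.2.2]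
  · intro v t w f ω ω' h
    unfold cS
    split_ifs
    · exact P.cH_dep (fun _ => rfl) h
    · rw [P.cH_dep (fun hs => (SB.facts P hs).2.2.2.1) h]
  · intro v t w f ω
    unfold cS
    split_ifs
    · exact P.cH_mean hμ (fun _ => rfl) ω
    · rw [Ex_conj]
      change (starRingEnd ℂ) (Ex (P.law μ) (P.Db ω₀ i (P.bl ω₀ i v t)) _ ω) = 0
      rw [P.cH_mean hμ (fun hs => (SB.facts P hs).2.2.2.1) ω, map_zero]

omit [Group A] in
theorem cH_congr {i : ℤ} {ω₁ ω₂ : P.Om A} (h : ∀ t U W, P.SameBlk ω₁ i t U W ↔ P.SameBlk ω₂ i t U W)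
    (ω : P.Om A) : P.cH μ i ω₁ ω = P.cH μ i ω₂ ω := by
  have : P.SameBlk ω₁ i = P.SameBlk ω₂ i := by
    funext t U W; exact propext (h t U W)
  funext u t w f
  unfold cH
  rw [this]

omit [Group A] in
theorem card_Vs_le (ω₀ : P.Om A) (i : ℤ) : (P.Vs ω₀ i).card ≤ P.n ^ (P.stg (lo i) + 1) := by
  classical
  have h := P.stg_lo_le i
  have hn : 0 < P.n := P.prime.pos
  have key : ∀ j, P.stg j ≤ P.stg (lo i) + 1 → 2 * (P.node j).card ≤ P.n ^ (P.stg (lo i) + 1) := fun j hj => by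
    rw [P.card_node, pow_succ', ← mul_assoc]
    exact Nat.mul_le_mul (by have := P.sz_le j; omega) (Nat.pow_le_pow_right hn (by omega))
  have h1 := key i h.2.2.1
  have h2 := key (i + 1) h.2.2.2
  have h3 : (P.Vs ω₀ i).card ≤ (P.node i).card + (P.node (i + 1)).card :=
    (Finset.card_filter_le _ _).trans (Finset.card_union_le _ _)
  omega

open Classical in
theorem prob_badT (hμ : ∀ i, IsLaw (μ i)) {CA M₀ : ℕ} (hg : Growth μ on CA M₀) (i : ℤ) (r k : ℕ)
    (hk : 2 * 2 ^ r ≤ k * (P.stg (lo i) / 16)) (ω₀ : P.Om A) :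
    Ex (P.law μ) (P.DT i) (fun ω => if P.badT μ on i ω then (1 : ℝ) else 0) ω₀ ≤
      ((P.n : ℝ) ^ (P.stg (lo i) + 1)) ^ 2 * ((M₀ * 2 ^ i.natAbs * 2 ^ r : ℕ) : ℝ) ^ CA *
        ((((P.stg (lo i) / 16 : ℕ) : ℝ) + 1) * (2 * 2 ^ r * P.n + 1)) ^ k / 16 ^ 2 ^ r := by
  have hlaw := P.isLaw_law hμ
  by_cases hon : on i
  swap
  · have : (fun ω => if P.badT μ on i ω then (1 : ℝ) else 0) = fun _ => 0 :=
      funext fun ω => if_neg fun h => hon h.1
    rw [this, Ex_const hlaw]; positivity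
  obtain ⟨FN, hF1, hF2⟩ := hg i hon (2 ^ r) Nat.one_le_two_pow
  have hR := P.rand hμ ω₀ i
  have key := (P.trS μ ω₀ i).prob_norm_gt hlaw hR r k hk FN (fun l hl hx => hF1 l hl fun x h => by
    rcases Finset.mem_union.1 (hx x h) with h | h
    · obtain ⟨y, hy, rfl⟩ := Finset.mem_image.1 h
      exact ⟨y.2, Or.inl hy⟩
    · obtain ⟨y, hy, rfl⟩ := Finset.mem_image.1 h
      exact ⟨y.2, Or.inr (by simpa using hy)⟩) ω₀
  refine le_trans (Ex_mono hlaw fun ω h1 h2 => ?_) (key.trans ?_)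
  · have hc : P.cH μ i ω ω = P.cH μ i ω₀ ω := P.cH_congr (P.SameBlk_congr fun i' κ t _ hl => by
      rw [h1]
      intro hx
      rcases Finset.mem_union.1 hx with hx | hx
      · obtain ⟨c, hc, e⟩ := Finset.mem_image.1 hx
        simp only [Sum.inl.injEq, Prod.mk.injEq] at e
        have := (mem_lists.1 (Finset.mem_product.1 hc).1).1
        rw [e.2.1] at this
        omega
      · obtain ⟨c, -, e⟩ := Finset.mem_image.1 hx
        cases e) ω
    have he : P.fluct μ i ω = prj {p : A × P.V | Even p.2.1} ∘L (P.trS μ ω₀ i).op (P.cS μ i ω₀ ω) := by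
      refine mat_ext fun p q => ?_
      rw [P.mat_fluct hμ, hc]
      change _ = (prj {p : A × P.V | Even p.2.1} ((P.trS μ ω₀ i).op (P.cS μ i ω₀ ω) (dl q)) : A × P.V → ℂ) p
      rw [prj_apply]
      split_ifs with hp
      · change _ = mat _ p q
        rw [(P.trS μ ω₀ i).mat_op (hR.adm ω h2)]
        exact Finset.sum_congr rfl fun t _ => (if_pos hp).symm
      · exact Finset.sum_eq_zero fun t _ => P.cH_zero fun h => hp h.1
    have hn : ‖P.fluct μ i ω‖ ≤ ‖(P.trS μ ω₀ i).op (P.cS μ i ω₀ ω)‖ := by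
      rw [he]
      exact (ContinuousLinearMap.opNorm_comp_le _ _).trans
        (mul_le_of_le_one_left (norm_nonneg _) (norm_prj_le _))
    split_ifs with a b b
    · exact le_rfl
    · exact absurd (lt_of_lt_of_le a.2 hn) b
    · norm_num
    · exact le_rfl
  · have a1 : (((P.trS μ ω₀ i).Vs.card : ℕ) : ℝ) ≤ (P.n : ℝ) ^ (P.stg (lo i) + 1) := by
      exact_mod_cast P.card_Vs_le ω₀ i
    have a2 : (FN.card : ℝ) ≤ ((M₀ * 2 ^ i.natAbs * 2 ^ r : ℕ) : ℝ) ^ CA := by exact_mod_cast hF2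
    change _ * _ * ((((P.stg (lo i) / 16 : ℕ) : ℝ) + 1) * (2 * 2 ^ r * P.n + 1)) ^ k / _ ≤ _
    gcongr

theorem badT_dep (i : ℤ) : ∃ B, ∀ ω ω' : P.Om A, (∀ c ∈ P.Dep B, ω c = ω' c) →
    P.badT μ on i ω → P.badT μ on i ω' := by
  refine ⟨P.J * (P.lvl i + 2) + i.natAbs + 1, fun ω ω' h hb => ⟨hb.1, ?_⟩⟩
  have hJ : P.lvl i + 2 ≤ P.J * (P.lvl i + 2) := Nat.le_mul_of_pos_left _ (by have := P.hJ; omega)
  have hc : P.cH μ i ω ω = P.cH μ i ω' ω := P.cH_congr (P.SameBlk_congr fun i' κ t a b => by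
    have h1 := P.natAbs_le_of_Blk a
    have h2 : P.J * (κ.length + 2) ≤ P.J * (P.lvl i + 2) := Nat.mul_le_mul_left _ (by omega)
    rw [h _ (P.mem_Dep (by omega) (by omega)).1]) ω
  have : P.fluct μ i ω' = P.fluct μ i ω := by
    unfold fluct
    congr 1
    funext p q
    refine Finset.sum_congr rfl fun t _ => ?_
    rw [hc]
    by_cases hs : Even p.2.1 ∧ P.SB ω' i t p.2 q.2
    swap
    · rw [P.cH_zero hs, P.cH_zero hs]
    refine (P.cH_dep (fun _ => rfl) fun x hx => h x ?_).symm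
    have hlen : ∀ v ∈ P.Vs ω' i, v.1.natAbs ≤ i.natAbs + 1 ∧ v.2.length ≤ P.lvl i ∧
        (P.bl ω' i v t).1.length ≤ P.lvl i := fun v hv => by
      rcases (P.mem_Vs.1 hv).1 with a | a
      · rw [P.bl_tp a, P.ty_tp a, length_tau, P.length_of_mem a, P.fst_of_mem a]
        refine ⟨?_, le_rfl, Nat.sub_le _ _⟩
        rcases P.tp_or i with b | b <;> omega
      · have := P.length_of_mem_Blk (P.ty_mem_Blk a)
        rw [P.bl_sub a, P.length_of_mem a, P.fst_of_mem a]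
        refine ⟨?_, ?_, by simp only; omega⟩
        · rcases P.sub_or i with b | b <;> omega
        · by_cases hc : P.cross i
          · have := (P.of_cross hc).2.2.1; omega
          · exact (P.of_not_cross hc).2.1.le
    rcases Finset.mem_insert.1 hx with rfl | hx
    · have := hlen _ (SB.facts P hs.2).1
      exact (P.mem_Dep (by omega) (by omega)).1
    · obtain ⟨w, hw, rfl⟩ := Finset.mem_image.1 hx
      have := hlen _ (Finset.mem_filter.1 hw).1
      exact (P.mem_Dep (by omega) (by omega)).2.1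
  rw [this]; exact hb.2

end Par
end Crest.Agent.R129
end

-- ▼ part PVb/R129/GenAbs
section

/-! # Genericity of random unitriangular labels (task R129/GenAbs). Statements frozen. -/

set_option autoImplicit false
open scoped BigOperators

namespace Crest.Agent.R129

theorem gen_chain (L : List ℕ) (hs : L.Pairwise (· < ·)) (R : ℕ → ℕ → Prop)
    (h : ∀ p ∈ L, ∀ q ∈ L, p < q → (∀ t ∈ L, ¬ (p < t ∧ t < q)) → R p q) : L.IsChain R := by
  rw [List.isChain_iff_getElem]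
  rw [List.pairwise_iff_getElem] at hs
  intro i hi
  refine h _ (List.getElem_mem _) _ (List.getElem_mem _) (hs i (i + 1) _ _ (Nat.lt_succ_self i)) ?_
  rintro t ht ⟨h1, h2⟩
  obtain ⟨j, hj, rfl⟩ := List.getElem_of_mem ht
  rcases lt_trichotomy j i with h3 | rfl | h3
  · exact lt_asymm h1 (hs j i _ _ h3)
  · exact lt_irrefl _ h1
  · rcases (Nat.succ_le_of_lt h3).eq_or_lt with h4 | h4
    · subst h4
      exact lt_irrefl _ h2
    · exact lt_asymm h2 (hs (i + 1) j _ _ h4)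

/-- Sample the times `0, h, 2h, …` below `ℓ` with `h = g / 2`; `E'` = their edges (`≤ 3K + 1` of them as `3h ≥ g`); each edge occurs at
most `K + 1` times; between two occurrences of the same edge (`≥ g ≥ 2h` apart) lies a sample time. -/
theorem gen_comb {Co : Type} [DecidableEq Co] (e : ℕ → Co) (ℓ g K : ℕ) (hg : 2 ≤ g) (hℓ : 0 < ℓ)
    (hK : ℓ ≤ K * g) (hrec : ∀ p q, p < q → q < ℓ → e p = e q → g ≤ q - p) :
    ∃ E' : Finset Co, ((List.range ℓ).filter fun s => e s ∈ E') ≠ [] ∧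
      ((List.range ℓ).filter fun s => e s ∈ E').length ≤ (3 * K + 1) * (K + 1) ∧
      ((List.range ℓ).filter fun s => e s ∈ E').IsChain fun p q => e p ≠ e q := by
  obtain ⟨h, hh⟩ : ∃ h, h = g / 2 := ⟨_, rfl⟩
  have hh0 : 0 < h := by omega
  have hmem : ∀ j, j * h < ℓ →
      e (j * h) ∈ ((Finset.range (3 * K)).filter fun j => j * h < ℓ).image fun j => e (j * h) := by
    intro j hj
    refine Finset.mem_image.2 ⟨j, Finset.mem_filter.2 ⟨Finset.mem_range.2 ?_, hj⟩, rfl⟩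
    have h1 : K * g ≤ K * (3 * h) := Nat.mul_le_mul_left K (by omega)
    have h2 : j * h < 3 * K * h := by nlinarith
    exact lt_of_mul_lt_mul_right h2 (Nat.zero_le _)
  set E' := ((Finset.range (3 * K)).filter fun j => j * h < ℓ).image fun j => e (j * h) with hE'
  refine ⟨E', ?_, ?_, ?_⟩
  · refine List.ne_nil_of_mem (a := 0) (List.mem_filter.2 ⟨List.mem_range.2 hℓ, ?_⟩)
    simpa using hmem 0 (by simpa using hℓ)
  · have h1 : ((List.range ℓ).filter fun s => e s ∈ E').length =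
        ((Finset.range ℓ).filter fun s => e s ∈ E').card := rfl
    have h2 : ((Finset.range ℓ).filter fun s => e s ∈ E').card ≤ (E' ×ˢ Finset.range K).card := by
      refine Finset.card_le_card_of_injOn (fun s => (e s, s / g)) (fun s hs => ?_) ?_
      · obtain ⟨h3, h4⟩ := Finset.mem_filter.1 (Finset.mem_coe.1 hs)
        refine Finset.mem_coe.2 (Finset.mem_product.2 ⟨h4, Finset.mem_range.2 ?_⟩)
        exact (Nat.div_lt_iff_lt_mul (by omega)).2 ((Finset.mem_range.1 h3).trans_le hK)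
      · have key : ∀ p q, p < q → q < ℓ → e p = e q → p / g < q / g := by
          intro p q hpq hq he
          have h3 := hrec p q hpq hq he
          have h4 : (p + g) / g ≤ q / g := Nat.div_le_div_right (by omega)
          rw [Nat.add_div_right _ (by omega)] at h4
          omega
        intro p hp q hq hpq
        have hp' := Finset.mem_range.1 (Finset.mem_filter.1 (Finset.mem_coe.1 hp)).1
        have hq' := Finset.mem_range.1 (Finset.mem_filter.1 (Finset.mem_coe.1 hq)).1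
        obtain ⟨h3, h4⟩ := Prod.mk.inj hpq
        rcases lt_trichotomy p q with h5 | h5 | h5
        · exact absurd h4 (key p q h5 hq' h3).ne
        · exact h5
        · exact absurd h4 (key q p h5 hp' h3.symm).ne'
    have h3 : E'.card ≤ 3 * K :=
      Finset.card_image_le.trans ((Finset.card_filter_le _ _).trans (Finset.card_range _).le)
    rw [Finset.card_product, Finset.card_range] at h2
    rw [h1]
    exact h2.trans (Nat.mul_le_mul (by omega) (by omega))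
  · refine gen_chain _ (List.pairwise_lt_range.filter _) _ fun p _ q hq hpq hn he => ?_
    have hq' := List.mem_range.1 (List.mem_filter.1 hq).1
    have h1 := hrec p q hpq hq' he
    have h2 : p < (p / h + 1) * h := by
      rw [mul_comm]; exact Nat.lt_mul_div_succ p hh0
    have h3 : (p / h + 1) * h ≤ p + h := by
      rw [add_mul, one_mul]; exact Nat.add_le_add_right (Nat.div_mul_le_self p h) h
    refine hn ((p / h + 1) * h) (List.mem_filter.2 ⟨List.mem_range.2 (by omega), ?_⟩) ⟨h2, by omega⟩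
    simpa using hmem _ (by omega)

section SZ
open MvPolynomial

/-- Schwartz–Zippel for an arbitrary finite type of variables -/
theorem gen_sz {σ R : Type} [Fintype σ] [DecidableEq σ] [CommRing R] [IsDomain R] [DecidableEq R]
    {p : MvPolynomial σ R} (hp : p ≠ 0) (S : σ → Finset R) {M c : ℕ} (hM : 0 < M)
    (hS : ∀ i, M ≤ (S i).card) (hc : p.totalDegree ≤ c) :
    (((Fintype.piFinset S).filter fun v => eval v p = 0).card : ℝ) / ∏ i, ((S i).card : ℝ) ≤ c / M := by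
  let e := Fintype.equivFin σ
  have h1 := schwartz_zippel_sup_sum (p := rename e p)
    (fun h => hp (rename_injective _ e.injective (by rw [h, map_zero]))) fun i => S (e.symm i)
  have h2 : ((Fintype.piFinset S).filter fun v => eval v p = 0).card ≤
      ((Fintype.piFinset fun i => S (e.symm i)).filter fun v => eval v (rename e p) = 0).card := by
    refine Finset.card_le_card_of_injOn (fun v => v ∘ e.symm) (fun v hv => ?_) fun v _ w _ h => ?_
    · obtain ⟨h3, h4⟩ := Finset.mem_filter.1 (Finset.mem_coe.1 hv)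
      refine Finset.mem_coe.2 (Finset.mem_filter.2 ⟨Fintype.mem_piFinset.2 fun i =>
        Fintype.mem_piFinset.1 h3 _, ?_⟩)
      rw [eval_rename, Function.comp_assoc, e.symm_comp_self, Function.comp_id]
      exact h4
    · funext i
      simpa using congrFun h (e i)
  have h3 : ((rename e p).support.sup fun s => ∑ i, (s i / (S (e.symm i)).card : ℚ≥0)) ≤ c / M := by
    refine Finset.sup_le fun s hs => ?_
    have h4 : ∑ i, s i ≤ c := by
      have := le_totalDegree hs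
      rw [Finsupp.sum_fintype _ _ (fun _ => rfl)] at this
      exact this.trans ((totalDegree_rename_le _ _).trans hc)
    have hM' : (0 : ℚ≥0) < M := by exact_mod_cast hM
    calc ∑ i, (s i / (S (e.symm i)).card : ℚ≥0) ≤ ∑ i, (s i / M : ℚ≥0) := by
          refine Finset.sum_le_sum fun i _ => ?_
          gcongr
          exact hS _
      _ = (∑ i, s i : ℕ) / M := by rw [← Finset.sum_div, Nat.cast_sum]
      _ ≤ c / M := by gcongr
  have h4 := h1.trans h3
  rw [e.symm.prod_comp fun i => ((S i).card : ℚ≥0)] at h4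
  have h5 : (((Fintype.piFinset S).filter fun v => eval v p = 0).card : ℚ≥0) /
      ∏ i, ((S i).card : ℚ≥0) ≤ c / M := le_trans (by gcongr) h4
  have h6 := (NNRat.cast_le (K := ℝ)).2 h5
  rw [← Nat.cast_prod] at h6 ⊢
  simpa only [NNRat.cast_div, NNRat.cast_natCast] using h6

/-- matrices whose entry `(a, b)` has degree at most `b - a` -/
noncomputable def genUD (σ R : Type) [CommRing R] (n : ℕ) :
    Subring (Matrix (Fin n) (Fin n) (MvPolynomial σ R)) where
  carrier := {Y | ∀ a b, Y a b = 0 ∨ (Y a b).totalDegree + a.val ≤ b.val}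
  mul_mem' := by
    have hadd : ∀ (a b : ℕ) (f g : MvPolynomial σ R), (f = 0 ∨ f.totalDegree + a ≤ b) →
        (g = 0 ∨ g.totalDegree + a ≤ b) → (f + g = 0 ∨ (f + g).totalDegree + a ≤ b) := by
      rintro a b f g (rfl | hf) hg
      · rwa [zero_add]
      rcases hg with rfl | hg
      · rw [add_zero]; exact Or.inr hf
      have := totalDegree_add f g
      omega
    intro Y Z hY hZ a b
    rw [Matrix.mul_apply]
    refine Finset.sum_induction _ (fun f : MvPolynomial σ R => f = 0 ∨ f.totalDegree + a.val ≤ b.val)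
      (hadd _ _)
      (Or.inl rfl) fun k _ => ?_
    rcases hY a k with h | h
    · exact Or.inl (by rw [h, zero_mul])
    rcases hZ k b with h' | h'
    · exact Or.inl (by rw [h', mul_zero])
    have := totalDegree_mul (Y a k) (Z k b)
    omega
  one_mem' a b := by
    by_cases h : a = b
    · subst h
      simp
    · exact Or.inl (Matrix.one_apply_ne h)
  add_mem' := by
    intro Y Z hY hZ a b
    rw [Matrix.add_apply]
    rcases hY a b with h | h
    · rw [h, zero_add]; exact hZ a b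
    rcases hZ a b with h' | h'
    · rw [h', add_zero]; exact Or.inr h
    have := totalDegree_add (Y a b) (Z a b)
    omega
  zero_mem' a b := Or.inl rfl
  neg_mem' := by
    intro Y hY a b
    rw [Matrix.neg_apply, neg_eq_zero, totalDegree_neg]
    exact hY a b

end SZ

/-- positions above the diagonal -/
abbrev GenUp (n : ℕ) : Type := {u : Fin n × Fin n // u.1 < u.2}

/-- the unitriangular matrix with given entries above the diagonal -/
def genTri {R : Type} [CommRing R] {n : ℕ} (v : GenUp n → R) : Matrix (Fin n) (Fin n) R :=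
  Matrix.of fun a b => if h : a < b then v ⟨(a, b), h⟩ else if a = b then 1 else 0

/-- polynomial formula for the inverse of a unitriangular matrix -/
def genInv {R : Type} [CommRing R] {n : ℕ} (Y : Matrix (Fin n) (Fin n) R) : Matrix (Fin n) (Fin n) R :=
  ∑ k ∈ Finset.range n, (1 - Y) ^ k

theorem gen_pow {R : Type} [CommRing R] {n : ℕ} {N : Matrix (Fin n) (Fin n) R}
    (hN : ∀ a b, ¬ a < b → N a b = 0) (k : ℕ) : ∀ a b : Fin n, b.val < a.val + k → (N ^ k) a b = 0 := by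
  induction k with
  | zero =>
    intro a b h
    rw [pow_zero]
    exact Matrix.one_apply_ne fun h' => by rw [h'] at h; omega
  | succ k ih =>
    intro a b h
    rw [pow_succ, Matrix.mul_apply]
    refine Finset.sum_eq_zero fun j _ => ?_
    by_cases hj : j < b
    · rw [ih a j (by have : j.val < b.val := hj; omega), zero_mul]
    · rw [hN j b hj, mul_zero]

theorem gen_inv {R : Type} [CommRing R] {n : ℕ} (v : GenUp n → R) :
    (genTri v)⁻¹ = genInv (genTri v) := by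
  refine Matrix.inv_eq_left_inv ?_
  have h1 := geom_sum_mul_neg (1 - genTri v) n
  rw [sub_sub_cancel] at h1
  rw [genInv, h1, sub_eq_self]
  ext a b
  refine gen_pow (fun a b h => ?_) n a b (by omega)
  simp [genTri, h, Matrix.one_apply]

theorem gen_map_tri {R R' : Type} [CommRing R] [CommRing R'] (f : R →+* R') {n : ℕ}
    (v : GenUp n → R) : f.mapMatrix (genTri v) = genTri fun u => f (v u) := by
  ext a b
  simp only [genTri, RingHom.mapMatrix_apply, Matrix.map_apply, Matrix.of_apply]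
  split_ifs <;> simp

theorem gen_map_inv {R R' : Type} [CommRing R] [CommRing R'] (f : R →+* R') {n : ℕ}
    (Y : Matrix (Fin n) (Fin n) R) : f.mapMatrix (genInv Y) = genInv (f.mapMatrix Y) := by
  simp only [genInv, map_sum, map_pow, map_sub, map_one]

theorem gen_tri_mem {σ R : Type} [CommRing R] {n : ℕ} (i : GenUp n → σ) :
    genTri (fun u => MvPolynomial.X (i u)) ∈ genUD σ R n := by
  intro a b
  simp only [genTri, Matrix.of_apply]
  split_ifs with h h'
  · have h1 := (MvPolynomial.isHomogeneous_X R (i ⟨(a, b), h⟩)).totalDegree_le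
    have h2 : a.val < b.val := h
    omega
  · subst h'
    simp
  · exact Or.inl rfl

theorem gen_box {R : Type} [CommRing R] [DecidableEq R] {c : ℕ}
    {Sx : Fin (c + 1) → Fin (c + 1) → Finset R} {m : Matrix (Fin (c + 1)) (Fin (c + 1)) R}
    (hm : m ∈ box Sx) : (∀ u : GenUp (c + 1), m u.1.1 u.1.2 ∈ Sx u.1.1 u.1.2) ∧
      genTri (fun u => m u.1.1 u.1.2) = m := by
  have h : ∀ a b, m a b ∈ (if a < b then Sx a b else if a = b then {1} else {0} : Finset R) :=
    fun a b => Fintype.mem_piFinset.1 (Fintype.mem_piFinset.1 hm a) b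
  refine ⟨fun u => by simpa only [if_pos u.2] using h u.1.1 u.1.2, ?_⟩
  ext a b
  have := h a b
  simp only [genTri, Matrix.of_apply]
  split_ifs at this ⊢
  · rfl
  · exact (Finset.mem_singleton.1 this).symm
  · exact (Finset.mem_singleton.1 this).symm

theorem gen_card_box {R : Type} [CommRing R] [DecidableEq R] {c : ℕ}
    (Sx : Fin (c + 1) → Fin (c + 1) → Finset R) :
    (box Sx).card = ∏ u : GenUp (c + 1), (Sx u.1.1 u.1.2).card := by
  refine (Fintype.card_piFinset _).trans ?_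
  simp only [Fintype.card_piFinset]
  rw [← Fintype.prod_prod_type', ← Finset.prod_subtype (Finset.univ.filter fun u => u.1 < u.2)
    (by simp) fun u : Fin (c + 1) × Fin (c + 1) => (Sx u.1 u.2).card, Finset.prod_filter]
  refine Finset.prod_congr rfl fun u _ => ?_
  split_ifs <;> simp

theorem gen_transfer {Co Val B : Type} [DecidableEq Co] {ν : Co → Val →₀ ℝ} (T : Val → B)
    (ν' : Co → B →₀ ℝ) (ψ : (Co → B) → ℝ) (U : Finset Co) :
    (∀ x ∈ U, ∀ φ : B → ℝ, (ν x).sum (fun a p => p * φ (T a)) = (ν' x).sum fun m p => p * φ m) →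
    ∀ ω₀, Ex ν U (fun ω => ψ fun x => T (ω x)) ω₀ = Ex ν' U ψ fun x => T (ω₀ x) := by
  induction U using Finset.induction_on with
  | empty => intro _ ω₀; rw [Ex_empty, Ex_empty]
  | insert c U hc ih =>
    intro h ω₀
    rw [Ex_insert hc, Ex_insert hc]
    simp only [ih fun x hx => h x (Finset.mem_insert_of_mem hx), smul_eq_mul]
    rw [← h c (Finset.mem_insert_self _ _) fun m =>
      Ex ν' U ψ (Function.update (fun x => T (ω₀ x)) c m)]
    refine Finsupp.sum_congr fun a _ => ?_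
    congr 2
    exact Function.comp_update T ω₀ c a

theorem gen_filter {α G : Type} [Monoid G] (p : α → Bool) (g : α → G) (l : List α)
    (h : ∀ s ∈ l, ¬ p s → g s = 1) : ((l.filter p).map g).prod = (l.map g).prod := by
  induction l with
  | nil => rfl
  | cons a l ih =>
    have ih' := ih fun s hs => h s (List.mem_cons_of_mem _ hs)
    by_cases ha : p a
    · simp [ha, ih']
    · simp [ha, ih', h a (by simp) ha]

/-- the test matrices -/
def genN {Co : Type} [DecidableEq Co] (R : Type) [CommRing R] (n r : ℕ) (f : ℕ → Co) (x : Co) :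
    Matrix (Fin n) (Fin n) R :=
  Matrix.of fun a b => if b.val = a.val + 1 ∧ a.val < r ∧ f a = x then 1 else 0

theorem gen_N_tri {Co : Type} [DecidableEq Co] (R : Type) [CommRing R] (n r : ℕ) (f : ℕ → Co)
    (x : Co) : genTri (fun u : GenUp n => genN R n r f x u.1.1 u.1.2) = 1 + genN R n r f x := by
  ext a b
  simp only [genTri, Matrix.of_apply, Matrix.add_apply, Matrix.one_apply]
  by_cases h : a < b
  · simp [h, h.ne]
  · have : genN R n r f x a b = 0 := if_neg fun h' => h (by have := h'.1; exact Fin.lt_def.2 (by omega))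
    simp [h, this]

theorem gen_N_inv {Co : Type} [DecidableEq Co] (R : Type) [CommRing R] (n r : ℕ) {f : ℕ → Co}
    (hf : ∀ k, k + 1 < r → f k ≠ f (k + 1)) (x : Co) :
    (1 + genN R n r f x)⁻¹ = 1 + (-1 : R) • genN R n r f x := by
  have h : genN R n r f x * genN R n r f x = 0 := by
    ext a b
    rw [Matrix.mul_apply]
    refine Finset.sum_eq_zero fun k _ => ?_
    simp only [genN, Matrix.of_apply]
    split_ifs with h1 h2
    · refine absurd (h1.2.2.trans h2.2.2.symm) ?_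
      rw [h1.1]
      exact hf _ (h1.1 ▸ h2.2.1)
    all_goals simp
  refine Matrix.inv_eq_right_inv ?_
  rw [neg_smul, one_smul, add_mul, mul_add, mul_add, mul_neg, mul_neg, h]
  simp

theorem gen_entry {Co : Type} [DecidableEq Co] (R : Type) [CommRing R] [IsDomain R] (c r : ℕ)
    (f : ℕ → Co) (ε : ℕ → R) (hε : ∀ k, ε k ≠ 0) (j : ℕ) (hj : j ≤ r) (b : Fin (c + 1)) :
    (j < b.val → ((List.range j).map fun k => 1 + ε k • genN R (c + 1) r f (f k)).prod 0 b = 0) ∧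
    (j = b.val → ((List.range j).map fun k => 1 + ε k • genN R (c + 1) r f (f k)).prod 0 b ≠ 0) := by
  induction j generalizing b with
  | zero =>
    refine ⟨fun h => Matrix.one_apply_ne fun h' => ?_, fun h => ?_⟩
    · rw [← h'] at h
      exact lt_irrefl _ h
    · obtain rfl : b = 0 := Fin.ext h.symm
      simp
  | succ j ih =>
    have ih' := ih (by omega)
    rw [List.prod_range_succ, mul_add, mul_one, Matrix.add_apply, Matrix.mul_smul,
      Matrix.smul_apply, Matrix.mul_apply]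
    constructor
    · intro h
      rw [(ih' b).1 (by omega), zero_add, Finset.sum_eq_zero, smul_zero]
      intro a _
      by_cases ha : j < a.val
      · rw [(ih' a).1 ha, zero_mul]
      · have : genN R (c + 1) r f (f j) a b = 0 := if_neg fun h' => by omega
        rw [this, mul_zero]
    · intro h
      have hjc : j < c + 1 := by omega
      rw [(ih' b).1 (by omega), zero_add, Finset.sum_eq_single ⟨j, hjc⟩]
      · have : genN R (c + 1) r f (f j) ⟨j, hjc⟩ b = 1 := if_pos ⟨h.symm, hj, rfl⟩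
        rw [this, mul_one]
        exact mul_ne_zero (hε j) ((ih' ⟨j, hjc⟩).2 rfl)
      · intro a _ ha
        have : genN R (c + 1) r f (f j) a b = 0 := if_neg fun h' => ha (Fin.ext (by
          have := h'.1; simp only; omega))
        rw [this, mul_zero]
      · simp

open Classical in
/-- Schwartz–Zippel.  Let `r` be the length of the filtered list.  Apply `π`; by `hbox` (induction on the coordinates, `Ex_sdiff`,
`Ex_insert`) the matrices `π (lab (ω x))` are independent and uniform on boxes.  Over `MvPolynomial (coords × index × index) R₀` take generic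
unitriangular `Y x = 1 + N x`, with inverse `∑_{k ≤ c} (-N x)^k`; entry `(a,b)` of any product of these has total degree `≤ b - a`
and vanishes for `a > b`; evaluation at box points gives `π` of the word (inverses are unique).  The entry `(0,r)` is a nonzero polynomial:
put `Y x = 1` off `E'` and `Y x = 1 + ∑_{k : e_k = x} E_{k-1,k}` on `E'` (then `N x ^ 2 = 0` since neighbours differ); the entry is `±1`.  If the
word is `1` this entry vanishes (`r ≥ 1`); `MvPolynomial.schwartz_zippel_sup_sum` gives probability `≤ c / M`. -/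
theorem gen_prob {Co Val A R₀ : Type} [DecidableEq Co] [Group A] [CommRing R₀] [IsDomain R₀] [DecidableEq R₀]
    {c : ℕ} {ν : Co → Val →₀ ℝ} (hν : ∀ x, IsLaw (ν x)) (lab : Val → A)
    (π : A →* Matrix (Fin (c + 1)) (Fin (c + 1)) R₀) (M : ℕ) (hM : 0 < M)
    (e : ℕ → Co) (sgn : ℕ → Bool) (ℓ : ℕ) (D : Finset Co) (hD : ∀ s, s < ℓ → e s ∈ D)
    (hbox : ∀ s, s < ℓ → ∃ Sx : Fin (c + 1) → Fin (c + 1) → Finset R₀, (∀ a b, M ≤ (Sx a b).card) ∧
      ∀ φ : Matrix (Fin (c + 1)) (Fin (c + 1)) R₀ → ℝ,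
        (ν (e s)).sum (fun x p => p * φ (π (lab x))) = (∑ m ∈ box Sx, φ m) / (box Sx).card)
    (E' : Finset Co) (hne : ((List.range ℓ).filter fun s => e s ∈ E') ≠ [])
    (hlen : ((List.range ℓ).filter fun s => e s ∈ E').length ≤ c)
    (hch : ((List.range ℓ).filter fun s => e s ∈ E').IsChain fun p q => e p ≠ e q) (ω₀ : Co → Val) :
    Ex ν D (fun ω => if ((List.range ℓ).map fun s =>
        if sgn s then lab (ω (e s)) else (lab (ω (e s)))⁻¹).prod = 1 then (1 : ℝ) else 0) ω₀ ≤ c / M := by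
  set L := (List.range ℓ).filter fun s => e s ∈ E' with hL
  have hr0 : 0 < L.length := List.length_pos_iff.2 hne
  let r : Fin (c + 1) := ⟨L.length, by omega⟩
  let U : Finset Co := (Finset.range ℓ).image e
  have hU : ∀ s, s < ℓ → e s ∈ U := fun s hs => Finset.mem_image_of_mem e (Finset.mem_range.2 hs)
  have hUD : U ⊆ D := fun x hx => by
    obtain ⟨s, hs, rfl⟩ := Finset.mem_image.1 hx
    exact hD s (Finset.mem_range.1 hs)
  -- the word in matrices
  let W : (Co → Matrix (Fin (c + 1)) (Fin (c + 1)) R₀) → Matrix (Fin (c + 1)) (Fin (c + 1)) R₀ :=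
    fun Y => ((List.range ℓ).map fun s => if sgn s then Y (e s) else (Y (e s))⁻¹).prod
  have hW : ∀ Y Y', (∀ x ∈ U, Y x = Y' x) → W Y = W Y' := fun Y Y' h => by
    refine congrArg List.prod (List.map_congr_left fun s hs => ?_)
    rw [h _ (hU s (List.mem_range.1 hs))]
  let ψ : (Co → Matrix (Fin (c + 1)) (Fin (c + 1)) R₀) → ℝ := fun Y => if W Y 0 r = 0 then 1 else 0
  -- the generic word
  let G : Co → Matrix (Fin (c + 1)) (Fin (c + 1)) (MvPolynomial (U × GenUp (c + 1)) R₀) :=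
    fun x => if h : x ∈ U then genTri fun u => MvPolynomial.X (⟨x, h⟩, u) else 1
  let P := ((List.range ℓ).map fun s => if sgn s then G (e s) else genInv (G (e s))).prod
  have hG : ∀ x, G x ∈ genUD _ R₀ (c + 1) := fun x => by
    by_cases h : x ∈ U
    · simp only [G, dif_pos h]
      exact gen_tri_mem _
    · simp only [G, dif_neg h]
      exact one_mem _
  have hP : P ∈ genUD _ R₀ (c + 1) := by
    refine list_prod_mem fun Y hY => ?_
    obtain ⟨s, -, rfl⟩ := List.mem_map.1 hY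
    split_ifs
    · exact hG _
    · exact sum_mem fun k _ => pow_mem (sub_mem (one_mem _) (hG _)) k
  have hdeg : (P 0 r).totalDegree ≤ c := by
    rcases hP 0 r with h | h
    · rw [h]; simp
    · have : r.val ≤ c := hlen
      omega
  have heval : ∀ (v : U × GenUp (c + 1) → R₀) (Y : Co → Matrix (Fin (c + 1)) (Fin (c + 1)) R₀),
      (∀ x (h : x ∈ U), Y x = genTri fun u => v (⟨x, h⟩, u)) →
      MvPolynomial.eval v (P 0 r) = W Y 0 r := by
    intro v Y hY
    have h1 : (MvPolynomial.eval v).mapMatrix P = W Y := by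
      rw [map_list_prod, List.map_map]
      refine congrArg List.prod (List.map_congr_left fun s hs => ?_)
      have hs' := hU s (List.mem_range.1 hs)
      have h2 : (MvPolynomial.eval v).mapMatrix (G (e s)) = Y (e s) := by
        simp only [G, dif_pos hs']
        rw [gen_map_tri, hY _ hs']
        simp
      rw [Function.comp_apply]
      split_ifs
      · exact h2
      · rw [gen_map_inv, h2, hY _ hs', gen_inv]
    rw [← h1]
    rfl
  have hP0 : P 0 r ≠ 0 := by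
    intro h0
    let f : ℕ → Co := fun k => e (L.getD k 0)
    have hf : ∀ k, k + 1 < L.length → f k ≠ f (k + 1) := fun k hk => by
      have := List.isChain_iff_getElem.1 hch k hk
      simp only [f]
      rwa [List.getD_eq_getElem _ _ hk, List.getD_eq_getElem _ _ (by omega : k < L.length)]
    have h1 := heval (fun i => genN R₀ (c + 1) L.length f i.1 i.2.1.1 i.2.1.2)
      (fun x => 1 + genN R₀ (c + 1) L.length f x) fun x _ => (gen_N_tri ..).symm
    rw [h0, map_zero] at h1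
    have h2 : W (fun x => 1 + genN R₀ (c + 1) L.length f x) =
        ((List.range L.length).map fun k => 1 + (if sgn (L.getD k 0) then (1 : R₀) else -1) •
          genN R₀ (c + 1) L.length f (f k)).prod := by
      simp only [W]
      rw [← gen_filter (fun s => e s ∈ E') _ _ (fun s _ hs => ?_), ← hL]
      · congr 1
        refine List.ext_getElem (by simp) fun k h1 h2 => ?_
        have hk : k < L.length := by simpa using h1
        simp only [List.getElem_map, List.getElem_range, f, List.getD_eq_getElem _ _ hk]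
        split_ifs
        · rw [one_smul]
        · exact gen_N_inv R₀ _ _ hf _
      · have : genN R₀ (c + 1) L.length f (e s) = 0 := by
          ext a b
          refine if_neg fun h' => hs ?_
          rw [← h'.2.2]
          simp only [f, List.getD_eq_getElem _ _ h'.2.1]
          exact (List.mem_filter.1 (List.getElem_mem h'.2.1)).2
        simp [this]
    rw [h2] at h1
    refine (gen_entry R₀ c L.length f _ (fun k => ?_) L.length le_rfl r).2 rfl h1.symm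
    split_ifs <;> simp
  -- the boxes
  have hbox' : ∀ x : Co, ∃ Sx : Fin (c + 1) → Fin (c + 1) → Finset R₀, x ∈ U →
      (∀ a b, M ≤ (Sx a b).card) ∧ ∀ φ : Matrix (Fin (c + 1)) (Fin (c + 1)) R₀ → ℝ,
        (ν x).sum (fun x p => p * φ (π (lab x))) = (∑ m ∈ box Sx, φ m) / (box Sx).card := by
    intro x
    by_cases hx : x ∈ U
    · obtain ⟨s, hs, rfl⟩ := Finset.mem_image.1 hx
      obtain ⟨Sx, h⟩ := hbox s (Finset.mem_range.1 hs)
      exact ⟨Sx, fun _ => h⟩
    · exact ⟨fun _ _ => ∅, fun h => absurd h hx⟩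
  choose S hS using hbox'
  let ν' : Co → Matrix (Fin (c + 1)) (Fin (c + 1)) R₀ →₀ ℝ := fun x =>
    Finsupp.onFinset (box (S x)) (fun m => if m ∈ box (S x) then ((box (S x)).card : ℝ)⁻¹ else 0)
      fun m hm => by by_contra h; exact hm (if_neg h)
  have hsupp : ∀ x, (ν' x).support ⊆ box (S x) := fun x => Finsupp.support_onFinset_subset
  have hval : ∀ x, ∀ m ∈ box (S x), ν' x m = ((box (S x)).card : ℝ)⁻¹ := fun x m hm => if_pos hm
  clear_value ν' P
  calc _ ≤ Ex ν D (fun ω => ψ fun x => π (lab (ω x))) ω₀ := by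
        refine Ex_mono hν fun ω _ _ => ?_
        simp only [ψ]
        split_ifs with h1 h2
        · exact le_rfl
        · refine absurd ?_ h2
          have h3 : W (fun x => π (lab (ω x))) = 1 := by
            rw [← map_one π, ← h1, map_list_prod, List.map_map]
            refine congrArg List.prod (List.map_congr_left fun s _ => ?_)
            rw [Function.comp_apply]
            split_ifs
            · rfl
            · exact Matrix.inv_eq_right_inv (by rw [← map_mul, mul_inv_cancel, map_one])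
          rw [h3]
          exact Matrix.one_apply_ne fun h => hr0.ne (congrArg Fin.val h)
        · exact zero_le_one
        · exact le_rfl
    _ = Ex ν U (fun ω => ψ fun x => π (lab (ω x))) ω₀ := by
        rw [Ex_sdiff hν (D' := D \ U), Finset.sdiff_sdiff_eq_self hUD]
        intro ω ω' h
        simp only [ψ]
        rw [hW (fun x => π (lab (ω x))) (fun x => π (lab (ω' x))) fun x hx => by
          rw [h x (by simp [hx])]]
    _ = Ex ν' U ψ fun x => π (lab (ω₀ x)) := by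
        refine gen_transfer (fun a => π (lab a)) ν' ψ U (fun x hx φ => ?_) ω₀
        rw [(hS x hx).2 φ, Finsupp.sum_of_support_subset _ (hsupp x) _ (by simp), Finset.sum_div]
        exact Finset.sum_congr rfl fun m hm => by rw [hval x m hm, div_eq_inv_mul]
    _ = (((Fintype.piFinset fun x : U => (ν' x).support).filter fun Y =>
          W (pext U Y fun x => π (lab (ω₀ x))) 0 r = 0).card : ℝ) /
          ∏ i : U × GenUp (c + 1), ((S i.1 i.2.1.1 i.2.1.2).card : ℝ) := by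
        rw [Ex_def, Finset.card_filter, Nat.cast_sum, Finset.sum_div]
        refine Finset.sum_congr rfl fun Y hY => ?_
        have h1 : ∏ x : U, ν' x (Y x) =
            (∏ i : U × GenUp (c + 1), ((S i.1 i.2.1.1 i.2.1.2).card : ℝ))⁻¹ := by
          rw [Fintype.prod_prod_type, ← Finset.prod_inv_distrib]
          refine Finset.prod_congr rfl fun x _ => ?_
          rw [hval x.1 (Y x) (hsupp _ (Fintype.mem_piFinset.1 hY x)), gen_card_box, Nat.cast_prod]
        rw [h1, smul_eq_mul, div_eq_inv_mul, Nat.cast_ite, Nat.cast_one, Nat.cast_zero]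
    _ ≤ _ := by
        refine le_trans ?_ (gen_sz hP0 (fun i : U × GenUp (c + 1) => S i.1 i.2.1.1 i.2.1.2) hM
          (fun i => (hS _ i.1.2).1 _ _) hdeg)
        refine div_le_div_of_nonneg_right (Nat.cast_le.2 ?_)
          (Finset.prod_nonneg fun _ _ => Nat.cast_nonneg _)
        refine Finset.card_le_card_of_injOn (fun Y i => Y i.1 i.2.1.1 i.2.1.2) (fun Y hY => ?_)
          fun Y hY Y' hY' h => ?_
        · obtain ⟨h1, h2⟩ := Finset.mem_filter.1 (Finset.mem_coe.1 hY)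
          have h3 := fun x : U => gen_box (hsupp _ (Fintype.mem_piFinset.1 h1 x))
          refine Finset.mem_coe.2 (Finset.mem_filter.2
            ⟨Fintype.mem_piFinset.2 fun i => (h3 i.1).1 i.2, ?_⟩)
          rw [heval _ (pext U Y fun x => π (lab (ω₀ x))) fun x hx => ?_, h2]
          rw [pext_mem _ _ hx]
          exact (h3 ⟨x, hx⟩).2.symm
        · have h1 := (Finset.mem_filter.1 (Finset.mem_coe.1 hY)).1
          have h2 := (Finset.mem_filter.1 (Finset.mem_coe.1 hY')).1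
          funext x
          rw [← (gen_box (hsupp _ (Fintype.mem_piFinset.1 h1 x))).2,
            ← (gen_box (hsupp _ (Fintype.mem_piFinset.1 h2 x))).2]
          congr 1
          funext u
          exact congrFun h (x, u)

end Crest.Agent.R129
end

-- ▼ part PVb/R129/GGen
section

/-! # Short closed walks have nontrivial voltage with high probability (task R129/GGen). Statements frozen. -/

set_option autoImplicit false
open scoped BigOperators

namespace Crest.Agent.R129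
namespace Par
variable (P : Par) {A : Type} [Group A] {μ : ℤ → (A × ZMod 4) →₀ ℝ} {on : ℤ → Prop}

/-- size of the window seen by short walks from node `i` -/
def BG' (i : ℤ) : ℕ := P.j₀ + i.natAbs + 500 * (P.stg i + 1) + 1

theorem stg_le_of_close {i i' : ℤ} {d : ℕ} (h : (i - i').natAbs ≤ d) :
    P.stg i ≤ P.stg i' + d / 1000 + 1 := by
  unfold stg
  have h1 : pos i ≤ pos i' + d := by unfold pos; omega
  have h2 := Nat.div_le_div_right (c := P.J) h1
  have h3 := Nat.add_div_le_div_add_div_add_one (pos i') d P.J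
  have h4 : d / P.J ≤ d / 1000 := Nat.div_le_div_left P.hJ (by norm_num)
  omega

theorem stg_le_pos (i : ℤ) : P.stg i ≤ P.j₀ + i.natAbs + 1 := by
  unfold stg pos
  have := Nat.div_le_self (i.natAbs + 1) P.J
  omega

omit [Group A] in
theorem len_bounds {ω : P.Om A} {v : P.V} {ℓ : ℕ} (hL : (ℓ : ℝ) < 100 * (P.graph ω on).L v) :
    ℓ ≤ 500 * (P.stg v.1 + 1) ∧ 2 * ℓ ≤ 1000 * P.j₀ + v.1.natAbs + 1 := by
  change (ℓ : ℝ) < 100 * (5 * (P.j₀ + (pos v.1 : ℝ) / P.J)) at hL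
  have hJ : (1000 : ℝ) ≤ P.J := by exact_mod_cast P.hJ
  have hJ0 : (0 : ℝ) < P.J := by linarith
  constructor
  · have h1 : (pos v.1 : ℝ) / P.J ≤ ((pos v.1 / P.J : ℕ) : ℝ) + 1 := by
      rw [div_le_iff₀ hJ0]
      have h2 := Nat.lt_div_mul_add (a := pos v.1) (b := P.J) (by have := P.hJ; omega)
      have h3 : (pos v.1 : ℝ) < ((pos v.1 / P.J : ℕ) : ℝ) * P.J + P.J := by exact_mod_cast h2
      linarith
    have h4 : (ℓ : ℝ) ≤ ((500 * (P.stg v.1 + 1) : ℕ) : ℝ) := by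
      unfold stg; push_cast; linarith
    exact_mod_cast h4
  · have h1 : (pos v.1 : ℝ) / P.J ≤ (pos v.1 : ℝ) / 1000 :=
      div_le_div_of_nonneg_left (Nat.cast_nonneg _) (by norm_num) hJ
    have h4 : ((2 * ℓ : ℕ) : ℝ) ≤ ((1000 * P.j₀ + pos v.1 : ℕ) : ℝ) := by
      push_cast; linarith
    have h5 : 2 * ℓ ≤ 1000 * P.j₀ + pos v.1 := by exact_mod_cast h4
    unfold pos at h5; omega

omit [Group A] in
theorem walk_adj {ω : P.Om A} {v : ℕ → P.V} {t : ℕ → P.F} {ℓ : ℕ} (hw : (P.graph ω on).NBWalk v t ℓ)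
    {s : ℕ} (hs : s < ℓ) : P.Adj ω on (t s) (v s) (v (s + 1)) := P.edge_iff.1 (hw.1 s hs)

omit [Group A] in
theorem walk_close {ω : P.Om A} {v : ℕ → P.V} {t : ℕ → P.F} {ℓ : ℕ} (hw : (P.graph ω on).NBWalk v t ℓ)
    (s : ℕ) (hs : s ≤ ℓ) : ((v 0).1 - (v s).1).natAbs ≤ s := by
  induction s with
  | zero => simp
  | succ s ih =>
    have h1 := ih (by omega)
    rcases (Adj.pair P (P.walk_adj hw (s := s) (by omega))).2.2.2.1 with h | h <;> omega

omit [Group A] in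
theorem walk_mem {ω : P.Om A} {v : ℕ → P.V} {t : ℕ → P.F} {ℓ : ℕ} (hw : (P.graph ω on).NBWalk v t ℓ)
    (hℓ : 0 < ℓ) (s : ℕ) (hs : s ≤ ℓ) : v s ∈ P.node (v s).1 := by
  rcases Nat.eq_zero_or_pos s with rfl | h
  · exact (Adj.pair P (P.walk_adj hw hℓ)).2.2.2.2.1
  · obtain ⟨s, rfl⟩ : ∃ k, s = k + 1 := ⟨s - 1, by omega⟩
    exact (Adj.pair P (P.walk_adj hw (s := s) (by omega))).2.2.2.2.2.1

omit [Group A] in
theorem walk_on {ω : P.Om A} {v : ℕ → P.V} {t : ℕ → P.F} {ℓ : ℕ} (hw : (P.graph ω on).NBWalk v t ℓ)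
    (s : ℕ) (hs : s < ℓ) : (P.pairOf (v s).1 (t s) - P.pairOf (v 0).1 (t 0)).natAbs ≤ s ∧
      ∀ i' ∈ Set.uIcc (P.pairOf (v 0).1 (t 0)) (P.pairOf (v s).1 (t s)), on i' := by
  induction s with
  | zero =>
    refine ⟨by simp, fun i' hi' => ?_⟩
    rw [Set.uIcc_self, Set.mem_singleton_iff] at hi'
    rw [hi']; exact (Adj.pair P (P.walk_adj hw hs)).1
  | succ s ih =>
    obtain ⟨h1, h2⟩ := ih (by omega)
    have a := Adj.pair P (P.walk_adj hw (s := s) (by omega))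
    have b := Adj.pair P (P.walk_adj hw hs)
    have c : (P.pairOf (v (s + 1)).1 (t (s + 1)) - P.pairOf (v s).1 (t s)).natAbs ≤ 1 := by
      rcases a.2.2.2.1 with h | h <;> rcases b.2.2.2.1 with h' | h' <;> omega
    refine ⟨by omega, fun i' hi' => ?_⟩
    by_cases he : i' = P.pairOf (v (s + 1)).1 (t (s + 1))
    · rw [he]; exact b.1
    · refine h2 i' ?_
      rw [Set.mem_uIcc] at hi' ⊢
      omega

omit [Group A] in
theorem walk_shift {ω : P.Om A} {v : ℕ → P.V} {t : ℕ → P.F} {ℓ : ℕ} (hw : (P.graph ω on).NBWalk v t ℓ)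
    (a b : ℕ) (h : a + b ≤ ℓ) : (P.graph ω on).NBWalk (fun s => v (a + s)) (fun s => t (a + s)) b :=
  ⟨fun s hs => hw.1 (a + s) (by omega), fun s hs => hw.2 (a + s) (by omega)⟩

omit [Group A] in
theorem walk_return {ω : P.Om A} {v : ℕ → P.V} {t : ℕ → P.F} {ℓ : ℕ} (hw : (P.graph ω on).NBWalk v t ℓ)
    (hL : ℓ ≤ 500 * (P.stg (v 0).1 + 1)) {a q : ℕ} (ha : a < q) (hq : q ≤ ℓ) (he : v q = v a) :
    P.stg (v 0).1 / 20 ≤ q - a := by
  have h1 := P.base_girth _ _ _ (P.walk_shift hw a (q - a) (by omega)) (by omega)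
    (by simp only [add_zero]; rw [show a + (q - a) = q by omega, he])
  simp only [add_zero] at h1
  have h2 := P.stg_le_of_close ((P.walk_close hw a (by omega)).trans (show a ≤ ℓ by omega))
  have h3 := P.j₀_le_stg (v 0).1
  have h4 := P.hj
  unfold gir at h1
  omega

/-- the `H`-end of step `s` -/
def hE (v : ℕ → P.V) (s : ℕ) : P.V := if Even (v s).1 then v s else v (s + 1)

omit [Group A] in
theorem walk_rec {ω : P.Om A} {v : ℕ → P.V} {t : ℕ → P.F} {ℓ : ℕ} (hw : (P.graph ω on).NBWalk v t ℓ)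
    (hL : ℓ ≤ 500 * (P.stg (v 0).1 + 1)) {p q : ℕ} (hpq : p < q) (hq : q < ℓ)
    (he : P.hE v p = P.hE v q) (ht : t p = t q) : P.stg (v 0).1 / 20 ≤ q - p := by
  have a := P.walk_adj hw (s := p) (by omega)
  have b := P.walk_adj hw hq
  have second : v q = v (p + 1) → P.stg (v 0).1 / 20 ≤ q - p := fun h => by
    have hne : q ≠ p + 1 := by
      rintro rfl
      exact hw.2 p hq ht
    have := P.walk_return hw hL (a := p + 1) (q := q) (by omega) hq.le h
    omega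
  unfold hE at he
  split_ifs at he with h1 h2 h2
  · exact P.walk_return hw hL hpq hq.le he.symm
  · refine second ?_
    rw [he, ht] at a
    exact Adj.unique P (Adj.symm P b) a
  · exact second he.symm
  · refine P.walk_return hw hL hpq hq.le ?_
    rw [he, ht] at a
    exact Adj.unique P (Adj.symm P b) (Adj.symm P a)

open Classical in
theorem prob_walk (hμ : ∀ i, IsLaw (μ i)) {M₀ R : ℕ} (hM : 1 ≤ M₀) (hR : 1 ≤ R)
    (hg : GenHyp μ on (60001 * 20001) M₀ R) (ω₀ : P.Om A) (v : ℕ → P.V) (t : ℕ → P.F) (ℓ : ℕ)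
    (hw : (P.graph ω₀ on).NBWalk v t ℓ) (hℓ : 0 < ℓ) (hL : (ℓ : ℝ) < 100 * (P.graph ω₀ on).L (v 0)) :
    Ex (P.law μ) (P.DG (P.BG' (v 0).1))
      (fun ω => if (P.graph ω on).wlab (P.graph ω on).a v t ℓ = 1 then (1 : ℝ) else 0) ω₀ ≤
      (60001 * 20001 : ℕ) / ((M₀ * R ^ ((v 0).1.natAbs / 2 - (500 * P.j₀ + 2)) : ℕ) : ℝ) := by
  obtain ⟨hL1, hL2⟩ := P.len_bounds hL
  have hj1 := P.j₀_le_stg (v 0).1
  have hj2 := P.hj
  let e : ℕ → P.Co := fun s => Sum.inr ((P.hE v s).1, (P.hE v s).2, t s)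
  obtain ⟨E', h1, h2, h3⟩ := gen_comb e ℓ (P.stg (v 0).1 / 20) 20000 (by omega) hℓ (by omega)
    (fun p q hpq hq h => by
      simp only [e, Sum.inr.injEq, Prod.mk.injEq] at h
      exact P.walk_rec hw hL1 hpq hq (Prod.ext h.1 h.2.1) h.2.2)
  have a0 := Adj.pair P (P.walk_adj hw hℓ)
  obtain ⟨R₀, _, _, _, π, hπ⟩ := hg _ a0.1
  have hpair : ∀ s, s < ℓ → P.pairOf (P.hE v s).1 (t s) = P.pairOf (v s).1 (t s) := fun s hs => by
    unfold hE
    split_ifs
    · rfl
    · exact (Adj.pair P (P.walk_adj hw hs)).2.2.1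
  have key := gen_prob (P.isLaw_law hμ) (fun x : Val A => x.2.1) π
    (M₀ * R ^ ((v 0).1.natAbs / 2 - (500 * P.j₀ + 2))) (Nat.mul_pos hM (Nat.pow_pos hR)) e
    (fun s => decide (Even (v s).1)) ℓ (P.DG (P.BG' (v 0).1)) (fun s hs => ?_) (fun s hs => ?_)
    E' h1 h2 h3 ω₀
  · refine le_of_eq_of_le ?_ key
    congr 1
    funext ω
    congr 2
    unfold BG.wlab
    congr 1
    refine List.map_congr_left fun s _ => ?_
    by_cases h : Even (v s).1
    · have h' : (P.graph ω on).isH (v s) := h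
      simp only [e, hE, if_pos h', h, decide_true, if_true]; rfl
    · have h' : ¬ (P.graph ω on).isH (v s) := h
      simp only [e, hE, if_neg h', h, decide_false, if_false, Bool.false_eq_true]; rfl
  · have hh : ∀ k, k ≤ ℓ → (v k).1.natAbs ≤ P.BG' (v 0).1 ∧ (v k).2.length ≤ P.BG' (v 0).1 := fun k hk => by
      have b1 := P.walk_close hw k hk
      have b2 := P.length_of_mem (P.walk_mem hw hℓ k hk)
      have b3 := P.stg_le_pos (v k).1
      unfold BG'
      omega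
    have : (P.hE v s).1.natAbs ≤ P.BG' (v 0).1 ∧ (P.hE v s).2.length ≤ P.BG' (v 0).1 := by
      unfold hE
      split_ifs
      · exact hh s hs.le
      · exact hh (s + 1) hs
    generalize P.BG' (v 0).1 = B at this ⊢
    exact (P.mem_Dep this.1 this.2).2.2
  · obtain ⟨b1, b2⟩ := P.walk_on hw s hs
    obtain ⟨Sx, c1, c2⟩ := hπ _ b2
    refine ⟨Sx, fun a b => le_trans (Nat.mul_le_mul_left _ (Nat.pow_le_pow_right hR ?_)) (c1 a b),
      fun φ => ?_⟩
    · rcases a0.2.2.2.1 with h | h <;> omega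
    · rw [← c2 φ]
      simp only [e, law, hpair s hs]
      rw [Finsupp.sum_mapDomain_index (by simp) (fun _ _ _ => by ring)]
      exact sum_damp _ _ fun x => φ (π x)

omit [Group A] in
theorem adj_congr {ω ω' : P.Om A} {B : ℕ}
    (h : ∀ i κ t, κ ∈ P.Blk i → κ.length ≤ B → (ω (.inl (i, κ, t))).1 = (ω' (.inl (i, κ, t))).1)
    {t : P.F} {v v' : P.V} (hB : P.stg v.1 ≤ B) (ha : P.Adj ω on t v v') : P.Adj ω' on t v v' := by
  have key : ∀ i U W, P.lvl i ≤ B + 1 → P.PE ω on i t U W → P.PE ω' on i t U W := by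
    rintro i U W hl ⟨h1, h2, h3⟩
    have hb := P.ty_mem_Blk h2.2.2.1
    have hl2 := P.length_of_mem_Blk hb
    refine ⟨h1, (P.SameBlk_congr (fun i' κ t a b => h i' κ t a (by omega)) t U W).1 h2, ?_⟩
    rwa [← h i _ t hb (by omega)]
  obtain ⟨i, ha | ha⟩ := ha
  · refine ⟨i, Or.inl (key i _ _ ?_ ha)⟩
    rw [P.fst_of_mem ha.2.1.2.1] at hB
    unfold lvl; omega
  · refine ⟨i, Or.inr (key i _ _ ?_ ha)⟩
    rw [P.fst_of_mem ha.2.1.2.2.1] at hB
    by_cases hc : P.cross i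
    · have := (P.of_cross hc).2.2.1; omega
    · have := (P.of_not_cross hc).2.1; omega

omit [Group A] in
theorem walk_congr {ω ω' : P.Om A} {B : ℕ}
    (h : ∀ i κ t, κ ∈ P.Blk i → κ.length ≤ B → (ω (.inl (i, κ, t))).1 = (ω' (.inl (i, κ, t))).1)
    {v : ℕ → P.V} {t : ℕ → P.F} {ℓ : ℕ} (hB : P.j₀ + (v 0).1.natAbs + ℓ + 1 ≤ B)
    (hw : (P.graph ω on).NBWalk v t ℓ) : (P.graph ω' on).NBWalk v t ℓ := by
  refine ⟨fun s hs => P.edge_iff.2 (P.adj_congr h ?_ (P.walk_adj hw hs)), hw.2⟩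
  have b1 := P.walk_close hw s hs.le
  have b3 := P.stg_le_pos (v s).1
  omega

theorem wlab_congr {ω ω' : P.Om A} {v v' : ℕ → P.V} {t t' : ℕ → P.F} {ℓ : ℕ}
    (hv : ∀ s, s ≤ ℓ → v s = v' s) (ht : ∀ s, s < ℓ → t s = t' s)
    (h : ∀ s k, s < ℓ → k ≤ ℓ → ω (.inr ((v k).1, (v k).2, t s)) = ω' (.inr ((v k).1, (v k).2, t s))) :
    (P.graph ω on).wlab (P.graph ω on).a v t ℓ = (P.graph ω' on).wlab (P.graph ω' on).a v' t' ℓ := by
  unfold BG.wlab
  congr 1
  refine List.map_congr_left fun s hs => ?_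
  have hs' := List.mem_range.1 hs
  rw [← hv s hs'.le, ← hv (s + 1) hs', ← ht s hs']
  by_cases he : Even (v s).1
  · have h1 : (P.graph ω on).isH (v s) := he
    have h2 : (P.graph ω' on).isH (v s) := he
    rw [if_pos h1, if_pos h2]
    exact congrArg (fun x : Val A => x.2.1) (h s s hs' hs'.le)
  · have h1 : ¬ (P.graph ω on).isH (v s) := he
    have h2 : ¬ (P.graph ω' on).isH (v s) := he
    rw [if_neg h1, if_neg h2]
    exact congrArg (fun x : Val A => x.2.1⁻¹) (h s (s + 1) hs' hs')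

theorem sum_pow_le (n m : ℕ) : ∑ k ∈ Finset.range (m + 1), n ^ k ≤ (n + 1) ^ m := by
  induction m with
  | zero => simp
  | succ m ih =>
    rw [Finset.sum_range_succ, pow_succ (n + 1)]
    have : n ^ (m + 1) ≤ (n + 1) ^ m * n := by
      rw [pow_succ]; exact Nat.mul_le_mul_right _ (Nat.pow_le_pow_left (by omega) _)
    nlinarith

open Classical in
theorem prob_badG (hμ : ∀ i, IsLaw (μ i)) {M₀ R : ℕ} (hM : 1 ≤ M₀) (hR : 1 ≤ R)
    (hg : GenHyp μ on (60001 * 20001) M₀ R) (i : ℤ) (ω₀ : P.Om A) :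
    Ex (P.law μ) (P.DG (P.BG' i)) (fun ω => if P.badG on i ω then (1 : ℝ) else 0) ω₀ ≤
      ((P.n : ℝ) + 1) ^ (501 * (P.stg i + 1)) * (60001 * 20001 : ℕ) /
        ((M₀ * R ^ (i.natAbs / 2 - (500 * P.j₀ + 2)) : ℕ) : ℝ) := by
  set η : ℝ := (60001 * 20001 : ℕ) / ((M₀ * R ^ (i.natAbs / 2 - (500 * P.j₀ + 2)) : ℕ) : ℝ) with hη
  have hη0 : 0 ≤ η := by positivity
  let S : Finset (P.V × List P.F) := P.node i ×ˢ
    (Finset.range (500 * (P.stg i + 1) + 1)).biUnion fun k => lists Finset.univ k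
  let Pw : P.V × List P.F → (ℕ → P.V) × (ℕ → P.F) → Prop := fun x w =>
    (P.graph ω₀ on).NBWalk w.1 w.2 x.2.length ∧ w.1 0 = x.1 ∧ (List.range x.2.length).map w.2 = x.2 ∧
      0 < x.2.length ∧ (x.2.length : ℝ) < 100 * (P.graph ω₀ on).L (w.1 0)
  let f : P.V × List P.F → P.Om A → ℝ := fun x ω =>
    if h : ∃ w, Pw x w then
      (if (P.graph ω on).wlab (P.graph ω on).a h.choose.1 h.choose.2 x.2.length = 1 then 1 else 0) else 0
  have hf0 : ∀ x ω, 0 ≤ f x ω := fun x ω => by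
    simp only [f]; split_ifs <;> norm_num
  have hlaw := P.isLaw_law hμ
  have h1 : Ex (P.law μ) (P.DG (P.BG' i)) (fun ω => if P.badG on i ω then (1 : ℝ) else 0) ω₀ ≤
      Ex (P.law μ) (P.DG (P.BG' i)) (fun ω => ∑ x ∈ S, f x ω) ω₀ := by
    refine Ex_mono hlaw fun ω hω _ => ?_
    split_ifs with hb
    swap
    · exact Finset.sum_nonneg fun x _ => hf0 x ω
    obtain ⟨v, t, ℓ, hw, hℓ, -, hi, hlab, hL⟩ := hb
    have hw₀ : (P.graph ω₀ on).NBWalk v t ℓ :=
      P.walk_congr (B := P.j₀ + (v 0).1.natAbs + ℓ + 1)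
        (fun i κ t _ _ => by rw [hω _ (by simp [DG])]) le_rfl hw
    have hlen : ((List.range ℓ).map t).length = ℓ := by simp
    have hx : (v 0, (List.range ℓ).map t) ∈ S := by
      have := (P.len_bounds hL).1
      rw [hi] at this
      simp only [S]
      generalize 500 * (P.stg i + 1) = B at this ⊢
      exact Finset.mem_product.2 ⟨hi ▸ P.walk_mem hw hℓ 0 (Nat.zero_le _), Finset.mem_biUnion.2
        ⟨ℓ, Finset.mem_range.2 (by omega), mem_lists.2 ⟨hlen, fun _ _ => Finset.mem_univ _⟩⟩⟩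
    refine le_trans ?_ (Finset.single_le_sum (fun x _ => hf0 x ω) hx)
    have hex : ∃ w, Pw (v 0, (List.range ℓ).map t) w :=
      ⟨(v, t), by simp only [Pw, hlen]; exact ⟨hw₀, trivial, trivial, hℓ, hL⟩⟩
    obtain ⟨c1, c2, c3, -, -⟩ := hex.choose_spec
    simp only [f, dif_pos hex]
    rw [if_pos]
    simp only [hlen] at c1 c2 c3 ⊢
    have ht : ∀ s, s < ℓ → hex.choose.2 s = t s := fun s hs =>
      List.map_inj_left.1 c3 s (List.mem_range.2 hs)
    have hv : ∀ s, s ≤ ℓ → hex.choose.1 s = v s := fun s hs => by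
      induction s with
      | zero => exact c2
      | succ s ih =>
        have a := P.walk_adj c1 (s := s) (by omega)
        rw [ih (by omega), ht s (by omega)] at a
        exact Adj.unique P a (P.walk_adj hw₀ (by omega))
    rw [← hlab]
    exact P.wlab_congr hv ht fun _ _ _ _ => rfl
  have h2 : ∀ x ∈ S, Ex (P.law μ) (P.DG (P.BG' i)) (f x) ω₀ ≤ η := fun x hx => by
    by_cases h : ∃ w, Pw x w
    · obtain ⟨c1, c2, -, c4, c5⟩ := h.choose_spec
      have hi : (h.choose.1 0).1 = i := by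
        rw [c2]; exact P.fst_of_mem (Finset.mem_product.1 hx).1
      have := P.prob_walk hμ hM hR hg ω₀ _ _ _ c1 c4 c5
      rw [hi] at this
      simpa only [f, dif_pos h] using this
    · have : f x = fun _ => 0 := funext fun ω => by simp only [f, dif_neg h]
      rw [this, Ex_const hlaw]; exact hη0
  have h3 : S.card ≤ (P.n + 1) ^ (501 * (P.stg i + 1)) := by
    rw [Finset.card_product, P.card_node]
    have a1 : ((Finset.range (500 * (P.stg i + 1) + 1)).biUnion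
        fun k => lists (Finset.univ : Finset P.F) k).card ≤ (P.n + 1) ^ (500 * (P.stg i + 1)) := by
      refine Finset.card_biUnion_le.trans (le_trans (le_of_eq ?_) (sum_pow_le P.n _))
      refine Finset.sum_congr rfl fun k _ => ?_
      rw [card_lists, Finset.card_univ, ZMod.card]
    have a2 : P.sz i * P.n ^ (P.stg i - 1) ≤ (P.n + 1) ^ (P.stg i + 1) := by
      have b1 := P.sz_le i
      calc P.sz i * P.n ^ (P.stg i - 1) ≤ (P.n + 1) * (P.n + 1) ^ (P.stg i - 1) :=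
            Nat.mul_le_mul (by omega) (Nat.pow_le_pow_left (by omega) _)
        _ = (P.n + 1) ^ (P.stg i - 1 + 1) := by ring
        _ ≤ _ := Nat.pow_le_pow_right (by omega) (by omega)
    calc _ ≤ (P.n + 1) ^ (P.stg i + 1) * (P.n + 1) ^ (500 * (P.stg i + 1)) := Nat.mul_le_mul a2 a1
      _ = _ := by
        rw [← pow_add, show P.stg i + 1 + 500 * (P.stg i + 1) = 501 * (P.stg i + 1) by omega]
  refine h1.trans ?_
  rw [Ex_sum, mul_div_assoc]
  refine (Finset.sum_le_card_nsmul _ _ _ h2).trans ?_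
  rw [nsmul_eq_mul]
  refine mul_le_mul_of_nonneg_right ?_ hη0
  exact_mod_cast h3

theorem badG_dep (i : ℤ) : ∃ B, ∀ ω ω' : P.Om A, (∀ c ∈ P.Dep B, ω c = ω' c) →
    P.badG on i ω → P.badG on i ω' := by
  refine ⟨P.J * (P.BG' i + 2), fun ω ω' h ⟨v, t, ℓ, hw, hℓ, hc, hi, hlab, hL⟩ => ?_⟩
  have hL1 := (P.len_bounds hL).1
  have hJ : P.BG' i + 2 ≤ P.J * (P.BG' i + 2) := Nat.le_mul_of_pos_left _ (by have := P.hJ; omega)
  refine ⟨v, t, ℓ, P.walk_congr (B := P.BG' i) (fun i' κ t a b => ?_) ?_ hw, hℓ, hc, hi, ?_, hL⟩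
  · rw [h _ (P.mem_Dep ((P.natAbs_le_of_Blk a).trans (Nat.mul_le_mul_left _ (by omega))) (by omega)).1]
  · rw [hi] at hL1 ⊢; unfold BG'; omega
  · rw [← hlab]
    refine (P.wlab_congr (fun _ _ => rfl) (fun _ _ => rfl) fun s k _ hk => h _ ?_).symm
    have b1 := P.walk_close hw k hk
    have b2 := P.length_of_mem (P.walk_mem hw hℓ k hk)
    have b3 := P.stg_le_pos (v k).1
    rw [hi] at hL1 b1
    have : (v k).1.natAbs ≤ P.BG' i ∧ (v k).2.length ≤ P.BG' i := by unfold BG'; omega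
    exact (P.mem_Dep (by omega) (by omega)).2.1

end Par
end Crest.Agent.R129
end

-- ▼ part PVb/R129/GMain
section

/-! # Choice of parameters (task R129/GMain). Statements frozen. -/

set_option autoImplicit false
open scoped BigOperators

namespace Crest.Agent.R129

theorem gmain_sq_le {r : ℕ} (hr : 4 ≤ r) : r * r ≤ 2 ^ r := by
  induction r, hr using Nat.le_induction with
  | base => norm_num
  | succ r hr ih =>
    rw [pow_succ]
    nlinarith

theorem gmain_lin_le {a r : ℕ} (hr : 2 * a + 4 ≤ r) : a * (r + 2) ≤ 2 ^ r := by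
  have := gmain_sq_le (r := r) (by omega)
  nlinarith

theorem exists_j₁ (E n : ℕ) : ∃ j₁, ∀ j, j₁ ≤ j → E ^ (j + 2) ≤ 4 ^ 2 ^ (j / 32) ∧
    (j / 16 + 1) * (2 * 2 ^ (j / 32) * n + 1) ≤ 2 ^ (j / 16) := by
  refine ⟨32 * (2 * (32 * E + 4 * n + 2) + 4), fun j hj => ?_⟩
  have h := gmain_lin_le (a := 32 * E + 4 * n + 2) (r := j / 32) (by omega)
  have h1 : j + 2 ≤ 32 * (j / 32 + 2) := by omega
  have h2 : j / 16 + 1 ≤ 2 * (j / 32 + 2) := by omega
  have h3 : j / 32 + j / 32 ≤ j / 16 := by omega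
  generalize j / 32 = r at h h1 h2 h3
  constructor
  · calc E ^ (j + 2) ≤ (4 ^ E) ^ (j + 2) :=
        Nat.pow_le_pow_left (Nat.lt_pow_self (by norm_num)).le _
      _ = 4 ^ (E * (j + 2)) := by rw [← pow_mul]
      _ ≤ 4 ^ 2 ^ r := by
        refine Nat.pow_le_pow_right (by norm_num) ?_
        calc E * (j + 2) ≤ E * (32 * (r + 2)) := Nat.mul_le_mul_left _ h1
          _ = 32 * E * (r + 2) := by ring
          _ ≤ (32 * E + 4 * n + 2) * (r + 2) := Nat.mul_le_mul_right _ (by omega)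
          _ ≤ 2 ^ r := h
  · have hp : 1 ≤ 2 ^ r := Nat.one_le_two_pow
    calc (j / 16 + 1) * (2 * 2 ^ r * n + 1) ≤ 2 * (r + 2) * (2 ^ r * (2 * n + 1)) :=
        Nat.mul_le_mul h2 (by nlinarith)
      _ = (4 * n + 2) * (r + 2) * 2 ^ r := by ring
      _ ≤ 2 ^ r * 2 ^ r :=
        Nat.mul_le_mul_right _ ((Nat.mul_le_mul_right _ (by omega)).trans h)
      _ ≤ 2 ^ (j / 16) := by
        rw [← pow_add]
        exact Nat.pow_le_pow_right (by norm_num) h3

/-- from an inequality of natural numbers to the bound `4^{-m} / 100` -/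
theorem gmain_div_le {a b m : ℕ} (hb : 0 < b) (h : 100 * 4 ^ m * a ≤ b) :
    (a : ℝ) / b ≤ (1 / 4) ^ m / 100 := by
  have h' : (100 * 4 ^ m * a : ℝ) ≤ b := by exact_mod_cast h
  have hb' : (0 : ℝ) < b := by exact_mod_cast hb
  rw [one_div, inv_pow, div_le_div_iff₀ hb' (by norm_num), ← div_eq_inv_mul,
    le_div_iff₀ (by positivity)]
  linarith

theorem gmain_etaG {c n1 R j₀ q m e : ℕ} (hR : R = 4 ^ 1004) (hq : n1 ^ q ≤ 4 ^ (m + 1))
    (he : m / 2 + 1 ≤ 500 * j₀ + 3 + e) :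
    100 * 4 ^ m * (n1 ^ (501 * (j₀ + q + 1)) * c) ≤
      100 * c * n1 ^ (501 * (j₀ + 1)) * R ^ (500 * j₀ + 3) * R ^ e := by
  have h1 : 4 ^ m * (n1 ^ q) ^ 501 ≤ R ^ (500 * j₀ + 3) * R ^ e := by
    rw [← pow_add, hR, ← pow_mul 4 1004]
    refine le_trans (Nat.mul_le_mul_left _ (Nat.pow_le_pow_left hq 501)) ?_
    rw [← pow_mul, ← pow_add]
    exact Nat.pow_le_pow_right (by norm_num) (by omega)
  calc 100 * 4 ^ m * (n1 ^ (501 * (j₀ + q + 1)) * c)
      = 100 * c * n1 ^ (501 * (j₀ + 1)) * (4 ^ m * (n1 ^ q) ^ 501) := by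
        rw [show 501 * (j₀ + q + 1) = 501 * (j₀ + 1) + q * 501 by ring, pow_add, pow_mul n1 q]
        generalize n1 ^ (501 * (j₀ + 1)) = x
        generalize (n1 ^ q) ^ 501 = y
        ring
    _ ≤ 100 * c * n1 ^ (501 * (j₀ + 1)) * (R ^ (500 * j₀ + 3) * R ^ e) :=
        Nat.mul_le_mul_left _ h1
    _ = _ := by rw [← mul_assoc]

theorem gmain_M₀ {c n1 R j₀ j : ℕ} (hc : 0 < c) (hn : 0 < n1) (hR : 0 < R) (hj : j₀ ≤ j) :
    c * n1 ^ (501 * (j₀ + 1)) * R ^ (500 * j₀ + 3) ≤ (c * n1 ^ 501 * R ^ 500) ^ (j + 2) := by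
  rw [mul_pow, mul_pow, ← pow_mul, ← pow_mul]
  exact Nat.mul_le_mul (Nat.mul_le_mul (Nat.le_self_pow (by omega) c)
    (Nat.pow_le_pow_right hn (by omega))) (Nat.pow_le_pow_right hR (by omega))

theorem gmain_etaT {n J E₀ M CA j m r g k X : ℕ} (hn : 0 < n) (hM : M ≤ E₀ ^ (j + 2))
    (hm : m ≤ J * (j + 2)) (hr : r ≤ j + 2) (hg : g ≤ j + 2) (hk : g * k ≤ 2 * 2 ^ r + g)
    (hX : X ≤ 2 ^ g)
    (hE : (100 * n ^ 2 * 2 * 4 ^ J * (E₀ * 2 ^ J * 2) ^ CA) ^ (j + 2) ≤ 4 ^ 2 ^ r) :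
    100 * 4 ^ m * ((n ^ (j + 1)) ^ 2 * (M * 2 ^ m * 2 ^ r) ^ CA * X ^ k) ≤ 16 ^ 2 ^ r := by
  have h1 : X ^ k ≤ 4 ^ 2 ^ r * 2 ^ (j + 2) := by
    refine (Nat.pow_le_pow_left hX _).trans ?_
    rw [← pow_mul, show (4 : ℕ) = 2 ^ 2 by norm_num, ← pow_mul, ← pow_add]
    exact Nat.pow_le_pow_right (by norm_num) (by omega)
  have h2 : M * 2 ^ m * 2 ^ r ≤ (E₀ * 2 ^ J * 2) ^ (j + 2) := by
    rw [mul_pow, mul_pow, ← pow_mul 2 J]
    exact Nat.mul_le_mul (Nat.mul_le_mul hM (Nat.pow_le_pow_right (by norm_num) hm))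
      (Nat.pow_le_pow_right (by norm_num) hr)
  have h3 : (M * 2 ^ m * 2 ^ r) ^ CA ≤ ((E₀ * 2 ^ J * 2) ^ CA) ^ (j + 2) := by
    rw [← pow_mul, mul_comm CA, pow_mul]
    exact Nat.pow_le_pow_left h2 _
  have h4 : (n ^ (j + 1)) ^ 2 ≤ (n ^ 2) ^ (j + 2) := by
    rw [← pow_mul, ← pow_mul]
    exact Nat.pow_le_pow_right hn (by omega)
  have h5 : 4 ^ m ≤ (4 ^ J) ^ (j + 2) := by
    rw [← pow_mul]
    exact Nat.pow_le_pow_right (by norm_num) hm
  have h6 : 100 ≤ 100 ^ (j + 2) := Nat.le_self_pow (by omega) 100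
  rw [mul_pow, mul_pow, mul_pow, mul_pow] at hE
  calc _ ≤ 100 ^ (j + 2) * (4 ^ J) ^ (j + 2) * ((n ^ 2) ^ (j + 2) *
        ((E₀ * 2 ^ J * 2) ^ CA) ^ (j + 2) * (4 ^ 2 ^ r * 2 ^ (j + 2))) :=
        Nat.mul_le_mul (Nat.mul_le_mul h6 h5) (Nat.mul_le_mul (Nat.mul_le_mul h4 h3) h1)
    _ = 100 ^ (j + 2) * (n ^ 2) ^ (j + 2) * 2 ^ (j + 2) * (4 ^ J) ^ (j + 2) *
        ((E₀ * 2 ^ J * 2) ^ CA) ^ (j + 2) * 4 ^ 2 ^ r := by
        generalize 100 ^ (j + 2) = a
        generalize (4 ^ J) ^ (j + 2) = b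
        generalize (n ^ 2) ^ (j + 2) = c
        generalize ((E₀ * 2 ^ J * 2) ^ CA) ^ (j + 2) = d
        generalize 4 ^ 2 ^ r = e
        generalize 2 ^ (j + 2) = f
        ring
    _ ≤ 4 ^ 2 ^ r * 4 ^ 2 ^ r := Nat.mul_le_mul_right _ hE
    _ = 16 ^ 2 ^ r := (mul_pow 4 4 _).symm

theorem gmain_ball {c n1 R j₀ q m x : ℕ} (hc : 0 < c) (hn : 0 < n1) (hR : R = 4 ^ 1004)
    (hq : n1 ^ q ≤ 4 ^ (m + 1)) (hx : x ≤ 40 * j₀ + 40 * (q + 1)) :
    n1 ^ (x + 1) ≤ c * n1 ^ (501 * (j₀ + 1)) * R ^ (500 * j₀ + 3) * R ^ m := by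
  have h1 : (n1 ^ q) ^ 40 ≤ R ^ (500 * j₀ + 3) * R ^ m := by
    rw [← pow_add, hR, ← pow_mul 4 1004]
    refine (Nat.pow_le_pow_left hq _).trans ?_
    rw [← pow_mul]
    exact Nat.pow_le_pow_right (by norm_num) (by omega)
  calc n1 ^ (x + 1) ≤ n1 ^ (501 * (j₀ + 1) + q * 40) := Nat.pow_le_pow_right hn (by omega)
    _ = 1 * n1 ^ (501 * (j₀ + 1)) * (n1 ^ q) ^ 40 := by rw [pow_add, pow_mul n1 q, one_mul]
    _ ≤ c * n1 ^ (501 * (j₀ + 1)) * (R ^ (500 * j₀ + 3) * R ^ m) :=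
        Nat.mul_le_mul (Nat.mul_le_mul_right _ hc) h1
    _ = _ := by rw [← mul_assoc]

theorem gmain_sum (s : Finset (ℤ ⊕ ℤ)) :
    ∑ x ∈ s, ((1 / 4 : ℝ) ^ (Sum.elim id id x : ℤ).natAbs / 100) ≤ 1 / 2 := by
  have h0 : HasSum (fun n : ℕ => (1 / 4 : ℝ) ^ n / 100) ((1 - 1 / 4)⁻¹ / 100) :=
    (hasSum_geometric_of_lt_one (by norm_num) (by norm_num)).div_const _
  have h1 : HasSum (fun i : ℤ => (1 / 4 : ℝ) ^ i.natAbs / 100) _ :=
    HasSum.of_nat_of_neg (f := fun i : ℤ => (1 / 4 : ℝ) ^ i.natAbs / 100)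
      (by simpa only [Int.natAbs_natCast] using h0)
      (by simpa only [Int.natAbs_neg, Int.natAbs_natCast] using h0)
  have h2 := HasSum.sum
    (f := fun x : ℤ ⊕ ℤ => (1 / 4 : ℝ) ^ (Sum.elim id id x : ℤ).natAbs / 100) h1 h1
  refine (sum_le_hasSum s (fun _ _ => by positivity) h2).trans ?_
  norm_num

theorem gmain_large {δ : ℝ} (hδ : 0 < δ) : ∃ n₁ : ℕ, ∀ n : ℕ, n₁ ≤ n →
    Real.sqrt (n * Real.sqrt n) ≤ δ * n ∧ Real.sqrt (3 / n) ≤ δ := by
  obtain ⟨n₁, hn₁⟩ := exists_nat_ge ((1 / δ ^ 2) ^ 2 + 3 / δ ^ 2)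
  refine ⟨n₁, fun n hn => ?_⟩
  have h1 : (1 / δ ^ 2) ^ 2 + 3 / δ ^ 2 ≤ n := hn₁.trans (by exact_mod_cast hn)
  have h2 : 0 < (1 / δ ^ 2) ^ 2 := by positivity
  have h3 : 0 < 3 / δ ^ 2 := by positivity
  have hn0 : (0 : ℝ) < n := by linarith
  constructor
  · refine Real.sqrt_le_iff.2 ⟨by positivity, ?_⟩
    have h4 : 1 / δ ^ 2 ≤ Real.sqrt n := Real.le_sqrt_of_sq_le (by linarith)
    rw [div_le_iff₀ (by positivity)] at h4
    have h5 : Real.sqrt n * Real.sqrt n = n := Real.mul_self_sqrt hn0.le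
    have h6 : Real.sqrt n ≤ δ ^ 2 * n := by
      have := mul_le_mul_of_nonneg_left h4 (Real.sqrt_nonneg n)
      nlinarith
    nlinarith
  · refine Real.sqrt_le_iff.2 ⟨hδ.le, ?_⟩
    rw [div_le_iff₀ hn0]
    have h4 : 3 / δ ^ 2 ≤ n := by linarith
    rw [div_le_iff₀ (by positivity)] at h4
    linarith

theorem gmain_J (C n₁ : ℕ) (hC : 1 ≤ C) : ∃ J : ℕ, 1000 ≤ J ∧ Odd J ∧ n₁ ≤ C * 2 ^ (J + 2) ∧
    C * 2 ^ (J + 3) + 1 ≤ 4 ^ J := by
  obtain ⟨J, hJ0, hodd, hJ1, hJ⟩ : ∃ J : ℕ, 1000 ≤ J ∧ Odd J ∧ n₁ ≤ J + 2 ∧ C + 3 ≤ J :=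
    ⟨2 * (n₁ + C + 500) + 1, by omega, ⟨_, rfl⟩, by omega, by omega⟩
  refine ⟨J, hJ0, hodd, ?_, ?_⟩
  · exact (Nat.lt_two_pow_self (n := n₁)).le.trans ((Nat.pow_le_pow_right (by norm_num)
      hJ1).trans (Nat.le_mul_of_pos_left _ hC))
  · have h1 : C < 2 ^ C := Nat.lt_two_pow_self
    have h2 : 2 ^ (C + 3) ≤ 2 ^ J := Nat.pow_le_pow_right (by norm_num) hJ
    have h3 : 1 ≤ 2 ^ J := Nat.one_le_two_pow
    rw [show (4 : ℕ) = 2 * 2 by norm_num, mul_pow, pow_add]
    rw [pow_add] at h2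
    nlinarith

namespace Par
variable (P : Par)

/-- the box size -/
def M₀ : ℕ := 100 * (60001 * 20001) * (P.n + 1) ^ (501 * (P.j₀ + 1)) * (4 ^ 1004) ^ (500 * P.j₀ + 3)

theorem n_pos : 0 < P.n := P.prime.pos

theorem pow_pos_div_le (i : ℤ) : (P.n + 1) ^ (pos i / P.J) ≤ 4 ^ (i.natAbs + 1) := by
  refine (Nat.pow_le_pow_left P.h4 _).trans ?_
  rw [← pow_mul]
  exact Nat.pow_le_pow_right (by norm_num) (Nat.mul_div_le _ _)

theorem two_le_M₀ : 2 ≤ P.M₀ := by
  unfold M₀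
  have h1 : 0 < (P.n + 1) ^ (501 * (P.j₀ + 1)) := Nat.pow_pos (Nat.succ_pos _)
  have h2 : 0 < (4 ^ 1004) ^ (500 * P.j₀ + 3) := Nat.pow_pos (Nat.pow_pos (Nat.succ_pos 3))
  exact le_trans (by norm_num) ((Nat.le_mul_of_pos_right _ h1).trans (Nat.le_mul_of_pos_right _ h2))

/-- `stg i + 1 = j₀ + 1 + pos/J`, `(n+1)^(pos/J) ≤ 4^pos`, `R^(|i|/2) ≥ 4^(502 (|i| - 1))` -/
theorem etaG_le (i : ℤ) : ((P.n : ℝ) + 1) ^ (501 * (P.stg i + 1)) * (60001 * 20001 : ℕ) /
    ((P.M₀ * (4 ^ 1004) ^ (i.natAbs / 2 - (500 * P.j₀ + 2)) : ℕ) : ℝ) ≤ (1 / 4) ^ i.natAbs / 100 := by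
  have h := gmain_div_le (m := i.natAbs) (a := (P.n + 1) ^ (501 * (P.stg i + 1)) * (60001 * 20001))
    (b := P.M₀ * (4 ^ 1004) ^ (i.natAbs / 2 - (500 * P.j₀ + 2)))
    (Nat.mul_pos (lt_of_lt_of_le two_pos P.two_le_M₀) (Nat.pow_pos (Nat.pow_pos (Nat.succ_pos 3))))
    (gmain_etaG rfl (P.pow_pos_div_le i) (by omega))
  rwa [Nat.cast_mul ((P.n + 1) ^ _), Nat.cast_pow, Nat.cast_succ] at h

/-- `j = stg (lo i)`, `g = j/16`, `r = j/32`, `k = 2·2^r / g + 1`, so `g k ≤ 2·2^r + g`; `|i| ≤ J (j+2)`, `M₀ ≤ E₀^(j+2)` with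
`E₀ = 100 c (n+1)^501 R^500`. -/
theorem etaT_le (CA : ℕ)
    (h : ∀ j, P.j₀ ≤ j → (100 * P.n ^ 2 * 2 * 4 ^ P.J *
        (100 * (60001 * 20001) * (P.n + 1) ^ 501 * (4 ^ 1004) ^ 500 * 2 ^ P.J * 2) ^ CA) ^ (j + 2) ≤
          4 ^ 2 ^ (j / 32) ∧
      (j / 16 + 1) * (2 * 2 ^ (j / 32) * P.n + 1) ≤ 2 ^ (j / 16)) (i : ℤ) :
    ∃ r k : ℕ, 2 * 2 ^ r ≤ k * (P.stg (lo i) / 16) ∧
      ((P.n : ℝ) ^ (P.stg (lo i) + 1)) ^ 2 * ((P.M₀ * 2 ^ i.natAbs * 2 ^ r : ℕ) : ℝ) ^ CA *
        ((((P.stg (lo i) / 16 : ℕ) : ℝ) + 1) * (2 * 2 ^ r * P.n + 1)) ^ k / 16 ^ 2 ^ r ≤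
        (1 / 4) ^ i.natAbs / 100 := by
  have hj := P.j₀_le_stg (lo i)
  have hj0 := P.hj
  have hm : i.natAbs ≤ P.J * (P.stg (lo i) + 2) := by
    have h1 := P.natAbs_le (lo i)
    have h2 : i.natAbs ≤ (lo i).natAbs + 1 := by
      unfold lo
      split_ifs <;> omega
    exact (h2.trans h1).trans (Nat.mul_le_mul_left _ (by omega))
  obtain ⟨h1, h2⟩ := h _ hj
  generalize P.stg (lo i) = j at *
  have hg : 0 < j / 16 := by omega
  refine ⟨j / 32, 2 * 2 ^ (j / 32) / (j / 16) + 1, ?_, ?_⟩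
  · rw [mul_comm _ (j / 16)]
    exact (Nat.lt_mul_div_succ _ hg).le
  · have h3 := gmain_div_le (m := i.natAbs) (Nat.pow_pos (by norm_num))
      (gmain_etaT (M := P.M₀) (k := 2 * 2 ^ (j / 32) / (j / 16) + 1) P.n_pos
        (gmain_M₀ (by norm_num) (Nat.succ_pos _) (Nat.pow_pos (Nat.succ_pos 3)) hj) hm
        (by omega) (by omega)
        (by rw [mul_add, mul_one]; exact Nat.add_le_add_right (Nat.mul_div_le _ _) _) h2 h1)
    generalize P.M₀ * 2 ^ i.natAbs * 2 ^ (j / 32) = Y at h3 ⊢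
    generalize j / 16 = g at h3 ⊢
    exact_mod_cast h3

theorem ball_le {A : Type} (ω : P.Om A) (on : ℤ → Prop) (v : P.V) :
    (P.n + 1) ^ (⌈8 * (P.graph ω on).L v⌉₊ + 1) ≤ P.M₀ * (4 ^ 1004) ^ v.1.natAbs := by
  refine gmain_ball (by norm_num) (Nat.succ_pos _) rfl (P.pow_pos_div_le v.1) (Nat.ceil_le.2 ?_)
  have hJ : 0 < P.J := lt_of_lt_of_le (by norm_num) P.hJ
  have h1 : (pos v.1 : ℝ) / P.J ≤ ((pos v.1 / P.J + 1 : ℕ) : ℝ) := by
    rw [div_le_iff₀ (by exact_mod_cast hJ), mul_comm]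
    exact_mod_cast (Nat.lt_mul_div_succ _ hJ).le
  change 8 * (5 * ((P.j₀ : ℝ) + (pos v.1 : ℝ) / P.J)) ≤ _
  generalize pos v.1 / P.J + 1 = q at h1 ⊢
  push_cast
  linarith

open Classical in
theorem exists_omega (CA : ℕ)
    (h : ∀ j, P.j₀ ≤ j → (100 * P.n ^ 2 * 2 * 4 ^ P.J *
        (100 * (60001 * 20001) * (P.n + 1) ^ 501 * (4 ^ 1004) ^ 500 * 2 ^ P.J * 2) ^ CA) ^ (j + 2) ≤
          4 ^ 2 ^ (j / 32) ∧
      (j / 16 + 1) * (2 * 2 ^ (j / 32) * P.n + 1) ≤ 2 ^ (j / 16))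
    {A : Type} [Group A] {μ : ℤ → (A × ZMod 4) →₀ ℝ} {on : ℤ → Prop} (hμ : ∀ i, IsLaw (μ i))
    (hG : GenHyp μ on (60001 * 20001) P.M₀ (4 ^ 1004)) (hGr : Growth μ on CA P.M₀) :
    ∃ ω, Valid (P.law μ) ω ∧ (∀ i, ¬ P.badT μ on i ω) ∧ ∀ i, ¬ P.badG on i ω := by
  choose BT hBT using P.badT_dep (μ := μ) (on := on)
  choose BG hBG using P.badG_dep (A := A) (on := on)
  obtain ⟨ω, h1, h2⟩ := exists_good (P.isLaw_law hμ) (ι := ℤ ⊕ ℤ)
    (Sum.elim (P.badT μ on) (P.badG on)) (Sum.elim P.DT fun i => P.DG (P.BG' i))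
    (Sum.elim (fun i => P.Dep (BT i)) fun i => P.Dep (BG i))
    (fun x => (1 / 4 : ℝ) ^ (Sum.elim id id x : ℤ).natAbs / 100)
    (by
      rintro (i | i)
      · exact hBT i
      · exact hBG i)
    (by
      rintro (i | i) ω₀ -
      · obtain ⟨r, k, hk, hle⟩ := P.etaT_le CA h i
        exact (P.prob_badT hμ hGr i r k hk ω₀).trans hle
      · exact (P.prob_badG hμ (le_trans one_le_two P.two_le_M₀) (Nat.pow_pos (Nat.succ_pos 3)) hG i
          ω₀).trans (P.etaG_le i))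
    gmain_sum
  exact ⟨ω, h1, fun i => h2 (.inl i), fun i => h2 (.inr i)⟩

theorem edge_pair {A : Type} [Group A] {μ : ℤ → (A × ZMod 4) →₀ ℝ} {on : ℤ → Prop} {ω : P.Om A}
    (hω : Valid (P.law μ) ω) (u : P.V) (t : P.F) (w : P.V) (h : (P.graph ω on).nb u t = some w) :
    ∃ i, on i ∧ ((u ∈ P.node i ∧ w ∈ P.node (i + 1)) ∨ (u ∈ P.node (i + 1) ∧ w ∈ P.node i)) ∧
      ∃ ω', ((P.graph ω on).a u t, ω') ∈ (μ i).support := by
  classical
  obtain ⟨h1, -, -, h2, h3, h4, -⟩ := Adj.pair P ((P.nbr_eq_some).1 h).2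
  refine ⟨P.pairOf u.1 t, h1, ?_, ?_⟩
  · rcases h2 with ⟨a, b⟩ | ⟨a, b⟩
    · exact Or.inl ⟨a ▸ h3, a ▸ b ▸ h4⟩
    · have c : w.1 = P.pairOf u.1 t := by omega
      exact Or.inr ⟨a ▸ h3, c ▸ h4⟩
  · obtain ⟨y, hy, e⟩ := Finset.mem_image.1 (Finsupp.mapDomain_support (hω (.inr (u.1, u.2, t))))
    obtain ⟨ω', h5⟩ := supp_damp hy
    refine ⟨ω', ?_⟩
    change ((ω (.inr (u.1, u.2, t))).2.1, ω') ∈ _
    rw [← e]
    exact h5

end Par

/-- `c = 60001 * 20001`, `R = 4^1004`.  Given `CA, ε`: `C ≥ 1` with `32/√C ≤ ε/3`, `C' = 16 √C`.  Given `n₀`: `n₁ ≥ n₀` such that for `n ≥ n₁`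
`32 √(n √n) ≤ (ε/3) n/(16 √C)` and `4 √(3/n) ≤ ε/3`; `J ≥ 1000` odd with `n₁ ≤ C 2^(J+2)`, `C 2^(J+3) + 1 ≤ 4^J`; `n` by Bertrand
(`Nat.exists_prime_lt_and_le_two_mul`); `j₀ ≥ 1000` even from `exists_j₁`; `M₀ = P.M₀`.  `exists_good` with `ι = ℤ ⊕ ℤ` (`badT`, `badG`),
`∑_{i ∈ s} 4^{-|i|} ≤ 2 ∑ 4^{-m} ≤ 8/3`.  Then `scHyp`, `op_bound`, `Adj.pair`, `supp_damp`, `ball_le`. -/
theorem partG' : ∃ c R : ℕ, 2 ≤ R ∧ ∀ (CA : ℕ) (ε : ℝ), 0 < ε → ∃ C' : ℝ, 0 < C' ∧
    ∀ n₀ : ℕ, ∃ (n : ℕ) (_ : Fact n.Prime) (M₀ : ℕ), n₀ ≤ n ∧ 2 ≤ M₀ ∧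
    ∀ (A : Type) [Group A] (μ : ℤ → (A × ZMod 4) →₀ ℝ) (on : ℤ → Prop),
      (∀ i, IsLaw (μ i)) → GenHyp μ on c M₀ R → Growth μ on CA M₀ →
      ∃ (Γ : BG (ZMod n) A) (node : ℤ → Finset Γ.V), Γ.SCHyp ∧
        (∀ i, (node i).Nonempty) ∧ (∀ i j, i ≠ j → Disjoint (node i) (node j)) ∧
        (∀ i, ∀ v ∈ node i, Γ.isH v ↔ Even i) ∧
        (∀ u t w, Γ.nb u t = some w → ∃ i, on i ∧
          ((u ∈ node i ∧ w ∈ node (i + 1)) ∨ (u ∈ node (i + 1) ∧ w ∈ node i)) ∧
          ∃ ω, (Γ.a u t, ω) ∈ (μ i).support) ∧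
        (∀ i, ∀ v ∈ node i, (n + 1) ^ (⌈8 * Γ.L v⌉₊ + 1) ≤ M₀ * R ^ i.natAbs) ∧
        ‖Γ.Bop Γ.a - (((n : ℝ) / C' : ℝ) : ℂ) • (Γ.Wop A node ∘L Qop μ on ∘L adj (Γ.Wop A node))‖
          ≤ ε * ((n : ℝ) / C') := by
  refine ⟨60001 * 20001, 4 ^ 1004, le_trans (by norm_num) (Nat.le_self_pow (by norm_num) 4),
    fun CA ε hε => ?_⟩
  obtain ⟨C₀, hC₀⟩ := exists_nat_ge ((96 / ε) ^ 2)
  have hC1 : 1 ≤ Real.sqrt (C₀ + 1 : ℕ) :=
    Real.le_sqrt_of_sq_le (by rw [one_pow]; exact_mod_cast Nat.le_add_left 1 C₀)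
  have hC2 : 96 / ε ≤ Real.sqrt (C₀ + 1 : ℕ) :=
    Real.le_sqrt_of_sq_le (hC₀.trans (by exact_mod_cast Nat.le_add_right C₀ 1))
  have hC : 1 ≤ C₀ + 1 := Nat.le_add_left 1 C₀
  generalize C₀ + 1 = C at hC1 hC2 hC
  refine ⟨16 * Real.sqrt C, by positivity, fun n₀ => ?_⟩
  obtain ⟨n₁, hn₁⟩ := gmain_large (δ := ε / (1536 * Real.sqrt C)) (by positivity)
  obtain ⟨J, hJ, hodd, hJ1, hJ2⟩ := gmain_J C (n₀ + n₁) hC
  obtain ⟨n, hp, hn1, hn2⟩ := Nat.exists_prime_lt_and_le_two_mul (C * 2 ^ (J + 2)) (by positivity)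
  have hn3 : n ≤ C * 2 ^ (J + 3) := hn2.trans (le_of_eq (by ring))
  obtain ⟨j₁, hj₁⟩ := exists_j₁ (100 * n ^ 2 * 2 * 4 ^ J *
    (100 * (60001 * 20001) * (n + 1) ^ 501 * (4 ^ 1004) ^ 500 * 2 ^ J * 2) ^ CA) n
  obtain ⟨j₀, hev, hj0, hjj⟩ : ∃ j₀ : ℕ, Even j₀ ∧ 1000 ≤ j₀ ∧ j₁ ≤ j₀ :=
    ⟨2 * (j₁ + 500), even_two_mul _, by omega, by omega⟩
  have hn0 : n₀ + n₁ ≤ n := hJ1.trans hn1.le
  let P : Par := ⟨n, C, J, j₀, hp, hC, hJ, hodd, hev, hj0, hn1.le, hn3,
    (Nat.succ_le_succ hn3).trans hJ2⟩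
  refine ⟨n, ⟨hp⟩, P.M₀, (Nat.le_add_right _ _).trans hn0, P.two_le_M₀, fun A _ μ on hμ hG hGr => ?_⟩
  obtain ⟨ω, hω, hT, hB⟩ := P.exists_omega CA (fun j hj => hj₁ j (hjj.trans hj)) hμ hG hGr
  refine ⟨P.graph ω on, P.node, P.scHyp hB, P.node_nonempty, P.node_disjoint, fun i v hv => ?_,
    P.edge_pair hω, fun i v hv => ?_, (P.op_bound hμ hT).trans ?_⟩
  · rw [← (P.mem_node.1 hv).1]
    exact Iff.rfl
  · rw [← (P.mem_node.1 hv).1]
    exact P.ball_le ω on v
  · obtain ⟨a1, a2⟩ := hn₁ n ((Nat.le_add_left _ _).trans hn0)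
    change 2 * (16 * Real.sqrt (n * Real.sqrt n) + 16 * ((n : ℝ) / (16 * Real.sqrt C)) / Real.sqrt C +
      2 * ((n : ℝ) / (16 * Real.sqrt C)) * Real.sqrt (3 / n)) ≤ _
    have hs : 0 < Real.sqrt C := by linarith
    have hl : 0 ≤ (n : ℝ) / (16 * Real.sqrt C) := by positivity
    have b1 : ε / (1536 * Real.sqrt C) * n = ε / 96 * (n / (16 * Real.sqrt C)) := by
      field_simp
      ring
    have b2 : 1 / Real.sqrt C ≤ ε / 96 := by
      rw [div_le_iff₀ hε] at hC2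
      rw [div_le_div_iff₀ hs (by norm_num)]
      linarith
    have b3 : ε / (1536 * Real.sqrt C) ≤ ε / 12 :=
      div_le_div_of_nonneg_left hε.le (by norm_num) (by linarith)
    rw [b1] at a1
    rw [mul_div_assoc, div_eq_mul_one_div _ (Real.sqrt C)]
    generalize (n : ℝ) / (16 * Real.sqrt C) = l at *
    have c2 := mul_le_mul_of_nonneg_left b2 hl
    have c3 := mul_le_mul_of_nonneg_left (a2.trans b3) hl
    linarith

end Crest.Agent.R129
end

-- ▼ part PVb/R129/PartG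

/-! # Part G (owner helper86): the labelled expander telescope.  Statement frozen. -/

set_option autoImplicit false

namespace Crest.Agent.R129

theorem partG : ∃ c R : ℕ, 2 ≤ R ∧ ∀ (CA : ℕ) (ε : ℝ), 0 < ε → ∃ C' : ℝ, 0 < C' ∧
    ∀ n₀ : ℕ, ∃ (n : ℕ) (_ : Fact n.Prime) (M₀ : ℕ), n₀ ≤ n ∧ 2 ≤ M₀ ∧
    ∀ (A : Type) [Group A] (μ : ℤ → (A × ZMod 4) →₀ ℝ) (on : ℤ → Prop),
      (∀ i, IsLaw (μ i)) → GenHyp μ on c M₀ R → Growth μ on CA M₀ →
      ∃ (Γ : BG (ZMod n) A) (node : ℤ → Finset Γ.V), Γ.SCHyp ∧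
        (∀ i, (node i).Nonempty) ∧ (∀ i j, i ≠ j → Disjoint (node i) (node j)) ∧
        (∀ i, ∀ v ∈ node i, Γ.isH v ↔ Even i) ∧
        (∀ u t w, Γ.nb u t = some w → ∃ i, on i ∧
          ((u ∈ node i ∧ w ∈ node (i + 1)) ∨ (u ∈ node (i + 1) ∧ w ∈ node i)) ∧
          ∃ ω, (Γ.a u t, ω) ∈ (μ i).support) ∧
        (∀ i, ∀ v ∈ node i, (n + 1) ^ (⌈8 * Γ.L v⌉₊ + 1) ≤ M₀ * R ^ i.natAbs) ∧
        ‖Γ.Bop Γ.a - (((n : ℝ) / C' : ℝ) : ℂ) • (Γ.Wop A node ∘L Qop μ on ∘L adj (Γ.Wop A node))‖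
          ≤ ε * ((n : ℝ) / C') :=
  partG'

end Crest.Agent.R129
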