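import Crest.Agent.PVb.R129.Tree
import Crest.Agent.PVb.R129.SC
import Crest.Agent.PVb.R129.Cons1
import Crest.Agent.PVb.R129.Cons2
import Crest.Agent.PVb.R129.Ker
import Crest.Agent.PVb.R129.WQ
import Crest.Agent.PVb.R129S.CStar

-- ▼ part PVb/R129/Paths
section

/-! # Paths in a base graph (task R129/Paths). Statements frozen; add lemmas freely. -/

set_option autoImplicit false
set_option linter.unusedSectionVars false

namespace Crest.Agent.R129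
namespace BG
variable {F A : Type} {Γ : BG F A} {K K' : Type} [Group K] [Group K']

theorem Path.trans {κ : Γ.V → F → K} {v v' v'' : Γ.V} {k k' : K} {m m' : ℕ}
    (h : Γ.Path κ v k v' m) (h' : Γ.Path κ v' k' v'' m') : Γ.Path κ v (k * k') v'' (m + m') := by
  induction h' with
  | refl => simpa using h
  | fwd _ he ih => rw [← mul_assoc]; exact ih.fwd he
  | bwd _ he ih => rw [← mul_assoc]; exact ih.bwd he

theorem Path.symm {κ : Γ.V → F → K} {v v' : Γ.V} {k : K} {m : ℕ}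
    (h : Γ.Path κ v k v' m) : Γ.Path κ v' k⁻¹ v m := by
  induction h with
  | refl => simpa using Path.refl v
  | fwd _ he ih =>
    have := ((Path.refl (κ := κ) _).bwd he).trans ih
    simpa [Nat.add_comm] using this
  | bwd _ he ih =>
    have := ((Path.refl (κ := κ) _).fwd he).trans ih
    simpa [Nat.add_comm] using this

theorem Path.map {κ : Γ.V → F → K} (φ : K →* K') {v v' : Γ.V} {k : K} {m : ℕ}
    (h : Γ.Path κ v k v' m) : Γ.Path (fun u t => φ (κ u t)) v (φ k) v' m := by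
  induction h with
  | refl => simpa using Path.refl v
  | fwd _ he ih => rw [map_mul]; exact ih.fwd he
  | bwd _ he ih => rw [map_mul, map_inv]; exact ih.bwd he

theorem Path.lift {κ : Γ.V → F → K} (φ : K →* K') {v v' : Γ.V} {k' : K'} {m : ℕ}
    (h : Γ.Path (fun u t => φ (κ u t)) v k' v' m) : ∃ k, φ k = k' ∧ Γ.Path κ v k v' m := by
  induction h with
  | refl => exact ⟨1, map_one φ, Path.refl v⟩
  | fwd _ he ih =>
    obtain ⟨k, rfl, hk⟩ := ih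
    exact ⟨_, map_mul φ _ _, hk.fwd he⟩
  | bwd _ he ih =>
    obtain ⟨k, rfl, hk⟩ := ih
    exact ⟨_, by rw [map_mul, map_inv], hk.bwd he⟩

theorem Conn.refl (κ : Γ.V → F → K) (p : K × Γ.V) : Γ.Conn κ p p := by
  exact ⟨0, by simpa using Path.refl p.2⟩
theorem Conn.symm {κ : Γ.V → F → K} {p q : K × Γ.V} (h : Γ.Conn κ p q) : Γ.Conn κ q p := by
  obtain ⟨m, hm⟩ := h
  exact ⟨m, by simpa using hm.symm⟩
theorem Conn.trans {κ : Γ.V → F → K} {p q r : K × Γ.V} (h : Γ.Conn κ p q) (h' : Γ.Conn κ q r) :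
    Γ.Conn κ p r := by
  obtain ⟨m, hm⟩ := h
  obtain ⟨m', hm'⟩ := h'
  exact ⟨m + m', by simpa [mul_assoc] using hm.trans hm'⟩

theorem SEdge.path {b b' : Γ.V} {σ : Let F × Bool} (h : Γ.SEdge b σ b') :
    Γ.Path Γ.fl b (sg σ) b' 1 := by
  rcases h with ⟨h1, h2, h3⟩ | ⟨h1, h2, h3⟩
  · have := (Path.refl (κ := Γ.fl) b).fwd h2
    simpa [sg, h1, fl, h3] using this
  · have := (Path.refl (κ := Γ.fl) b).bwd h2
    simpa [sg, h1, fl, h3] using this

theorem SEdge.unique {b b' b'' : Γ.V} {σ : Let F × Bool} (h : Γ.SEdge b σ b')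
    (h' : Γ.SEdge b σ b'') : b' = b'' := by
  rcases h with ⟨h1, h2, h3⟩ | ⟨h1, h2, h3⟩ <;> rcases h' with ⟨g1, g2, g3⟩ | ⟨g1, g2, g3⟩
  · exact Option.some.inj (h2.symm.trans g2)
  · simp [h1] at g1
  · simp [h1] at g1
  · exact Γ.nb_inj _ _ _ _ h2 g2

theorem SEdge.symm {b b' : Γ.V} {σ : Let F × Bool} (h : Γ.SEdge b σ b') :
    Γ.SEdge b' (σ.1, !σ.2) b := by
  rcases h with ⟨h1, h2, h3⟩ | ⟨h1, h2, h3⟩
  · exact Or.inr ⟨by simp [h1], h2, h3⟩
  · exact Or.inl ⟨by simp [h1], h2, h3⟩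

/-- at most one signed letter per port at a vertex -/
theorem SEdge.eq_of_port {b b' b'' : Γ.V} {σ σ' : Let F × Bool} (h : Γ.SEdge b σ b')
    (h' : Γ.SEdge b σ' b'') (hp : σ.1.1 = σ'.1.1) : σ = σ' := by
  rcases h with ⟨h1, h2, h3⟩ | ⟨h1, h2, h3⟩ <;> rcases h' with ⟨g1, g2, g3⟩ | ⟨g1, g2, g3⟩
  · exact Prod.ext (by rw [← h3, ← g3, hp]) (h1.trans g1.symm)
  · exact absurd (Γ.nb_typ _ _ _ h2).1 (Γ.nb_typ _ _ _ g2).2
  · exact absurd (Γ.nb_typ _ _ _ g2).1 (Γ.nb_typ _ _ _ h2).2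
  · rw [hp] at h2 h3
    obtain rfl := Γ.nb_inj _ _ _ _ h2 g2
    exact Prod.ext (h3.symm.trans g3) (h1.trans g1.symm)

/-- the `κ`-label of a signed edge -/
def slab (κ : Γ.V → F → K) (b : Γ.V) (σ : Let F × Bool) (b' : Γ.V) : K :=
  if σ.2 then κ b σ.1.1 else (κ b' σ.1.1)⁻¹

theorem slab_symm (κ : Γ.V → F → K) (b : Γ.V) (σ : Let F × Bool) (b' : Γ.V) :
    slab κ b' (σ.1, !σ.2) b = (slab κ b σ b')⁻¹ := by
  unfold slab
  cases h : σ.2 <;> simp

theorem SEdge.slab_fl {b b' : Γ.V} {σ : Let F × Bool} (h : Γ.SEdge b σ b') :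
    slab Γ.fl b σ b' = sg σ := by
  rcases h with ⟨h1, h2, h3⟩ | ⟨h1, h2, h3⟩ <;> simp [slab, sg, h1, fl, h3]

theorem SEdge.edge {b b' : Γ.V} {σ : Let F × Bool} (h : Γ.SEdge b σ b') : Γ.Edge b σ.1.1 b' := by
  rcases h with ⟨-, h2, -⟩ | ⟨-, h2, -⟩
  exacts [Or.inl h2, Or.inr h2]

theorem wlab_zero (κ : Γ.V → F → K) (x : ℕ → Γ.V) (t : ℕ → F) : Γ.wlab κ x t 0 = 1 := by
  simp [wlab]

open Classical in
theorem wlab_succ (κ : Γ.V → F → K) (x : ℕ → Γ.V) (t : ℕ → F) (s : ℕ) :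
    Γ.wlab κ x t (s + 1) =
      Γ.wlab κ x t s * if Γ.isH (x s) then κ (x s) (t s) else (κ (x (s + 1)) (t s))⁻¹ := by
  simp [wlab, List.range_succ]

theorem wlab_step {κ : Γ.V → F → K} {x : ℕ → Γ.V} {σ : ℕ → Let F × Bool} {s : ℕ}
    (h : Γ.SEdge (x s) (σ s) (x (s + 1))) :
    Γ.wlab κ x (fun s => (σ s).1.1) (s + 1) =
      Γ.wlab κ x (fun s => (σ s).1.1) s * slab κ (x s) (σ s) (x (s + 1)) := by
  rw [wlab_succ]
  rcases h with ⟨h1, h2, -⟩ | ⟨h1, h2, -⟩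
  · simp [slab, h1, (Γ.nb_typ _ _ _ h2).1]
  · simp [slab, h1, (Γ.nb_typ _ _ _ h2).2]

theorem wlab_congr (κ : Γ.V → F → K) {x x' : ℕ → Γ.V} {t t' : ℕ → F} (n : ℕ)
    (hx : ∀ s, s ≤ n → x s = x' s) (ht : ∀ s, s < n → t s = t' s) :
    Γ.wlab κ x t n = Γ.wlab κ x' t' n := by
  induction n with
  | zero => rw [wlab_zero, wlab_zero]
  | succ n ih =>
    rw [wlab_succ, wlab_succ, ih (fun s hs => hx s (by omega)) (fun s hs => ht s (by omega)),
      hx n (by omega), hx (n + 1) le_rfl, ht n (by omega)]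

theorem wlab_map (φ : K →* K') (κ : Γ.V → F → K) (x : ℕ → Γ.V) (t : ℕ → F) (n : ℕ) :
    Γ.wlab (fun u t => φ (κ u t)) x t n = φ (Γ.wlab κ x t n) := by
  induction n with
  | zero => rw [wlab_zero, wlab_zero, map_one]
  | succ n ih =>
    rw [wlab_succ, wlab_succ, ih, map_mul]
    split_ifs <;> simp

theorem Path.dup {κ : Γ.V → F → K} {v v' : Γ.V} {k : K} {m : ℕ} (h : Γ.Path κ v k v' m) :
    Γ.Path (fun u t => (κ u t, κ u t)) v ((k, k) : K × K) v' m :=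
  h.map ((MonoidHom.id K).prod (MonoidHom.id K))

theorem chain_step {κ : Γ.V → F → K} {v u u' : Γ.V} {k : K} {τ : Let F × Bool}
    (hτ : Γ.SEdge u τ u')
    (h : ∃ (n : ℕ) (x : ℕ → Γ.V) (σ : ℕ → Let F × Bool),
      (∀ s, s < n → Γ.SEdge (x s) (σ s) (x (s + 1))) ∧
      (∀ s, s + 1 < n → (σ s).1.1 ≠ (σ (s + 1)).1.1) ∧ x 0 = v ∧ x n = u ∧
      Γ.wlab κ x (fun s => (σ s).1.1) n = k) :
    ∃ (n : ℕ) (x : ℕ → Γ.V) (σ : ℕ → Let F × Bool),
      (∀ s, s < n → Γ.SEdge (x s) (σ s) (x (s + 1))) ∧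
      (∀ s, s + 1 < n → (σ s).1.1 ≠ (σ (s + 1)).1.1) ∧ x 0 = v ∧ x n = u' ∧
      Γ.wlab κ x (fun s => (σ s).1.1) n = k * slab κ u τ u' := by
  obtain ⟨n, x, σ, hc, hnb, h0, rfl, rfl⟩ := h
  by_cases hb : ∃ j, n = j + 1 ∧ (σ j).1.1 = τ.1.1
  · obtain ⟨j, rfl, hj⟩ := hb
    have a1 := (hc j (by omega)).symm
    obtain rfl := a1.eq_of_port hτ hj
    obtain rfl := a1.unique hτ
    refine ⟨j, x, σ, fun s hs => hc s (by omega), fun s hs => hnb s (by omega), h0, rfl, ?_⟩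
    rw [wlab_step (hc j (by omega)), slab_symm, mul_inv_cancel_right]
  · have x1 : ∀ s, s ≤ n → Function.update x (n + 1) u' s = x s := fun s hs =>
      Function.update_of_ne (by omega) _ _
    have s1 : ∀ s, s < n → Function.update σ n τ s = σ s := fun s hs =>
      Function.update_of_ne (by omega) _ _
    have hl : Γ.SEdge (Function.update x (n + 1) u' n) (Function.update σ n τ n)
        (Function.update x (n + 1) u' (n + 1)) := by
      rw [x1 n le_rfl, Function.update_self, Function.update_self]; exact hτ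
    refine ⟨n + 1, Function.update x (n + 1) u', Function.update σ n τ, fun s hs => ?_,
      fun s hs => ?_, (x1 0 (by omega)).trans h0, Function.update_self _ _ _, ?_⟩
    · rcases (Nat.lt_succ_iff.1 hs).lt_or_eq with hs | rfl
      · rw [x1 s hs.le, x1 (s + 1) hs, s1 s hs]; exact hc s hs
      · exact hl
    · rcases (show s + 1 ≤ n by omega).lt_or_eq with hs | rfl
      · rw [s1 s (by omega), s1 (s + 1) hs]; exact hnb s hs
      · rw [s1 s (by omega), Function.update_self]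
        exact fun he => hb ⟨s, rfl, he⟩
    · rw [wlab_step hl, wlab_congr κ n x1 (t' := fun s => (σ s).1.1) fun s hs => by rw [s1 s hs],
        x1 n le_rfl, Function.update_self, Function.update_self]

/-- without ports there are only trivial paths -/
theorem Path.of_empty (hF : ¬ Nonempty F) {κ : Γ.V → F → K} {v v' : Γ.V} {k : K} {m : ℕ}
    (h : Γ.Path κ v k v' m) : v' = v ∧ k = 1 ∧ m = 0 := by
  cases h with
  | refl => exact ⟨rfl, rfl, rfl⟩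
  | @fwd _ _ _ _ t => exact absurd ⟨t⟩ hF
  | @bwd _ _ _ _ t => exact absurd ⟨t⟩ hF

theorem Path.exists_chain [hF : Nonempty F] {κ : Γ.V → F → K} {v v' : Γ.V} {k : K} {m : ℕ}
    (h : Γ.Path κ v k v' m) : ∃ (n : ℕ) (x : ℕ → Γ.V) (σ : ℕ → Let F × Bool),
      (∀ s, s < n → Γ.SEdge (x s) (σ s) (x (s + 1))) ∧
      (∀ s, s + 1 < n → (σ s).1.1 ≠ (σ (s + 1)).1.1) ∧ x 0 = v ∧ x n = v' ∧
      Γ.wlab κ x (fun s => (σ s).1.1) n = k := by
  · obtain ⟨t0⟩ := hF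
    induction h with
    | refl =>
      exact ⟨0, fun _ => v, fun _ => ((t0, t0, 0), true), fun s hs => by omega,
        fun s hs => by omega, rfl, rfl, wlab_zero _ _ _⟩
    | @fwd u w k m t _ he ih =>
      exact chain_step (τ := (Γ.letter u t, true)) (Or.inl ⟨rfl, he, rfl⟩) ih
    | @bwd u w k m t _ he ih =>
      exact chain_step (τ := (Γ.letter u t, false)) (Or.inr ⟨rfl, he, rfl⟩) ih

variable [DecidableEq F]

theorem Path.norm_le {v v' : Γ.V} {w : FreeGroup (Let F)} {m : ℕ} (h : Γ.Path Γ.fl v w v' m) :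
    w.norm ≤ m ∧ w.norm % 2 = m % 2 := by
  induction h with
  | refl => simp
  | @fwd u w k m t _ he ih =>
    have h1 := FreeGroup.norm_mul_le k (Γ.fl u t)
    have h2 := norm_mul_mod_two k (Γ.fl u t)
    have h3 : (Γ.fl u t).norm = 1 := FreeGroup.norm_of _
    omega
  | @bwd u w k m t _ he ih =>
    have h1 := FreeGroup.norm_mul_le k (Γ.fl u t)⁻¹
    have h2 := norm_mul_mod_two k (Γ.fl u t)⁻¹
    have h3 : (Γ.fl u t)⁻¹.norm = 1 := by rw [FreeGroup.norm_inv_eq]; exact FreeGroup.norm_of _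
    omega

open Classical in
/-- parity: `H`-vertices and non-`H`-vertices alternate -/
theorem Path.parity {κ : Γ.V → F → K} {v v' : Γ.V} {k : K} {m : ℕ} (h : Γ.Path κ v k v' m) :
    (Γ.isH v ↔ Γ.isH v') ↔ m % 2 = 0 := by
  induction h with
  | refl => simp
  | @fwd u w k m t _ he ih =>
    obtain ⟨h1, h2⟩ := Γ.nb_typ _ _ _ he
    have h3 : (m + 1) % 2 = 0 ↔ ¬ m % 2 = 0 := by omega
    rw [h3, ← ih]; tauto
  | @bwd u w k m t _ he ih =>
    obtain ⟨h1, h2⟩ := Γ.nb_typ _ _ _ he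
    have h3 : (m + 1) % 2 = 0 ↔ ¬ m % 2 = 0 := by omega
    rw [h3, ← ih]; tauto

/-- Reduction to a non-backtracking walk.  Induction on the path: appending an edge through port `t`; if the
walk is nonempty and its last port is `t` the edge is the last edge backwards (`nb` is a function, `nb_inj`,
`nb_typ`), so drop the last step; otherwise append it (`Function.update`), and the norm grows by
`norm_mul_sg_sg`.  `σ s` is the signed letter of step `s`. -/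
theorem Path.reduce [Nonempty F] {κ : Γ.V → F → K} {v v' : Γ.V} {w : FreeGroup (Let F)} {k : K} {m : ℕ}
    (h : Γ.Path (fun u t => (Γ.fl u t, κ u t)) v ((w, k) : FreeGroup (Let F) × K) v' m) :
    ∃ (x : ℕ → Γ.V) (t : ℕ → F) (σ : ℕ → Let F × Bool), Γ.NBWalk x t w.norm ∧ x 0 = v ∧ x w.norm = v' ∧
      Γ.wlab κ x t w.norm = k ∧ Γ.wlab Γ.fl x t w.norm = w ∧
      (∀ s, s ≤ w.norm → (Γ.wlab Γ.fl x t s).norm = s ∧ Btw 1 (Γ.wlab Γ.fl x t s) w ∧
        Γ.Path Γ.fl v (Γ.wlab Γ.fl x t s) (x s) s) ∧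
      ∀ s, s < w.norm → Γ.SEdge (x s) (σ s) (x (s + 1)) ∧ (σ s).1.1 = t s ∧
        Γ.wlab Γ.fl x t (s + 1) = Γ.wlab Γ.fl x t s * sg (σ s) := by
  obtain ⟨n, x, σ, hc, hnb, h0, hn, hl⟩ := h.exists_chain
  have e1 := wlab_map (MonoidHom.fst (FreeGroup (Let F)) K)
    (fun u t => (Γ.fl u t, κ u t)) x (fun s => (σ s).1.1) n
  have e2 := wlab_map (MonoidHom.snd (FreeGroup (Let F)) K)
    (fun u t => (Γ.fl u t, κ u t)) x (fun s => (σ s).1.1) n
  rw [hl] at e1 e2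
  replace e1 : Γ.wlab Γ.fl x (fun s => (σ s).1.1) n = w := e1
  replace e2 : Γ.wlab κ x (fun s => (σ s).1.1) n = k := e2
  have st : ∀ s, s < n → Γ.wlab Γ.fl x (fun s => (σ s).1.1) (s + 1) =
      Γ.wlab Γ.fl x (fun s => (σ s).1.1) s * sg (σ s) := fun s hs => by
    rw [wlab_step (hc s hs), (hc s hs).slab_fl]
  have nm : ∀ s, s ≤ n → (Γ.wlab Γ.fl x (fun s => (σ s).1.1) s).norm = s := by
    intro s
    induction s using Nat.twoStepInduction with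
    | zero => intro _; simp [wlab_zero]
    | one =>
      intro h1
      rw [st 0 h1, wlab_zero, ← td_one]
      exact td_sg 1 _
    | more s ih1 ih2 =>
      intro hs
      have a1 := ih1 (by omega)
      have a2 := ih2 (by omega)
      rw [st s (by omega)] at a2
      rw [st (s + 1) (by omega), st s (by omega), norm_mul_sg_sg (by rw [a2, a1]), a1]
      intro he
      exact hnb s (by omega) (by rw [he])
  have hw : w.norm = n := by rw [← e1]; exact nm n le_rfl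
  have up : ∀ j s, s + j = n → td (Γ.wlab Γ.fl x (fun s => (σ s).1.1) s) w ≤ j := by
    intro j
    induction j with
    | zero => intro s hs; rw [show s = n from hs, e1, td_self]
    | succ j ih =>
      intro s hs
      have a1 := ih (s + 1) (by omega)
      have a2 := td_triangle (Γ.wlab Γ.fl x (fun s => (σ s).1.1) s)
        (Γ.wlab Γ.fl x (fun s => (σ s).1.1) (s + 1)) w
      have a3 : td (Γ.wlab Γ.fl x (fun s => (σ s).1.1) s)
          (Γ.wlab Γ.fl x (fun s => (σ s).1.1) (s + 1)) = 1 := by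
        rw [st s (by omega)]; exact td_sg _ _
      omega
  rw [hw]
  refine ⟨x, fun s => (σ s).1.1, σ, ⟨fun s hs => (hc s hs).edge, hnb⟩, h0, hn, e2, e1,
    fun s hs => ⟨nm s hs, ?_, ?_⟩, fun s hs => ⟨hc s hs, rfl, st s hs⟩⟩
  · have a1 := up (n - s) s (by omega)
    have a2 := td_triangle 1 (Γ.wlab Γ.fl x (fun s => (σ s).1.1) s) w
    unfold Btw
    rw [td_one, td_one, nm s hs, hw] at *
    omega
  · induction s with
    | zero => rw [wlab_zero, h0]; exact Path.refl v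
    | succ s ih => rw [st s hs]; exact (ih (by omega)).trans (hc s hs).path

/-- the free label determines the endpoint and every other label -/
theorem Path.det {κ : Γ.V → F → K} {v v' v'' : Γ.V} {w : FreeGroup (Let F)} {k k' : K} {m m' : ℕ}
    (h : Γ.Path (fun u t => (Γ.fl u t, κ u t)) v ((w, k) : FreeGroup (Let F) × K) v' m)
    (h' : Γ.Path (fun u t => (Γ.fl u t, κ u t)) v ((w, k') : FreeGroup (Let F) × K) v'' m') :
    v' = v'' ∧ k = k' := by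
  by_cases hF : Nonempty F
  swap
  · obtain ⟨a1, a2, -⟩ := h.of_empty hF
    obtain ⟨b1, b2, -⟩ := h'.of_empty hF
    exact ⟨a1.trans b1.symm, (Prod.mk.inj a2).2.trans (Prod.mk.inj b2).2.symm⟩
  obtain ⟨x, t, σ, -, h0, hn, hk, -, h1, h2⟩ := h.reduce
  obtain ⟨x', t', σ', -, h0', hn', hk', -, h1', h2'⟩ := h'.reduce
  have e1 : ∀ s, s ≤ w.norm → Γ.wlab Γ.fl x t s = Γ.wlab Γ.fl x' t' s := fun s hs =>
    (h1 s hs).2.1.unique (h1' s hs).2.1 (by rw [td_one, td_one, (h1 s hs).1, (h1' s hs).1])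
  have e2 : ∀ s, s < w.norm → σ s = σ' s := fun s hs => by
    have := e1 (s + 1) hs
    rw [(h2 s hs).2.2, (h2' s hs).2.2, e1 s hs.le] at this
    exact sg_injective (mul_left_cancel this)
  have e3 : ∀ s, s ≤ w.norm → x s = x' s := by
    intro s
    induction s with
    | zero => intro _; rw [h0, h0']
    | succ s ih =>
      intro hs
      have a1 := (h2 s hs).1
      rw [ih (by omega), e2 s hs] at a1
      exact a1.unique (h2' s hs).1
  refine ⟨by rw [← hn, ← hn', e3 _ le_rfl], ?_⟩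
  rw [← hk, ← hk']
  exact wlab_congr κ _ e3 fun s hs => by rw [← (h2 s hs).2.1, ← (h2' s hs).2.1, e2 s hs]

theorem Path.det' {v v' v'' : Γ.V} {w : FreeGroup (Let F)} {m m' : ℕ}
    (h : Γ.Path Γ.fl v w v' m) (h' : Γ.Path Γ.fl v w v'' m') : v' = v'' := by
  exact (Path.det (κ := Γ.fl) h.dup h'.dup).1

/-- prefixes of the label are labels of prefixes; in particular a path of length `‖w‖` exists -/
theorem Path.prefix {v v' : Γ.V} {w x : FreeGroup (Let F)} {m : ℕ} (h : Γ.Path Γ.fl v w v' m)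
    (hx : Btw 1 x w) : ∃ v'', Γ.Path Γ.fl v x v'' x.norm := by
  have hs : x.norm ≤ w.norm := by
    unfold Btw at hx
    rw [td_one, td_one] at hx
    omega
  by_cases hF : Nonempty F
  swap
  · obtain ⟨-, rfl, -⟩ := h.of_empty hF
    obtain rfl : x = 1 := by simpa using hs
    exact ⟨v, Path.refl v⟩
  obtain ⟨y, t, σ, -, -, -, -, -, h1, -⟩ := Path.reduce (κ := Γ.fl) h.dup
  obtain ⟨a1, a2, a3⟩ := h1 _ hs
  rw [a2.unique hx (by rw [td_one, td_one, a1])] at a3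
  exact ⟨_, a3⟩

theorem Path.sedge {v v' : Γ.V} {σ : Let F × Bool} {m : ℕ} (h : Γ.Path Γ.fl v (sg σ) v' m) :
    Γ.SEdge v σ v' := by
  have : Nonempty F := ⟨σ.1.1⟩
  obtain ⟨y, t, τ, -, h0, hn, -, hw, -, h2⟩ := Path.reduce (κ := Γ.fl) h.dup
  have e : (sg σ).norm = 1 := by
    have := td_sg 1 σ
    rwa [td_one, one_mul] at this
  rw [e] at hn hw h2
  obtain ⟨a1, -, a3⟩ := h2 0 one_pos
  rw [zero_add, hw, wlab_zero, one_mul] at a3
  rw [zero_add, h0, hn, ← sg_injective a3] at a1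
  exact a1


end BG
end Crest.Agent.R129
end

-- ▼ part PVb/R129/Bridge
section

/-! # From a base graph to small cancellation data (task R129/Bridge). Statement frozen. -/

set_option autoImplicit false

namespace Crest.Agent.R129
namespace BG
variable {F A : Type} [DecidableEq F] [Group A] {Γ : BG F A}

variable (Γ) in
/-- the equivalence relation on the universal cover -/
def brS : Setoid (FreeGroup (Let F) × Γ.V) where
  r p q := ∃ m, Γ.Path Γ.fl p.2 (p.1⁻¹ * q.1) q.2 m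
  iseqv := {
    refl := fun p => ⟨0, by rw [inv_mul_cancel]; exact Path.refl _⟩
    symm := by
      rintro p q ⟨m, h⟩
      refine ⟨m, ?_⟩
      have := h.symm
      rwa [mul_inv_rev, inv_inv] at this
    trans := by
      rintro p q r ⟨m, h⟩ ⟨m', h'⟩
      refine ⟨m + m', ?_⟩
      have := h.trans h'
      rwa [mul_assoc, mul_inv_cancel_left] at this }

variable (Γ) in
/-- the class -/
def brC (x : FreeGroup (Let F)) (b : Γ.V) : Quotient Γ.brS := Quotient.mk Γ.brS (x, b)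

omit [DecidableEq F] [Group A] in
theorem brC_eq {x y : FreeGroup (Let F)} {b b' : Γ.V} :
    Γ.brC x b = Γ.brC y b' ↔ ∃ m, Γ.Path Γ.fl b (x⁻¹ * y) b' m := Quotient.eq

omit [DecidableEq F] [Group A] in
theorem brC_surj (Y : Quotient Γ.brS) : ∃ x b, Y = Γ.brC x b := by
  obtain ⟨⟨x, b⟩, rfl⟩ := Quotient.exists_rep Y
  exact ⟨x, b, rfl⟩

omit [Group A] in
theorem brC_inj {x : FreeGroup (Let F)} {b b' : Γ.V} (h : Γ.brC x b = Γ.brC x b') : b = b' := by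
  obtain ⟨m, h⟩ := brC_eq.1 h
  rw [inv_mul_cancel] at h
  exact (Path.refl b).det' h

variable (Γ) in
/-- translation -/
def brSm (g : FreeGroup (Let F)) : Quotient Γ.brS → Quotient Γ.brS :=
  Quotient.map (fun p => (g * p.1, p.2)) (by
    rintro p q ⟨m, h⟩
    refine ⟨m, ?_⟩
    have : (g * p.1)⁻¹ * (g * q.1) = p.1⁻¹ * q.1 := by group
    simp only [this]
    exact h)

omit [DecidableEq F] [Group A] in
theorem brSm_C (g x : FreeGroup (Let F)) (b : Γ.V) : Γ.brSm g (Γ.brC x b) = Γ.brC (g * x) b := rfl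

variable (Γ) in
open Classical in
/-- the scale -/
noncomputable def brL (Y : Quotient Γ.brS) (y : FreeGroup (Let F)) : ℝ :=
  if h : ∃ b, Γ.brC y b = Y then Γ.L h.choose else 1

omit [Group A] in
theorem brL_C (x : FreeGroup (Let F)) (b : Γ.V) : Γ.brL (Γ.brC x b) x = Γ.L b := by
  have h : ∃ b', Γ.brC x b' = Γ.brC x b := ⟨b, rfl⟩
  unfold brL
  rw [dif_pos h, brC_inj h.choose_spec]

variable (Γ) in
/-- the rotations -/
def brR (Y : Quotient Γ.brS) : Subgroup (FreeGroup (Let F)) where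
  carrier := {r | ∀ y b, Γ.brC y b = Y → ∃ m, Γ.Path (fun u t => (Γ.fl u t, Γ.a u t)) b
    ((y⁻¹ * r * y, 1) : FreeGroup (Let F) × A) b m}
  one_mem' := fun y b _ => ⟨0, by
    rw [mul_one, inv_mul_cancel]; exact Path.refl _⟩
  mul_mem' := by
    intro r r' hr hr' y b hy
    obtain ⟨m, h⟩ := hr y b hy
    obtain ⟨m', h'⟩ := hr' y b hy
    refine ⟨m + m', ?_⟩
    have := h.trans h'
    have e : y⁻¹ * r * y * (y⁻¹ * r' * y) = y⁻¹ * (r * r') * y := by group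
    rwa [Prod.mk_mul_mk, mul_one, e] at this
  inv_mem' := by
    intro r hr y b hy
    obtain ⟨m, h⟩ := hr y b hy
    refine ⟨m, ?_⟩
    have := h.symm
    have e : (y⁻¹ * r * y)⁻¹ = y⁻¹ * r⁻¹ * y := by group
    rwa [Prod.inv_mk, inv_one, e] at this

omit [DecidableEq F] in
theorem brR_iff {x r : FreeGroup (Let F)} {b : Γ.V} : r ∈ Γ.brR (Γ.brC x b) ↔
    ∃ m, Γ.Path (fun u t => (Γ.fl u t, Γ.a u t)) b
      ((x⁻¹ * r * x, 1) : FreeGroup (Let F) × A) b m := by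
  refine ⟨fun h => h x b rfl, ?_⟩
  rintro ⟨m, h⟩ y b' hy
  obtain ⟨m', h'⟩ := brC_eq.1 hy
  obtain ⟨⟨k, α⟩, hk, h2⟩ := Path.lift (κ := fun u t => (Γ.fl u t, Γ.a u t))
    (MonoidHom.fst _ _) h'
  have hk' : k = y⁻¹ * x := hk
  subst hk'
  refine ⟨m' + m + m', ?_⟩
  have := (h2.trans h).trans h2.symm
  have e : y⁻¹ * x * (x⁻¹ * r * x) * (y⁻¹ * x)⁻¹ = y⁻¹ * r * y := by group
  rwa [Prod.mk_mul_mk, Prod.inv_mk, Prod.mk_mul_mk, mul_one, mul_inv_cancel, e] at this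

omit [DecidableEq F] in
theorem Path.L_le (h : Γ.SCHyp) {K : Type} [Group K] {κ : Γ.V → F → K} {v v' : Γ.V} {k : K} {m : ℕ}
    (hp : Γ.Path κ v k v' m) : Γ.L v' ≤ Γ.L v + m / 100 := by
  induction hp with
  | refl => simp
  | @fwd u w k m t _ he ih =>
    have := h.lip u t w (Or.inl he)
    push_cast
    linarith
  | @bwd u w k m t _ he ih =>
    have := h.lip w t u (Or.inr he)
    push_cast
    linarith

omit [Group A] in
theorem Path.short {v v' : Γ.V} {w : FreeGroup (Let F)} {m : ℕ} (h : Γ.Path Γ.fl v w v' m) :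
    Γ.Path Γ.fl v w v' w.norm := by
  obtain ⟨v'', h'⟩ := h.prefix (btw_right 1 w)
  rwa [h'.det' h] at h'

omit [DecidableEq F] [Group A] in
theorem SEdge.isH_iff {b b' : Γ.V} {σ : Let F × Bool} (h : Γ.SEdge b σ b') :
    Γ.isH b ↔ σ.2 = true := by
  rcases h with ⟨h1, h2, -⟩ | ⟨h1, h2, -⟩
  · exact ⟨fun _ => h1, fun _ => (Γ.nb_typ _ _ _ h2).1⟩
  · exact ⟨fun h => absurd h (Γ.nb_typ _ _ _ h2).2, fun h => by rw [h1] at h; cases h⟩

omit [DecidableEq F] [Group A] in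
theorem SEdge.z_hEnd {x : ℕ → Γ.V} {s : ℕ} {σ : Let F × Bool} (h : Γ.SEdge (x s) σ (x (s + 1))) :
    Γ.z (Γ.hEnd x s) = σ.1.2.1 := by
  unfold hEnd
  rcases h with ⟨-, h2, h3⟩ | ⟨-, h2, h3⟩
  · rw [if_pos (Γ.nb_typ _ _ _ h2).1, ← h3]; rfl
  · rw [if_neg (Γ.nb_typ _ _ _ h2).2, ← h3]; rfl

theorem br_piece (h : Γ.SCHyp) {b b' c c' : Γ.V} {w : FreeGroup (Let F)} {m m' : ℕ} (hb : b ≠ b')
    (h1 : Γ.Path Γ.fl b w c m) (h2 : Γ.Path Γ.fl b' w c' m') : (w.norm : ℝ) ≤ Γ.L b := by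
  by_cases h0 : w.norm = 0
  · rw [h0]
    have := h.one_le b
    push_cast
    linarith
  have hF : Nonempty F := by
    by_contra hF
    rw [(h1.of_empty hF).2.1] at h0
    exact h0 FreeGroup.norm_one
  obtain ⟨x, t, σ, a1, a2, -, -, -, a6, a7⟩ := h1.dup.reduce
  obtain ⟨x', t', σ', b1, b2, -, -, -, b6, b7⟩ := h2.dup.reduce
  have e1 : ∀ s, s ≤ w.norm → Γ.wlab Γ.fl x t s = Γ.wlab Γ.fl x' t' s := fun s hs =>
    (a6 s hs).2.1.unique (b6 s hs).2.1 (by rw [td_one, td_one, (a6 s hs).1, (b6 s hs).1])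
  have e2 : ∀ s, s < w.norm → σ s = σ' s := fun s hs => by
    have := e1 (s + 1) hs
    rw [(a7 s hs).2.2, (b7 s hs).2.2, e1 s hs.le] at this
    exact sg_injective (mul_left_cancel this)
  have e3 : ∀ s, s < w.norm → t s = t' s := fun s hs => by
    rw [← (a7 s hs).2.1, ← (b7 s hs).2.1, e2 s hs]
  have b1' : Γ.NBWalk x' t w.norm :=
    ⟨fun s hs => by rw [e3 s hs]; exact b1.1 s hs, a1.2⟩
  rw [← a2]
  refine h.piece x x' t w.norm a1 b1' ?_ (fun s hs => ?_) (by rw [a2, b2]; exact hb)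
  · have hs : 0 < w.norm := Nat.pos_of_ne_zero h0
    rw [(a7 0 hs).1.isH_iff, (b7 0 hs).1.isH_iff, e2 0 hs]
  · rw [(a7 s hs).1.z_hEnd, (b7 s hs).1.z_hEnd, e2 s hs]

theorem br_girth (h : Γ.SCHyp) {b : Γ.V} {w : FreeGroup (Let F)} {m : ℕ} (hw : w ≠ 1)
    (h1 : Γ.Path (fun u t => (Γ.fl u t, Γ.a u t)) b ((w, 1) : FreeGroup (Let F) × A) b m) :
    100 * Γ.L b ≤ w.norm := by
  have hF : Nonempty F := by
    by_contra hF
    exact hw (congrArg Prod.fst (h1.of_empty hF).2.1)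
  obtain ⟨x, t, σ, a1, a2, a3, a4, -⟩ := h1.reduce
  rw [← a2]
  exact h.girth x t w.norm a1 (Nat.pos_of_ne_zero fun e => hw (FreeGroup.norm_eq_zero.1 e))
    (by rw [a3, a2]) a4

/-- the small cancellation data -/
noncomputable def brSC (h : Γ.SCHyp) : SC (Let F) where
  M := Quotient Γ.brS
  sm := Γ.brSm
  sm_one := fun Y => by
    obtain ⟨x, b, rfl⟩ := brC_surj Y
    rw [brSm_C, one_mul]
  sm_mul := fun g k Y => by
    obtain ⟨x, b, rfl⟩ := brC_surj Y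
    rw [brSm_C, brSm_C, brSm_C, mul_assoc]
  mem := fun Y => {y | ∃ b, Γ.brC y b = Y}
  R := Γ.brR
  L := Γ.brL
  ne := fun Y => by
    obtain ⟨x, b, rfl⟩ := brC_surj Y
    exact ⟨x, b, rfl⟩
  mem_sm := fun g Y y => by
    obtain ⟨x, b, rfl⟩ := brC_surj Y
    have : (g * y)⁻¹ * (g * x) = y⁻¹ * x := by group
    simp only [Set.mem_ofPred_eq, brSm_C, brC_eq, this]
  convex := by
    rintro _ x y z ⟨b, rfl⟩ ⟨b', hy⟩ hz
    obtain ⟨m, hy⟩ := brC_eq.1 hy.symm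
    rw [← btw_mul x⁻¹, inv_mul_cancel] at hz
    obtain ⟨v, hv⟩ := hy.prefix hz
    exact ⟨v, (brC_eq.2 ⟨_, hv⟩).symm⟩
  R_sm := fun g Y r hr => by
    obtain ⟨x, b, rfl⟩ := brC_surj Y
    rw [brSm_C, brR_iff]
    have : (g * x)⁻¹ * (g * r * g⁻¹) * (g * x) = x⁻¹ * r * x := by group
    rw [this]
    exact brR_iff.1 hr
  R_fix := fun Y r hr => by
    obtain ⟨x, b, rfl⟩ := brC_surj Y
    obtain ⟨m, hm⟩ := brR_iff.1 hr
    rw [brSm_C]
    refine (brC_eq.2 ⟨m, ?_⟩).symm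
    rw [← mul_assoc]
    exact hm.map (MonoidHom.fst _ _)
  L_sm := fun g Y y => by
    by_cases hy : ∃ b, Γ.brC y b = Y
    · obtain ⟨b, rfl⟩ := hy
      rw [brSm_C, brL_C, brL_C]
    · obtain ⟨x, b, rfl⟩ := brC_surj Y
      have : (g * y)⁻¹ * (g * x) = y⁻¹ * x := by group
      unfold brL
      rw [dif_neg hy, dif_neg]
      simpa only [brSm_C, brC_eq, this] using hy
  one_le := by
    rintro _ y ⟨b, rfl⟩
    rw [brL_C]
    exact h.one_le b
  lip := by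
    rintro _ x y ⟨b, rfl⟩ ⟨b', hy⟩
    obtain ⟨m, hm⟩ := brC_eq.1 hy.symm
    rw [brL_C, ← hy, brL_C]
    exact hm.short.L_le h
  piece := by
    rintro _ _ x y hne ⟨b, rfl⟩ ⟨c, hy⟩ ⟨b', rfl⟩ ⟨c', hy'⟩
    obtain ⟨m, hm⟩ := brC_eq.1 hy.symm
    obtain ⟨m', hm'⟩ := brC_eq.1 hy'.symm
    rw [brL_C]
    exact br_piece h (fun e => hne (by rw [e])) hm hm'
  girth := by
    rintro _ r y hr hr1 ⟨b, rfl⟩
    obtain ⟨m, hm⟩ := brR_iff.1 hr
    rw [brL_C]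
    unfold td
    rw [← mul_assoc]
    refine br_girth h (fun e => hr1 ?_) hm
    have : r = y * (y⁻¹ * r * y) * y⁻¹ := by group
    rw [this, e, mul_one, mul_inv_cancel]

/-- `M` = quotient of `FreeGroup × V` by `(x,b) ~ (y,b') ↔ ∃ m, Path fl b (x⁻¹ y) b' m`; `mem Y = {y | ∃ b, ⟦(y,b)⟧ = Y}`
(`b` is unique by `Path.det'`), `L Y y = Γ.L b` (`1` off `mem Y`; make it equivariant),
`R Y = {r | ∀ y b, ⟦(y,b)⟧ = Y → ∃ m, Path (fl,a) b (y⁻¹ r y, 1) b m}` (one `(y,b)` suffices: conjugate by a lifted path).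
`convex`: `Path.prefix`.  `lip`: `Path.prefix` with `x = w` and induction along a path of length `‖w‖`.
`piece`: `Path.reduce` (with `K = Unit` or `A`) for both base vertices `b ≠ b'`; the prefixes agree by `Btw.unique`, so the signed
letters agree (`sg_injective`), so ports, types, and `z (hEnd ..)` agree (`NBWalk` only looks at `t s`, `s < ℓ`); `ℓ = 0` is trivial.
`girth`: `Path.reduce`. -/
theorem exists_SC (h : Γ.SCHyp) : ∃ (𝒮 : SC (Let F)) (cls : FreeGroup (Let F) → Γ.V → 𝒮.M),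
    (∀ Y y, y ∈ 𝒮.mem Y → ∃ b, Y = cls y b) ∧
    (∀ x b y, y ∈ 𝒮.mem (cls x b) ↔ ∃ b' m, Γ.Path Γ.fl b (x⁻¹ * y) b' m) ∧
    (∀ x b y b', cls x b = cls y b' ↔ ∃ m, Γ.Path Γ.fl b (x⁻¹ * y) b' m) ∧
    (∀ g x b, 𝒮.sm g (cls x b) = cls (g * x) b) ∧
    (∀ x b, 𝒮.L (cls x b) x = Γ.L b) ∧
    (∀ x b r, r ∈ 𝒮.R (cls x b) ↔ ∃ m, Γ.Path (fun u t => (Γ.fl u t, Γ.a u t)) b
      ((x⁻¹ * r * x, 1) : FreeGroup (Let F) × A) b m) ∧
    𝒮.N = Γ.Nrm := by
  refine ⟨brSC h, Γ.brC, ?_, ?_, fun _ _ _ _ => brC_eq, fun _ _ _ => rfl, brL_C,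
    fun _ _ _ => brR_iff, le_antisymm ?_ ?_⟩
  · rintro Y y ⟨b, rfl⟩
    exact ⟨b, rfl⟩
  · intro x b y
    constructor
    · rintro ⟨b', hb⟩
      exact ⟨b', brC_eq.1 hb.symm⟩
    · rintro ⟨b', hb⟩
      exact ⟨b', (brC_eq.2 hb).symm⟩
  · refine iSup_le fun Y r hr => ?_
    obtain ⟨x, b, rfl⟩ := brC_surj Y
    obtain ⟨m, hm⟩ := brR_iff.1 hr
    have h1 : x⁻¹ * r * x ∈ Γ.Nrm := Subgroup.subset_normalClosure ⟨b, m, hm⟩
    have : r = x * (x⁻¹ * r * x) * x⁻¹ := by group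
    rw [this]
    exact Subgroup.Normal.conj_mem inferInstance _ h1 x
  · refine Subgroup.normalClosure_le_normal ?_
    rintro w ⟨v, m, hm⟩
    refine (brSC h).R_le_N (Γ.brC 1 v) (brR_iff.2 ⟨m, ?_⟩)
    rwa [inv_one, one_mul, mul_one]

end BG
end Crest.Agent.R129
end

-- ▼ part PVb/R129/Cons3
section

/-! # Consequences of `LG`, part 3: far from the root means deep (task R129/Cons3). Statement frozen. -/

set_option autoImplicit false

namespace Crest.Agent.R129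
namespace SC
variable {S : Type} [DecidableEq S] (𝒮 : SC S)

/-- (D5)  `w = h x`.  First `Btw 1 y₀ x` (the median of `1, y₀, x` is in `Y`, use `hmin`), and any `a ∈ Y ∩ [x, y₀]` is `y₀`.
Let `m` = median of `x, 1, w`.  If `m ∈ [x,y₀]` then `Btw 1 y₀ w`: take `a = y₀`.  Else `m ∈ [1,y₀] ⊆ Y`.
If `td y₀ m ≤ L Y m`: `‖m‖ ≥ 7 L - L Y m`, `L Y m ≤ L + ‖m‖/100`, take `a = m`.  So let `td y₀ m > L Y m`; then `h ≠ 1`.
`LG` at `x`: `Z r a b` on `[x,w]`, on which the order is `x ≤ y₀ < m ≤ w`; `ℓ = L Z a`, `td a b ≥ 87 ℓ`.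
Case `Z ≠ Y`: not both (`a ≤ y₀` and `m ≤ b`) by `piece`.  If `y₀ ≤ a`: `m ≤ a` contradicts `Min.shortcut` on `[1,w]`;
`b ≤ m` contradicts `piece`; else `td a m ≤ ℓ`, `td (r m) b ≤ 14 ℓ < td m b`, contradiction with `Min.shortcut`.
If `a ≤ y₀`, `b ≤ m`: `td y₀ (r x) ≤ td y₀ b + 13 ℓ + td a x`; if `b ≤ y₀` this is `< td y₀ x`; else
`td y₀ b ≤ L Z y₀ ≤ ℓ + td a y₀/100` and `hx` gives `td a y₀ ≤ td y₀ b + 13 ℓ`, so `td a b ≤ 16 ℓ`.
Case `Z = Y`: `y₀ ≤ a`; `m ≤ a` is impossible as before; `b ≤ m` gives `‖r y₀‖ < ‖y₀‖`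
(`‖r y₀‖ ≤ td 1 b + 13 ℓ + td a y₀`), against `horb`; so `a ≤ m ≤ b`, `Btw 1 m b`, `Btw 1 b w`, and `horb` gives
`td m a ≤ td m b + 13 ℓ`, so `td m b ≥ 37 ℓ`, `L Y m ≤ ℓ + td a m/100`, `td m b ≥ 20 L Y m`,
`L Y 1 ≤ L Y m + ‖m‖/100`; take `a := b`. -/
theorem deep_of_far {Y : 𝒮.M} {w h x y₀ : FreeGroup S} (h1 : 1 ∈ 𝒮.mem Y) (hy₀ : y₀ ∈ 𝒮.mem Y)
    (hw : 𝒮.Min w) (hh : h ∈ 𝒮.N) (hwx : w = h * x)
    (hmin : ∀ y ∈ 𝒮.mem Y, td y₀ x ≤ td y x) (hx : ∀ k ∈ 𝒮.N, td y₀ x ≤ td y₀ (k * x))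
    (horb : ∀ r ∈ 𝒮.R Y, y₀.norm ≤ (r * y₀).norm) (hfar : 7 * 𝒮.L Y 1 ≤ y₀.norm) :
    𝒮.ADeep 5 w Y := by
  have gate : ∀ y ∈ 𝒮.mem Y, Btw x y₀ y := by
    intro y hy
    obtain ⟨m, h2, h3, h4⟩ := exists_median y y₀ x
    have h5 := hmin m (𝒮.convex _ _ _ _ hy hy₀ h2)
    obtain rfl : y₀ = m := td_eq_zero.1 (by unfold Btw at h3; omega)
    exact h4.symm
  have l1 := 𝒮.one_le _ _ h1
  rw [← td_one] at hfar
  suffices H : ∃ a ∈ 𝒮.mem Y, Btw 1 a w ∧ 5 * 𝒮.L Y 1 ≤ td 1 a by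
    simpa only [td_one, ADeep] using And.intro h1 H
  have g1 := gate 1 h1
  obtain ⟨m, hm₁, hm₂, hm₃⟩ := exists_median x 1 w
  rcases le_total (td x m) (td x y₀) with hc | hc
  · exact ⟨y₀, hy₀, (hm₂.trans_left (g1.trans_left (hm₁.order g1 hc)).2.symm).1, by linarith⟩
  have g2 := g1.order hm₁ hc
  have g3 := (hm₁.trans_left g2).2
  have hmY := 𝒮.convex _ _ _ _ hy₀ h1 g3
  have l2 := 𝒮.one_le _ _ hmY
  have g4 : (td y₀ m : ℝ) + td 1 m = td 1 y₀ := by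
    rw [td_comm 1, td_comm 1]
    exact_mod_cast g3
  by_cases hs : (td y₀ m : ℝ) ≤ 𝒮.L Y m
  · exact ⟨m, hmY, hm₂, by linarith [𝒮.lip _ _ _ h1 hmY]⟩
  have hh1 : h ≠ 1 := by
    rintro rfl
    rw [hwx, one_mul] at hm₃
    have h2 : td y₀ m = 0 := by
      unfold Btw at hm₃ g2
      rw [td_self] at hm₃
      omega
    rw [h2] at hs
    exact hs (by push_cast; linarith)
  obtain ⟨Z, r, a, b, hr, hr1, ha, hb, hab, hbw, hd⟩ := 𝒮.LG hh hh1 x
  rw [← hwx] at hbw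
  have hl := 𝒮.long_of_LG hr hr1 ha hd
  have l3 := 𝒮.one_le _ _ ha
  have hD : td (r * a) b < td a b := by
    have : (td (r * a) b : ℝ) < td a b := by linarith
    exact_mod_cast this
  have hrN := 𝒮.R_le_N _ hr
  have haw := (hbw.trans_left hab).1
  have hyw := (hm₃.trans_left g2).1
  have mid : ∀ {u v z}, Btw x u w → Btw x v w → Btw x z w → td x u ≤ td x v → td x v ≤ td x z →
      Btw u v z := fun hu hv hz h2 h3 => ((hv.order hz h3).trans_left (hu.order hv h2)).2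
  have far : ∀ {u}, Btw x u w → td x m ≤ td x u → Btw 1 u w ∧ Btw 1 m u := fun hu h2 =>
    have h3 := hm₂.symm.trans_left (hu.trans_left (hm₃.order hu h2)).2.symm
    ⟨h3.1.symm, h3.2.symm⟩
  have hαβ : td x a ≤ td x b := by unfold Btw at hab; omega
  have hα : td x a ≤ td x m := by
    by_contra hc'
    have h2 := (not_le.1 hc').le
    obtain ⟨h3, h4⟩ := far hbw (h2.trans hαβ)
    have h5 := (h4.symm.trans_left (mid hm₃ haw hbw h2 hαβ).symm).1.symm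
    exact not_le.2 hD (Min.shortcut 𝒮 hw hrN h5 h3).1
  have ham := haw.order hm₃ hα
  have c1 := td_comm b (r * a)
  by_cases hZ : Z = Y
  · subst hZ
    have h2 := horb r hr
    rw [← td_one, ← td_one] at h2
    have t1 := td_triangle 1 b (r * y₀)
    have t2 := td_triangle b (r * a) (r * y₀)
    rw [td_mul, td_comm a] at t2
    have h3 := gate a ha
    have c2 := td_comm 1 y₀
    have hβ : td x m ≤ td x b := by
      by_contra hc'
      have h4 := (hm₁.trans_left (hbw.order hm₃ (not_le.1 hc').le)).1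
      have c3 := td_comm 1 b
      unfold Btw at *
      omega
    obtain ⟨h4, h5⟩ := far hbw hβ
    have h6 := hm₃.order hbw hβ
    have c3 := td_comm 1 m
    have f1 : (td a m : ℝ) ≤ td m b + td (r * a) b := by
      unfold Btw at *
      exact_mod_cast (by omega : td a m ≤ td m b + td (r * a) b)
    have f2 : (td a b : ℝ) = td a m + td m b := by
      exact_mod_cast Eq.symm (mid haw hm₃ hbw hα hβ)
    have f3 : (td 1 m : ℝ) + td m b = td 1 b := by exact_mod_cast h5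
    have f4 := 𝒮.lip _ _ _ hmY h1
    have f5 : (0 : ℝ) ≤ td 1 m := Nat.cast_nonneg _
    rw [← c3] at f4
    exact ⟨b, hb, h4, by linarith [𝒮.lip _ _ _ ha hmY]⟩
  exfalso
  rcases le_total (td x y₀) (td x a) with hc₁ | hc₁
  · have haY := 𝒮.convex _ _ _ _ hy₀ hmY (mid hyw haw hm₃ hc₁ hα)
    rcases le_total (td x b) (td x m) with hc₂ | hc₂
    · have := 𝒮.piece _ _ _ _ hZ ha hb haY
        (𝒮.convex _ _ _ _ hy₀ hmY (mid hyw hbw hm₃ (hc₁.trans hαβ) hc₂))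
      linarith
    · have h2 := mid haw hm₃ hbw hα hc₂
      have h3 := 𝒮.piece _ _ _ _ hZ ha (𝒮.convex _ _ _ _ ha hb h2) haY hmY
      obtain ⟨h4, h5⟩ := far hbw hc₂
      have h6 := (Min.shortcut 𝒮 hw hrN h5 h4).1.trans (td_triangle _ (r * a) _)
      rw [td_mul, td_comm m a] at h6
      have f1 : (td m b : ℝ) ≤ td a m + td (r * a) b := by exact_mod_cast h6
      have f2 : (td a m : ℝ) + td m b = td a b := by exact_mod_cast h2
      linarith
  rcases le_total (td x m) (td x b) with hc₂ | hc₂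
  · have := 𝒮.piece _ _ _ _ (Ne.symm hZ) hmY hy₀
      (𝒮.convex _ _ _ _ ha hb (mid haw hm₃ hbw hα hc₂))
      (𝒮.convex _ _ _ _ ha hb (mid haw hyw hbw hc₁ (hc.trans hc₂)))
    exact hs (by rwa [td_comm])
  have h2 := hx r hrN
  have t1 := td_triangle y₀ b (r * x)
  have t2 := td_triangle b (r * a) (r * x)
  rw [td_mul, td_comm a] at t2
  rw [td_comm y₀ x] at h2
  rcases le_total (td x b) (td x y₀) with hc₃ | hc₃
  · have h3 := hbw.order hyw hc₃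
    have c2 := td_comm b y₀
    unfold Btw at *
    omega
  have h3 := mid haw hyw hbw hc₁ hc₃
  have hyZ := 𝒮.convex _ _ _ _ ha hb h3
  have h4 := 𝒮.piece _ _ _ _ hZ hyZ hb hy₀ (𝒮.convex _ _ _ _ hy₀ hmY (mid hyw hbw hm₃ hc₃ hc₂))
  have h5 := haw.order hyw hc₁
  have f1 : (td a y₀ : ℝ) ≤ td y₀ b + td (r * a) b := by
    unfold Btw at *
    exact_mod_cast (by omega : td a y₀ ≤ td y₀ b + td (r * a) b)
  have f2 : (td a y₀ : ℝ) + td y₀ b = td a b := by exact_mod_cast h3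
  linarith [𝒮.lip _ _ _ ha hyZ]

end SC
end Crest.Agent.R129
end

-- ▼ part PVb/R129/GeoD
section

/-! # Dictionary between the group `Grp` and the small cancellation data (task R129/GeoA) -/

set_option autoImplicit false
set_option linter.unusedSectionVars false

namespace Crest.Agent.R129
namespace BG
variable {F A : Type} [DecidableEq F] [Group A] {Γ : BG F A}

variable (Γ) in
/-- the output of `exists_SC` -/
structure Dict (𝒮 : SC (Let F)) (cls : FreeGroup (Let F) → Γ.V → 𝒮.M) : Prop where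
  surj : ∀ Y y, y ∈ 𝒮.mem Y → ∃ b, Y = cls y b
  mem_iff : ∀ x b y, y ∈ 𝒮.mem (cls x b) ↔ ∃ b' m, Γ.Path Γ.fl b (x⁻¹ * y) b' m
  eq_iff : ∀ x b y b', cls x b = cls y b' ↔ ∃ m, Γ.Path Γ.fl b (x⁻¹ * y) b' m
  sm_cls : ∀ g x b, 𝒮.sm g (cls x b) = cls (g * x) b
  L_cls : ∀ x b, 𝒮.L (cls x b) x = Γ.L b
  R_iff : ∀ x b r, r ∈ 𝒮.R (cls x b) ↔ ∃ m, Γ.Path (fun u t => (Γ.fl u t, Γ.a u t)) b
      ((x⁻¹ * r * x, 1) : FreeGroup (Let F) × A) b m
  N_eq : 𝒮.N = Γ.Nrm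

theorem exists_dict (h : Γ.SCHyp) : ∃ 𝒮 cls, Γ.Dict 𝒮 cls := by
  obtain ⟨𝒮, cls, h1, h2, h3, h4, h5, h6, h7⟩ := exists_SC h
  exact ⟨𝒮, cls, h1, h2, h3, h4, h5, h6, h7⟩

theorem mkG_eq_one {w : FreeGroup (Let F)} : Γ.mkG w = 1 ↔ w ∈ Γ.Nrm :=
  QuotientGroup.eq_one_iff w

theorem mkG_eq_iff {w w' : FreeGroup (Let F)} :
    Γ.mkG w = Γ.mkG w' ↔ ∃ h ∈ Γ.Nrm, w' = h * w := by
  constructor
  · intro e
    refine ⟨w' * w⁻¹, mkG_eq_one.1 ?_, by group⟩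
    rw [map_mul, map_inv, e, mul_inv_cancel]
  · rintro ⟨h, hh, rfl⟩
    rw [map_mul, mkG_eq_one.2 hh, one_mul]

theorem len_le {w : FreeGroup (Let F)} {g : Γ.Grp} (h : Γ.mkG w = g) : Γ.len g ≤ w.norm :=
  Nat.sInf_le ⟨w, h, rfl⟩

theorem exists_len (g : Γ.Grp) : ∃ w, Γ.mkG w = g ∧ w.norm = Γ.len g := by
  obtain ⟨w, hw⟩ := QuotientGroup.mk'_surjective Γ.Nrm g
  exact Nat.sInf_mem (s := {m | ∃ w, Γ.mkG w = g ∧ w.norm = m}) ⟨_, w, hw, rfl⟩

theorem norm_sg (σ : Let F × Bool) : (sg σ).norm = 1 := by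
  have := td_sg 1 σ
  rwa [one_mul, td_one] at this

theorem even_of_mem_Nrm {w : FreeGroup (Let F)} (hw : w ∈ Γ.Nrm) : w.norm % 2 = 0 := by
  let E : Subgroup (FreeGroup (Let F)) :=
    { carrier := {w | w.norm % 2 = 0}
      one_mem' := by simp
      mul_mem' := by
        intro a b ha hb
        have ha' : a.norm % 2 = 0 := ha
        have hb' : b.norm % 2 = 0 := hb
        have := norm_mul_mod_two a b
        change (a * b).norm % 2 = 0
        omega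
      inv_mem' := by
        intro a ha
        change (a⁻¹).norm % 2 = 0
        rw [FreeGroup.norm_inv_eq]; exact ha }
  have hE : E.Normal := ⟨fun a ha g => by
    have ha' : a.norm % 2 = 0 := ha
    have h1 := norm_mul_mod_two (g * a) g⁻¹
    have h2 := norm_mul_mod_two g a
    rw [FreeGroup.norm_inv_eq] at h1
    change (g * a * g⁻¹).norm % 2 = 0
    omega⟩
  refine Subgroup.normalClosure_le_normal (N := E) ?_ hw
  rintro w ⟨v, m, hm⟩
  have h1 : Γ.Path Γ.fl v w v m := hm.map (MonoidHom.fst _ _)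
  have h2 := h1.norm_le.2
  have h3 := h1.parity.1 Iff.rfl
  change w.norm % 2 = 0
  omega

theorem len_step' (σ : Let F × Bool) (g : Γ.Grp) :
    Γ.len ((Γ.mkG (sg σ))⁻¹ * g) + 1 = Γ.len g ∨ Γ.len ((Γ.mkG (sg σ))⁻¹ * g) = Γ.len g + 1 := by
  obtain ⟨w, hw, hwl⟩ := exists_len g
  obtain ⟨u, hu, hul⟩ := exists_len ((Γ.mkG (sg σ))⁻¹ * g)
  have e1 : Γ.mkG (sg σ * u) = g := by rw [map_mul, hu, mul_inv_cancel_left]
  have e2 : Γ.mkG ((sg σ)⁻¹ * w) = (Γ.mkG (sg σ))⁻¹ * g := by rw [map_mul, map_inv, hw]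
  have a1 := (len_le e1).trans (FreeGroup.norm_mul_le _ _)
  have a2 := (len_le e2).trans (FreeGroup.norm_mul_le _ _)
  rw [FreeGroup.norm_inv_eq] at a2
  rw [norm_sg] at a1 a2
  obtain ⟨k, hk, e⟩ := mkG_eq_iff.1 (e1.trans hw.symm)
  have a3 := even_of_mem_Nrm hk
  have a4 := norm_mul_mod_two k (sg σ * u)
  have a5 := norm_mul_mod_two (sg σ) u
  rw [← e] at a4
  rw [norm_sg] at a5
  omega

theorem down_iff {σ : Let F × Bool} {g : Γ.Grp} :
    Γ.Down σ g ↔ ∃ w, Γ.mkG w = g ∧ w.norm = Γ.len g ∧ Btw 1 (sg σ) w := by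
  unfold Down
  constructor
  · intro h
    obtain ⟨u, hu, hul⟩ := exists_len ((Γ.mkG (sg σ))⁻¹ * g)
    have e1 : Γ.mkG (sg σ * u) = g := by rw [map_mul, hu, mul_inv_cancel_left]
    have a1 := len_le e1
    have a2 := FreeGroup.norm_mul_le (sg σ) u
    rw [norm_sg] at a2
    refine ⟨sg σ * u, e1, by omega, ?_⟩
    unfold Btw
    rw [td_one, td_one, norm_sg]
    unfold td
    rw [inv_mul_cancel_left]
    omega
  · rintro ⟨w, hw, hwl, hb⟩
    have e2 : Γ.mkG ((sg σ)⁻¹ * w) = (Γ.mkG (sg σ))⁻¹ * g := by rw [map_mul, map_inv, hw]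
    have a1 := len_le e2
    unfold Btw at hb
    rw [td_one, td_one, norm_sg] at hb
    unfold td at hb
    omega

theorem len_down {σ : Let F × Bool} {g : Γ.Grp} {w : FreeGroup (Let F)}
    (hwl : w.norm = Γ.len g) (hσ : Γ.Down σ g) (hb : Btw 1 (sg σ) w) :
    ((sg σ)⁻¹ * w).norm = Γ.len ((Γ.mkG (sg σ))⁻¹ * g) := by
  have := len_step' σ g
  unfold Down at hσ
  unfold Btw at hb
  rw [td_one, td_one, norm_sg] at hb
  unfold td at hb
  omega

namespace Dict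
variable {𝒮 : SC (Let F)} {cls : FreeGroup (Let F) → Γ.V → 𝒮.M} (D : Γ.Dict 𝒮 cls)
include D

theorem mkG_eq {w w' : FreeGroup (Let F)} (h : Γ.mkG w = Γ.mkG w') : ∃ h ∈ 𝒮.N, w' = h * w := by
  rw [D.N_eq]; exact mkG_eq_iff.1 h

theorem mkG_mul {k : FreeGroup (Let F)} (hk : k ∈ 𝒮.N) (w : FreeGroup (Let F)) :
    Γ.mkG (k * w) = Γ.mkG w := by
  rw [D.N_eq] at hk
  exact (mkG_eq_iff.2 ⟨k, hk, rfl⟩).symm

theorem min_of {w : FreeGroup (Let F)} {g : Γ.Grp} (hw : Γ.mkG w = g) (hl : w.norm = Γ.len g) :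
    𝒮.Min w := fun k hk => by
  rw [hl]
  exact len_le ((D.mkG_mul hk w).trans hw)

theorem mem_one {b : Γ.V} {y : FreeGroup (Let F)} :
    y ∈ 𝒮.mem (cls 1 b) ↔ ∃ b' m, Γ.Path Γ.fl b y b' m := by
  rw [D.mem_iff, inv_one, one_mul]

theorem eq_one {b b' : Γ.V} {y : FreeGroup (Let F)} {m : ℕ} (h : Γ.Path Γ.fl b y b' m) :
    cls 1 b = cls y b' := by
  rw [D.eq_iff, inv_one, one_mul]; exact ⟨m, h⟩

theorem one_mem (b : Γ.V) : 1 ∈ 𝒮.mem (cls 1 b) := D.mem_one.2 ⟨b, 0, Path.refl b⟩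

theorem R_one {b : Γ.V} {r : FreeGroup (Let F)} : r ∈ 𝒮.R (cls 1 b) ↔
    ∃ m, Γ.Path (fun u t => (Γ.fl u t, Γ.a u t)) b ((r, 1) : FreeGroup (Let F) × A) b m := by
  rw [D.R_iff, inv_one, one_mul, mul_one]

theorem cls_inj {b b' : Γ.V} (h : cls 1 b = cls 1 b') : b = b' := by
  obtain ⟨m, hm⟩ := (D.eq_iff _ _ _ _).1 h
  rw [inv_mul_cancel] at hm
  exact (Path.refl b).det' hm

theorem deep_iff {c : ℝ} {g : Γ.Grp} {b : Γ.V} :
    Γ.Deep c g b ↔ ∃ w, Γ.mkG w = g ∧ w.norm = Γ.len g ∧ 𝒮.ADeep c w (cls 1 b) := by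
  constructor
  · rintro ⟨w, x, h1, h2, h3, h4, h5⟩
    exact ⟨w, h1, h2, D.one_mem b, x, D.mem_one.2 h4, h3, by rw [D.L_cls]; exact h5⟩
  · rintro ⟨w, h1, h2, -, x, h4, h3, h5⟩
    exact ⟨w, x, h1, h2, h3, D.mem_one.1 h4, by rw [D.L_cls] at h5; exact h5⟩

theorem sm_sedge {b b' : Γ.V} {σ : Let F × Bool} (h : Γ.SEdge b σ b') :
    𝒮.sm (sg σ)⁻¹ (cls 1 b) = cls 1 b' := by
  rw [D.eq_one h.path, D.sm_cls, inv_mul_cancel]

theorem sedge_of_mem {b : Γ.V} {σ : Let F × Bool} (h : sg σ ∈ 𝒮.mem (cls 1 b)) :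
    ∃ b', Γ.SEdge b σ b' := by
  obtain ⟨b', m, hm⟩ := D.mem_one.1 h
  exact ⟨b', hm.sedge⟩

/-- one step down along a deep word -/
theorem deep_step {c c' : ℝ} (hc : c' + 2 ≤ c) (hc' : 0 ≤ c') (hc'' : c' ≤ 100) {g : Γ.Grp}
    {b b' : Γ.V} {σ : Let F × Bool} {w : FreeGroup (Let F)} (hw : Γ.mkG w = g)
    (hl : w.norm = Γ.len g) (hd : 𝒮.ADeep c w (cls 1 b)) (hσ : Γ.Down σ g) (hb : Btw 1 (sg σ) w)
    (he : Γ.SEdge b σ b') : Γ.Deep c' ((Γ.mkG (sg σ))⁻¹ * g) b' := by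
  have := (SC.ADeep.step 𝒮 hc hc' hc'' hd hb).2
  rw [D.sm_sedge he] at this
  exact D.deep_iff.2 ⟨_, by rw [map_mul, map_inv, hw], len_down hl hσ hb, this⟩

end Dict

end BG
end Crest.Agent.R129
end

-- ▼ part PVb/R129/Geo
section

/-! # Geometry exports (tasks R129/GeoA: all but the last three theorems; R129/GeoB: `exists_root`,
`exists_height`, `torsionFree`, proved in `R129/GeoB.lean` under primed names and then cited here).
Statements frozen.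

Dictionary (`exists_SC`): `mkG w = mkG w' ↔ ∃ h ∈ N, w' = h * w`; `w.norm = len (mkG w) ↔ 𝒮.Min w`;
`Deep c g b ↔ ∃ w, mkG w = g ∧ 𝒮.Min w ∧ 𝒮.ADeep c w (cls 1 b)`;
`Down σ g ↔ ∃ w, mkG w = g ∧ w.norm = len g ∧ Btw 1 (sg σ) w` (take `w = sg σ * w'`, `len_step`);
`sg σ ∈ mem (cls 1 b) ↔ ∃ b', SEdge b σ b'` (`Path.sedge`), and then `sm (sg σ)⁻¹ (cls 1 b) = cls 1 b'`;
`cls 1 b = cls 1 b' → b = b'` (`Path.det'`). -/

set_option autoImplicit false

namespace Crest.Agent.R129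
namespace BG
variable {F A : Type} [DecidableEq F] [Group A] {Γ : BG F A}

/-- (g0) every relator has even length (`Path.parity`, `Path.norm_le`, `norm_mul_mod_two`; the even-norm elements form a normal subgroup) -/
theorem len_step (σ : Let F × Bool) (g : Γ.Grp) :
    Γ.len ((Γ.mkG (sg σ))⁻¹ * g) + 1 = Γ.len g ∨ Γ.len ((Γ.mkG (sg σ))⁻¹ * g) = Γ.len g + 1 := by
  exact len_step' σ g

/-- (g1) signed letters stay distinct (`SC.N_long`) -/
theorem mkG_sg_injective (h : Γ.SCHyp) : Function.Injective fun σ : Let F × Bool => Γ.mkG (sg σ) := by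
  obtain ⟨𝒮, cls, D⟩ := exists_dict h
  intro σ σ' e
  obtain ⟨k, hk, e'⟩ := D.mkG_eq e
  by_cases h1 : k = 1
  · rw [h1, one_mul] at e'
    exact sg_injective e'.symm
  · exfalso
    have a1 := 𝒮.N_long hk h1 (sg σ)
    have a2 := td_triangle (sg σ) 1 (sg σ')
    rw [td_comm (sg σ) 1, td_one, td_one, norm_sg, norm_sg] at a2
    rw [← e'] at a1
    omega

/-- (D1) `SC.deep_unique` -/
theorem deep_unique (h : Γ.SCHyp) {g : Γ.Grp} {b b' : Γ.V} (hb : Γ.Deep 3 g b)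
    (hb' : Γ.Deep 3 g b') : b = b' := by
  obtain ⟨𝒮, cls, D⟩ := exists_dict h
  obtain ⟨w, h1, h2, h3⟩ := D.deep_iff.1 hb
  obtain ⟨w', h1', h2', h3'⟩ := D.deep_iff.1 hb'
  obtain ⟨k, hk, rfl⟩ := D.mkG_eq (h1.trans h1'.symm)
  exact D.cls_inj (𝒮.deep_unique (D.min_of h1 h2) hk (h2'.trans h2.symm) h3 h3')

/-- (D2) `SC.deep_first` -/
theorem deep_down_edge (h : Γ.SCHyp) {g : Γ.Grp} {b : Γ.V} {σ : Let F × Bool} (hb : Γ.Deep 3 g b)
    (hσ : Γ.Down σ g) : ∃ b', Γ.SEdge b σ b' := by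
  obtain ⟨𝒮, cls, D⟩ := exists_dict h
  obtain ⟨w, h1, h2, h3⟩ := D.deep_iff.1 hb
  obtain ⟨w', h1', h2', h3'⟩ := down_iff.1 hσ
  obtain ⟨k, hk, rfl⟩ := D.mkG_eq (h1.trans h1'.symm)
  exact D.sedge_of_mem (𝒮.deep_first (D.min_of h1 h2) hk (h2'.trans h2.symm) h3 h3')

/-- (D3) `SC.two_first`, `SC.ADeep.step` -/
theorem two_down (h : Γ.SCHyp) {g : Γ.Grp} {σ σ' : Let F × Bool} (hσ : Γ.Down σ g)
    (hσ' : Γ.Down σ' g) (hne : σ ≠ σ') :
    ∃ b b', Γ.Deep 5 g b ∧ Γ.SEdge b σ b' ∧ Γ.Deep 5 ((Γ.mkG (sg σ))⁻¹ * g) b' := by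
  obtain ⟨𝒮, cls, D⟩ := exists_dict h
  obtain ⟨w, h1, h2, h3⟩ := down_iff.1 hσ
  obtain ⟨w', h1', h2', h3'⟩ := down_iff.1 hσ'
  obtain ⟨k, hk, rfl⟩ := D.mkG_eq (h1.trans h1'.symm)
  obtain ⟨Z, hZ, -⟩ := 𝒮.two_first (D.min_of h1 h2) hk (h2'.trans h2.symm) h3 h3' hne
  obtain ⟨b, rfl⟩ := D.surj Z 1 hZ.1
  obtain ⟨b', hb'⟩ := D.sedge_of_mem
    (SC.ADeep.step 𝒮 (c' := 5) (by norm_num) (by norm_num) (by norm_num) hZ h3).1
  exact ⟨b, b', D.deep_iff.2 ⟨w, h1, h2, SC.ADeep.mono 𝒮 (by norm_num) hZ⟩, hb',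
    D.deep_step (by norm_num) (by norm_num) (by norm_num) h1 h2 hZ hσ h3 hb'⟩

/-- (D4) if the witness word starts with `σ`: `ADeep.step`; else `two_first`, `deep_unique`, `ADeep.step` -/
theorem deep_down_semi (h : Γ.SCHyp) {g : Γ.Grp} {b b' : Γ.V} {σ : Let F × Bool}
    (hb : Γ.Deep 5 g b) (hσ : Γ.Down σ g) (he : Γ.SEdge b σ b') :
    Γ.Deep 3 ((Γ.mkG (sg σ))⁻¹ * g) b' := by
  obtain ⟨𝒮, cls, D⟩ := exists_dict h
  obtain ⟨w, h1, h2, h3⟩ := D.deep_iff.1 hb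
  obtain ⟨w', h1', h2', h3'⟩ := down_iff.1 hσ
  obtain ⟨k, hk, rfl⟩ := D.mkG_eq (h1.trans h1'.symm)
  have hpos : 1 ≤ td 1 w := by
    rw [td_one, h2]
    unfold Down at hσ
    omega
  obtain ⟨z, hz, hz1⟩ := exists_btw 1 w hpos
  obtain ⟨σ', rfl⟩ := exists_sg_of_td hz1
  rw [one_mul] at hz
  by_cases hne : σ' = σ
  · subst hne
    exact D.deep_step (by norm_num) (by norm_num) (by norm_num) h1 h2 h3 hσ hz he
  · obtain ⟨Z, hZ, hZ'⟩ := 𝒮.two_first (D.min_of h1 h2) hk (h2'.trans h2.symm) hz h3' hne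
    have e := 𝒮.deep_unique (D.min_of h1 h2) 𝒮.N.one_mem (by rw [one_mul])
      (SC.ADeep.mono 𝒮 (by norm_num) h3) (Y' := Z)
      (by rw [one_mul]; exact SC.ADeep.mono 𝒮 (by norm_num) hZ)
    subst e
    exact D.deep_step (by norm_num) (by norm_num) (by norm_num) h1' h2' hZ' hσ h3' he

/-- (embedding) a path whose label dies in the group is closed and has trivial voltage
(`Path.lift` along `mkG × id`, `SC.emb` with `y = 1`, `Path.det`) -/
theorem embed (h : Γ.SCHyp) {v v' : Γ.V} {α : A} {m : ℕ}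
    (hp : Γ.Path (fun u t => (Γ.gl u t, Γ.a u t)) v ((1, α) : Γ.Grp × A) v' m) :
    v' = v ∧ α = 1 := by
  obtain ⟨𝒮, cls, D⟩ := exists_dict h
  obtain ⟨⟨w, β⟩, hk, h1⟩ := Path.lift (κ := fun u t => (Γ.fl u t, Γ.a u t))
    (Γ.mkG.prodMap (MonoidHom.id A)) hp
  have e1 : Γ.mkG w = 1 := congrArg Prod.fst hk
  have e2 : β = α := congrArg Prod.snd hk
  subst e2
  have hw : w ∈ 𝒮.N := by rw [D.N_eq]; exact mkG_eq_one.1 e1
  have h2 : Γ.Path Γ.fl v w v' m := h1.map (MonoidHom.fst _ _)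
  obtain ⟨m', h3⟩ := D.R_one.1 (𝒮.emb (D.one_mem v) hw
    (by rw [mul_one]; exact D.mem_one.2 ⟨v', m, h2⟩))
  exact h1.det h3

/-- (definition of the group) closed paths with trivial voltage die in the group -/
theorem embed' {v : Γ.V} {g : Γ.Grp} {m : ℕ}
    (hp : Γ.Path (fun u t => (Γ.gl u t, Γ.a u t)) v ((g, 1) : Γ.Grp × A) v m) : g = 1 := by
  obtain ⟨⟨w, β⟩, hk, h1⟩ := Path.lift (κ := fun u t => (Γ.fl u t, Γ.a u t))
    (Γ.mkG.prodMap (MonoidHom.id A)) hp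
  have e1 : Γ.mkG w = g := congrArg Prod.fst hk
  have e2 : β = 1 := congrArg Prod.snd hk
  subst e2
  rw [← e1]
  exact mkG_eq_one.2 (Subgroup.subset_normalClosure ⟨v, m, h1⟩)

omit [DecidableEq F] [Group A] in
theorem geo_conn_symm {K : Type} [Group K] {κ : Γ.V → F → K} {p q : K × Γ.V}
    (h : Γ.Conn κ p q) : Γ.Conn κ q p := by
  obtain ⟨m, h⟩ := h
  refine ⟨m, ?_⟩
  have := h.symm
  rwa [mul_inv_rev, inv_inv] at this

omit [DecidableEq F] [Group A] in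
theorem geo_conn_trans {K : Type} [Group K] {κ : Γ.V → F → K} {p q r : K × Γ.V}
    (h : Γ.Conn κ p q) (h' : Γ.Conn κ q r) : Γ.Conn κ p r := by
  obtain ⟨m, h⟩ := h
  obtain ⟨m', h'⟩ := h'
  refine ⟨m + m', ?_⟩
  have := h.trans h'
  rwa [mul_assoc, inv_mul_cancel_left] at this

/-- (D5) every component of the cover `Grp × V` has a root such that all shallow vertices are
within `8 L(root)` of it.  Choose in each `Conn`-class a vertex `(g₀,b₀)` with least `len g₀`.  For `p = (g,b)` let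
`Y = cls 1 b`, `w` shortest for `g`; among `y` with `Path fl b y b₀`, `mkG y = g g₀⁻¹` take `y₀` of least norm, `w₀` shortest for
`g₀`, `x = y₀ w₀`; `deep_of_far` applies (for `y ∈ Y` the vertex `((mkG y)⁻¹ g, ·)` is in the class and
`len ≤ td y x`), so `‖y₀‖ < 7 L b ≤ 7 (L b₀ + ‖y₀‖/100)`; finish with `Path.prefix`, `Path.map`. -/
theorem exists_root (h : Γ.SCHyp) : ∃ root : Γ.Grp × Γ.V → Γ.Grp × Γ.V,
    (∀ p, Γ.Conn Γ.gl p (root p)) ∧ (∀ p q, Γ.Conn Γ.gl p q → root p = root q) ∧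
    ∀ p, ¬ Γ.Deep 5 p.1 p.2 →
      ∃ m : ℕ, (m : ℝ) ≤ 8 * Γ.L (root p).2 ∧ Γ.Path Γ.gl p.2 (p.1 * (root p).1⁻¹) (root p).2 m := by
  obtain ⟨𝒮, cls, D⟩ := exists_dict h
  have key : ∀ T : Set (Γ.Grp × Γ.V), T.Nonempty → ∃ q ∈ T, ∀ q' ∈ T, Γ.len q.1 ≤ Γ.len q'.1 :=
    fun T hT => (measure fun q : Γ.Grp × Γ.V => Γ.len q.1).wf.has_min T hT |>.imp
      fun q hq => ⟨hq.1, fun q' hq' => not_lt.1 (hq.2 q' hq')⟩
  choose pick hp1 hp2 using key
  have hcongr : ∀ T T' hT hT', T = T' → pick T hT = pick T' hT' := by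
    intro T T' _ _ e
    subst e
    rfl
  refine ⟨fun p => pick {q | Γ.Conn Γ.gl p q} ⟨p, Conn.refl _ p⟩,
    fun p => hp1 {q | Γ.Conn Γ.gl p q} ⟨p, Conn.refl _ p⟩,
    fun p q hpq => hcongr _ _ _ _ ?_, ?_⟩
  · ext r
    exact ⟨fun hr => geo_conn_trans (geo_conn_symm hpq) hr, fun hr => geo_conn_trans hpq hr⟩
  · rintro ⟨g, b⟩ hnd
    have a1 := hp1 {q | Γ.Conn Γ.gl (g, b) q} ⟨(g, b), Conn.refl _ _⟩
    have a2 := hp2 {q | Γ.Conn Γ.gl (g, b) q} ⟨(g, b), Conn.refl _ _⟩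
    simp only
    generalize pick {q | Γ.Conn Γ.gl (g, b) q} ⟨(g, b), Conn.refl _ _⟩ = ρ at a1 a2
    obtain ⟨g₀, b₀⟩ := ρ
    obtain ⟨m, hm⟩ := a1
    simp only at hm hnd a2 ⊢
    obtain ⟨y, hy, hm'⟩ := Path.lift (κ := Γ.fl) Γ.mkG hm
    obtain ⟨y₀, ⟨hy₀, m₀, hm₀⟩, hmin⟩ := (measure fun y : FreeGroup (Let F) => y.norm).wf.has_min
      {y | Γ.mkG y = g * g₀⁻¹ ∧ ∃ m, Γ.Path Γ.fl b y b₀ m} ⟨y, hy, m, hm'⟩
    obtain ⟨w, hw, hwl⟩ := exists_len g
    obtain ⟨w₀, hw₀, hwl₀⟩ := exists_len g₀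
    have hx : Γ.mkG (y₀ * w₀) = g := by rw [map_mul, hy₀, hw₀, inv_mul_cancel_right]
    obtain ⟨k, hk, hwk⟩ := D.mkG_eq (hx.trans hw.symm)
    have htd : td y₀ (y₀ * w₀) = Γ.len g₀ := by
      unfold td
      rw [inv_mul_cancel_left, hwl₀]
    have hlt : (y₀.norm : ℝ) < 7 * Γ.L b := by
      by_contra hle
      refine hnd (D.deep_iff.2 ⟨w, hw, hwl, 𝒮.deep_of_far (D.one_mem b)
        (D.mem_one.2 ⟨b₀, m₀, hm₀⟩) (D.min_of hw hwl) hk hwk ?_ ?_ ?_ ?_⟩)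
      · intro y' hy'
        obtain ⟨b', m', hm'⟩ := D.mem_one.1 hy'
        rw [htd]
        refine (a2 ((Γ.mkG y')⁻¹ * g, b') ⟨m', ?_⟩).trans (len_le ?_)
        · have e : g * ((Γ.mkG y')⁻¹ * g)⁻¹ = Γ.mkG y' := by group
          simp only [e]
          exact hm'.map Γ.mkG
        · rw [map_mul, map_inv, hx]
      · intro k' hk'
        rw [htd]
        refine len_le ?_
        rw [map_mul, map_inv, D.mkG_mul hk', hx, hy₀]
        group
      · intro r hr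
        obtain ⟨m', hm'⟩ := D.R_one.1 hr
        have h1 : Γ.Path Γ.fl b r b m' := hm'.map (MonoidHom.fst _ _)
        exact not_lt.1 (hmin (r * y₀) ⟨(D.mkG_mul (𝒮.R_le_N _ hr) _).trans hy₀, _, h1.trans hm₀⟩)
      · rw [D.L_cls]
        exact not_lt.1 hle
    have hL := hm₀.short.symm.L_le h
    have hL1 := h.one_le b₀
    refine ⟨y₀.norm, by linarith, ?_⟩
    rw [← hy₀]
    exact hm₀.short.map Γ.mkG

/-- (g7) edges of the cover with a shallow endpoint form a forest oriented by a height.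
`ht p` = least length of a path from `p` to `root p` (`sInf`); neighbours differ by parity (`Path.parity`).  In the second
clause `ht (g,b) ≤ 8 L(root) + 1`; the two shortest paths through `σ`, `σ'` lift to `y = sg σ * _`, `y' = sg σ' * _` in
`Y = cls 1 b` with `y' = r y`, `r ∈ N`, so `r ∈ R Y` (`emb`), `td y y' ≤ 2 ht < 100 L`, so `r = 1`; `‖y‖ ≥ ht (g,b)` by
`Path.prefix`, hence `Btw 1 (sg σ) y`, `Btw 1 (sg σ') y`, `Btw.unique`. -/
theorem exists_height (h : Γ.SCHyp) : ∃ ht : Γ.Grp × Γ.V → ℕ,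
    (∀ g b σ b', Γ.SEdge b σ b' → ht ((Γ.mkG (sg σ))⁻¹ * g, b') ≠ ht (g, b)) ∧
    ∀ g b σ σ' b' b'', Γ.SEdge b σ b' → Γ.SEdge b σ' b'' →
      (¬ Γ.Deep 5 g b ∨ ¬ Γ.Deep 5 ((Γ.mkG (sg σ))⁻¹ * g) b') →
      ht ((Γ.mkG (sg σ))⁻¹ * g, b') < ht (g, b) → ht ((Γ.mkG (sg σ'))⁻¹ * g, b'') < ht (g, b) →
      σ = σ' := by
  obtain ⟨𝒮, cls, D⟩ := exists_dict h
  obtain ⟨root, hr1, hr2, hr3⟩ := exists_root h
  have hedge : ∀ (g : Γ.Grp) {b σ b'}, Γ.SEdge b σ b' →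
      root ((Γ.mkG (sg σ))⁻¹ * g, b') = root (g, b) := by
    intro g b σ b' he
    refine (hr2 _ _ ⟨1, ?_⟩).symm
    have e : g * ((Γ.mkG (sg σ))⁻¹ * g)⁻¹ = Γ.mkG (sg σ) := by group
    simp only [e]
    exact he.path.map Γ.mkG
  let ht : Γ.Grp × Γ.V → ℕ := fun p =>
    sInf {m | Γ.Path Γ.gl p.2 (p.1 * (root p).1⁻¹) (root p).2 m}
  have hmem : ∀ p, Γ.Path Γ.gl p.2 (p.1 * (root p).1⁻¹) (root p).2 (ht p) := fun p =>
    Nat.sInf_mem (s := {m | Γ.Path Γ.gl p.2 (p.1 * (root p).1⁻¹) (root p).2 m}) (hr1 p)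
  have hle : ∀ p m, Γ.Path Γ.gl p.2 (p.1 * (root p).1⁻¹) (root p).2 m → ht p ≤ m :=
    fun p m hm => Nat.sInf_le hm
  have hlift : ∀ (g : Γ.Grp) {b σ b'}, Γ.SEdge b σ b' → ∃ u,
      u.norm ≤ ht ((Γ.mkG (sg σ))⁻¹ * g, b') ∧ Γ.mkG (sg σ * u) = g * (root (g, b)).1⁻¹ ∧
      Γ.Path Γ.fl b (sg σ * u) (root (g, b)).2 (1 + ht ((Γ.mkG (sg σ))⁻¹ * g, b')) := by
    intro g b σ b' he
    have h1 := hmem ((Γ.mkG (sg σ))⁻¹ * g, b')
    rw [hedge g he] at h1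
    obtain ⟨u, hu, h2⟩ := Path.lift (κ := Γ.fl) Γ.mkG h1
    refine ⟨u, h2.norm_le.1, ?_, he.path.trans h2⟩
    rw [map_mul, hu]
    group
  refine ⟨ht, fun g b σ b' he e => ?_, fun g b σ σ' b' b'' he he' hnd hlt hlt' => ?_⟩
  · obtain ⟨u, -, -, h1⟩ := hlift g he
    have a1 := h1.parity
    have a2 := (hmem (g, b)).parity
    have a3 := a1.symm.trans a2
    rw [e] at a3
    omega
  · obtain ⟨u, hu1, hu2, hu3⟩ := hlift g he
    obtain ⟨u', hu1', hu2', hu3'⟩ := hlift g he'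
    have hlow : ∀ y m, Γ.mkG y = g * (root (g, b)).1⁻¹ → Γ.Path Γ.fl b y (root (g, b)).2 m →
        ht (g, b) ≤ y.norm := by
      intro y m hy hm
      refine hle (g, b) _ ?_
      simp only
      rw [← hy]
      exact hm.short.map Γ.mkG
    have b1 := hlow _ _ hu2 hu3
    have b1' := hlow _ _ hu2' hu3'
    have b2 := FreeGroup.norm_mul_le (sg σ) u
    have b2' := FreeGroup.norm_mul_le (sg σ') u'
    rw [norm_sg] at b2 b2'
    have hbd : (ht (g, b) : ℝ) ≤ 8 * Γ.L (root (g, b)).2 + 1 := by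
      rcases hnd with hnd | hnd
      · obtain ⟨m, hm1, hm2⟩ := hr3 (g, b) hnd
        have : (ht (g, b) : ℝ) ≤ m := by exact_mod_cast hle _ _ hm2
        linarith
      · obtain ⟨m, hm1, hm2⟩ := hr3 (_, b') hnd
        have h1 := hle _ _ hm2
        rw [hedge g he] at hm1
        have : (ht (g, b) : ℝ) ≤ m + 1 := by
          have : ht (g, b) ≤ m + 1 := by omega
          exact_mod_cast this
        linarith
    obtain ⟨r, hr, e⟩ := D.mkG_eq (hu2.trans hu2'.symm)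
    have hy := D.mem_one.2 ⟨_, _, hu3⟩
    have hrR := 𝒮.emb hy hr (by rw [← e]; exact D.mem_one.2 ⟨_, _, hu3'⟩)
    have hr1 : r = 1 := by
      by_contra hne
      have c1 := 𝒮.girth _ r _ hrR hne hy
      rw [← e, D.eq_one hu3, D.L_cls] at c1
      have c2 := td_triangle (sg σ * u) 1 (sg σ' * u')
      rw [td_comm _ 1, td_one, td_one] at c2
      have c3 : (td (sg σ * u) (sg σ' * u') : ℝ) ≤ 2 * ht (g, b) := by
        have : td (sg σ * u) (sg σ' * u') ≤ 2 * ht (g, b) := by omega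
        exact_mod_cast this
      have c4 := h.one_le (root (g, b)).2
      linarith
    rw [hr1, one_mul] at e
    have d1 : Btw 1 (sg σ) (sg σ * u) := by
      unfold Btw
      rw [td_one, td_one, norm_sg]
      unfold td
      rw [inv_mul_cancel_left]
      omega
    have d2 : Btw 1 (sg σ') (sg σ' * u') := by
      unfold Btw
      rw [td_one, td_one, norm_sg]
      unfold td
      rw [inv_mul_cancel_left]
      omega
    rw [e] at d2
    exact sg_injective (d1.unique d2 (by rw [td_one, td_one, norm_sg, norm_sg]))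

/-- torsion-freeness passes from `A` to the group: `SC.torsionFree`; if `g` fixes `cls y b`, lift the closed path with label
`y⁻¹ g y` to a voltage `α`; its `p`-th power has voltage `α ^ p = 1` by `Path.det` -/
theorem torsionFree (h : Γ.SCHyp) (hA : ∀ a : A, IsOfFinOrder a → a = 1) :
    ∀ g : Γ.Grp, IsOfFinOrder g → g = 1 := by
  obtain ⟨𝒮, cls, D⟩ := exists_dict h
  intro g hg
  obtain ⟨p, hp, hgp⟩ := isOfFinOrder_iff_pow_eq_one.1 hg
  obtain ⟨w, rfl, -⟩ := exists_len g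
  rw [← map_pow, mkG_eq_one, ← D.N_eq] at hgp
  rw [mkG_eq_one, ← D.N_eq]
  refine 𝒮.torsionFree (fun Y x q hY hq hxq => ?_) hp hgp
  obtain ⟨y, hy⟩ := 𝒮.ne Y
  obtain ⟨b, rfl⟩ := D.surj Y y hy
  rw [D.sm_cls] at hY
  obtain ⟨m, hm⟩ := (D.eq_iff _ _ _ _).1 hY.symm
  obtain ⟨⟨k, α⟩, hk, h2⟩ := Path.lift (κ := fun u t => (Γ.fl u t, Γ.a u t))
    (MonoidHom.fst _ _) hm
  have hk' : k = y⁻¹ * (x * y) := hk
  subst hk'
  have hpow : ∀ n : ℕ, ∃ m', Γ.Path (fun u t => (Γ.fl u t, Γ.a u t)) b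
      ((y⁻¹ * x ^ n * y, α ^ n) : FreeGroup (Let F) × A) b m' := by
    intro n
    induction n with
    | zero => exact ⟨0, by rw [pow_zero, pow_zero, mul_one, inv_mul_cancel]; exact Path.refl _⟩
    | succ n ih =>
      obtain ⟨m', hm'⟩ := ih
      refine ⟨m' + m, ?_⟩
      have := hm'.trans h2
      have e : y⁻¹ * x ^ n * y * (y⁻¹ * (x * y)) = y⁻¹ * x ^ (n + 1) * y := by group
      rwa [Prod.mk_mul_mk, e, ← pow_succ] at this
  obtain ⟨m₁, h3⟩ := hpow q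
  obtain ⟨m₂, h4⟩ := (D.R_iff _ _ _).1 hxq
  have hα : α = 1 := hA α (isOfFinOrder_iff_pow_eq_one.2 ⟨q, hq, (h3.det h4).2⟩)
  subst hα
  refine (D.R_iff _ _ _).2 ⟨m, ?_⟩
  rw [mul_assoc]
  exact h2

end BG
end Crest.Agent.R129
end

-- ▼ part PVb/R129/SDefs

/-!
# Part S definitions (owner helper84).  DO NOT EDIT.

`R129S.*` (general Hilbert space lemmas, `lam`, `rho`, `redAlg`, `up`) is definitionally compatible
with `R129.*`: `mat T j i = R129S.ent T j i`, `dl = R129S.dl`, `Gap = R129S.Gap` all hold by `rfl`.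
-/

set_option autoImplicit false
open scoped BigOperators

namespace Crest.Agent.R129

/-- `T₂` is block diagonal for `c` and every block is a copy (through `φ`) of a reducing block of
`T₁`. -/
structure LocIso {I J C : Type} (c : I → C) (φ : I → J) (T₂ : L2 I →L[ℂ] L2 I)
    (T₁ : L2 J →L[ℂ] L2 J) : Prop where
  blk : ∀ p q, mat T₂ p q ≠ 0 → c p = c q
  eq : ∀ p q, c p = c q → mat T₂ p q = mat T₁ (φ p) (φ q)
  row : ∀ p q', mat T₁ (φ p) q' ≠ 0 → ∃ q, c q = c p ∧ φ q = q'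
  col : ∀ q p', mat T₁ p' (φ q) ≠ 0 → ∃ p, c p = c q ∧ φ p = p'

namespace BG
variable {F A : Type} (Γ : BG F A)

/-- the generators of the group -/
def gen [Group A] (s : Let F) : Γ.Grp := Γ.mkG (FreeGroup.of s)

open Classical in
/-- the part of `Dop` made of the entries `(g, s)` with `P s g` -/
noncomputable def Dp [Group A] [Fintype F] (P : Let F → Γ.Grp → Prop) :
    L2 Γ.Grp →L[ℂ] L2 (Γ.Grp × F) :=
  kop fun p h => ∑ s : Let F,
    if P s p.1 ∧ s.2.1 = p.2 ∧ Γ.gen s = p.1 * h⁻¹ then ph s.2.2 else 0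

/-- `T = D* D` -/
noncomputable def Top [Group A] [Fintype F] : L2 Γ.Grp →L[ℂ] L2 Γ.Grp := adj Γ.Dop ∘L Γ.Dop

/-- the edge `(g, s)` of the Cayley graph is a deep edge of a copy -/
def IsB [Group A] [DecidableEq F] (s : Let F) (g : Γ.Grp) : Prop :=
  ∃ b b', Γ.SEdge b (s, true) b' ∧ Γ.Deep 5 g b ∧ Γ.Deep 5 ((Γ.gen s)⁻¹ * g) b'

/-- deep vertices of the cover `Grp × V` -/
def Yset [Group A] [DecidableEq F] : Set (Γ.Grp × Γ.V) := {p | Γ.Deep 5 p.1 p.2}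

/-- the cover operator compressed to the deep vertices -/
noncomputable def Bdp [Group A] [DecidableEq F] [Fintype F] :
    L2 (Γ.Grp × Γ.V) →L[ℂ] L2 (Γ.Grp × Γ.V) := prj Γ.Yset ∘L Γ.Bop Γ.gl ∘L prj Γ.Yset

open Classical in
/-- the partial isometry `δ_{(g,b)} ↦ δ_g` on deep vertices -/
noncomputable def U0 [Group A] [DecidableEq F] : L2 (Γ.Grp × Γ.V) →L[ℂ] L2 Γ.Grp :=
  kop fun g p => if g = p.1 ∧ p ∈ Γ.Yset then 1 else 0

/-- the component of a vertex of the cover -/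
def comp {K : Type} [Group K] (κ : Γ.V → F → K) (p : K × Γ.V) : Set (K × Γ.V) :=
  {q | Γ.Conn κ p q}

/-- `φ` maps every component of the `κ₂`-cover isomorphically onto a component of the
`κ₁`-cover -/
structure CovIso {K₁ K₂ : Type} [Group K₁] [Group K₂] (κ₂ : Γ.V → F → K₂) (κ₁ : Γ.V → F → K₁)
    (φ : K₂ × Γ.V → K₁ × Γ.V) : Prop where
  snd : ∀ p, (φ p).2 = p.2
  inj : ∀ p q, Γ.Conn κ₂ p q → φ p = φ q → p = q
  conn : ∀ p q, Γ.Conn κ₂ p q → Γ.Conn κ₁ (φ p) (φ q)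
  lift : ∀ p q', Γ.Conn κ₁ (φ p) q' → ∃ q, Γ.Conn κ₂ p q ∧ φ q = q'
  edge : ∀ p q t, Γ.Conn κ₂ p q → Γ.nb p.2 t = some q.2 →
    (κ₂ p.2 t = p.1 * q.1⁻¹ ↔ κ₁ p.2 t = (φ p).1 * (φ q).1⁻¹)

/-- the node structure of `partS73` -/
structure NodeHyp (node : ℤ → Finset Γ.V) (on : ℤ → Prop) : Prop where
  even : ∀ i, on i → Even i
  ne : ∀ i, (node i).Nonempty
  disj : ∀ i j, i ≠ j → Disjoint (node i) (node j)
  typ : ∀ i, ∀ v ∈ node i, Γ.isH v ↔ Even i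
  edge : ∀ u t w, Γ.nb u t = some w → ∃ i, on i ∧ u ∈ node i ∧ w ∈ node (i + 1)

/-- number of non-`H` vertices in the component -/
noncomputable def csize {K : Type} [Group K] (κ : Γ.V → F → K) (q : K × Γ.V) : ℕ :=
  Set.ncard {r | Γ.Conn κ q r ∧ ¬ Γ.isH r.2}

/-- `q` is a non-`H` vertex of a giant component -/
def Big {K : Type} [Group K] (κ : Γ.V → F → K) (node : ℤ → Finset Γ.V) (on : ℤ → Prop)
    (M : ℤ → ℕ) (q : K × Γ.V) : Prop :=
  ∃ i, on i ∧ q.2 ∈ node (i + 1) ∧ M i < 2 * Γ.csize κ q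

open Classical in
/-- averaging over giant components -/
noncomputable def Pav {K : Type} [Group K] (κ : Γ.V → F → K) (node : ℤ → Finset Γ.V)
    (on : ℤ → Prop) (M : ℤ → ℕ) : L2 (K × Γ.V) →L[ℂ] L2 (K × Γ.V) :=
  kop fun p q => if Γ.Conn κ p q ∧ Γ.Big κ node on M p ∧ Γ.Big κ node on M q
    then ((Γ.csize κ q : ℂ))⁻¹ else 0

open Classical in
/-- the equivariant map `J ∘ Pav`, `J δ_{(g,v)} = δ_g` -/
noncomputable def Uav [Group A] (node : ℤ → Finset Γ.V) (on : ℤ → Prop) (M : ℤ → ℕ) :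
    L2 (Γ.Grp × Γ.V) →L[ℂ] L2 Γ.Grp :=
  kop fun g q => if Γ.Big Γ.gl node on M q ∧ ∃ v, ¬ Γ.isH v ∧ Γ.Conn Γ.gl (g, v) q
    then ((Γ.csize Γ.gl q : ℂ))⁻¹ else 0

end BG

/-- size of the block `Ai i × node (i+1)` -/
noncomputable def blkSize {V A : Type} [Group A] (node : ℤ → Finset V) (Ai : ℤ → Subgroup A)
    (i : ℤ) : ℕ := Nat.card (Ai i) * (node (i + 1)).card

end Crest.Agent.R129
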