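import Crest.Agent.PVb.R129S.Gap2_Mg
import Crest.Agent.PVb.R129.SForest_Mg
import Crest.Agent.PVb.R129.STrans
import Crest.Agent.PVb.R129.SDefs
import Crest.Agent.PVb.R129.SAvg

-- ▼ part PVb/R129/S74
section

/-! # Part S for the torsion-free statement -/

set_option autoImplicit false
open scoped BigOperators InnerProductSpace
open Crest.OperatorAlgebra

namespace Crest.Agent.R129
namespace BG
variable {F A : Type} [Fintype F] [DecidableEq F] [Group A] {Γ : BG F A}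

theorem norm_Bdp_le_card : ‖Γ.Bdp‖ ≤ Fintype.card F := by
  have h1 := norm_prj_le Γ.Yset
  have h2 := Γ.norm_Bop_le Γ.gl
  calc ‖Γ.Bdp‖ ≤ ‖prj Γ.Yset‖ * (‖Γ.Bop Γ.gl‖ * ‖prj Γ.Yset‖) :=
        (ContinuousLinearMap.opNorm_comp_le _ _).trans
          (mul_le_mul_of_nonneg_left (ContinuousLinearMap.opNorm_comp_le _ _) (norm_nonneg _))
    _ ≤ 1 * (Fintype.card F * 1) := by gcongr
    _ = _ := by ring

theorem norm_BB_sub (h : Γ.SCHyp) :
    ‖adj Γ.Bdp ∘L Γ.Bdp - adj (Γ.Bop Γ.gl) ∘L Γ.Bop Γ.gl‖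
      ≤ 4 * (Fintype.card F * Real.sqrt (Fintype.card F)) := by
  have := R129S.norm_adjoint_comp_sub Γ.Bdp (Γ.Bop Γ.gl) norm_Bdp_le_card (Γ.norm_Bop_le Γ.gl)
    (δ := 2 * Real.sqrt (Fintype.card F)) (by rw [norm_sub_rev]; exact norm_Bop_sub_Bdp h)
  linarith

end BG

theorem partS74' : ∃ C₀ : ℝ, 0 < C₀ ∧ ∀ (F A : Type) [Fintype F] [DecidableEq F] [Nonempty F]
    [Group A] (Γ : BG F A), Γ.SCHyp → (∀ a : A, IsOfFinOrder a → a = 1) → ∀ γ r : ℝ,
    C₀ * (Fintype.card F * Real.sqrt (Fintype.card F)) ≤ r → r ≤ γ →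
    Gap (adj (Γ.Bop Γ.a) ∘L Γ.Bop Γ.a) γ r → γ - r / 2 ≤ ‖Γ.Bop Γ.a‖ ^ 2 →
    ∃ (G : Type) (_ : Group G), Group.FG G ∧ (∀ g : G, IsOfFinOrder g → g = 1) ∧
      ∃ e ∈ reducedGroupCStar G, e * e = e ∧ star e = e ∧
        0 < (canonicalTrace G e).re ∧ (canonicalTrace G e).re < 1 / 2 := by
  refine ⟨200, by norm_num, ?_⟩
  intro F A _ _ _ _ Γ h hA γ r hr hγ hg hn
  refine ⟨Γ.Grp, inferInstance, Γ.fg_Grp, BG.torsionFree h hA, ?_⟩
  set n : ℝ := (Fintype.card F : ℝ) with hn_def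
  have hn1 : 1 ≤ n := by rw [hn_def]; exact_mod_cast Fintype.card_pos
  have hs1 : 1 ≤ Real.sqrt n := Real.one_le_sqrt.2 hn1
  set w : ℝ := n * Real.sqrt n with hw
  have hw1 : 1 ≤ w := by rw [hw]; nlinarith
  obtain ⟨⟨φ, hφ⟩, ψ, hψ⟩ := BG.exists_covIso_gl h
  -- the group cover
  have g1 : Gap (adj (Γ.Bop Γ.gl) ∘L Γ.Bop Γ.gl) γ r :=
    (hφ.locIso_Bop.adj'.comp hφ.inj_comp hφ.locIso_Bop).gap hφ.inj_comp hg
  have n1 : ‖Γ.Bop Γ.a‖ ≤ ‖Γ.Bop Γ.gl‖ := hψ.locIso_Bop.norm_le hψ.inj_comp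
  have e1 := BG.norm_BB_sub h
  have g2 : Gap (adj Γ.Bdp ∘L Γ.Bdp) γ (r - 4 * w) := g1.perturb (by rw [norm_sub_rev]; exact e1)
  have g3 := BG.gap_B h g2 (by linarith)
  set B := Γ.Dp Γ.IsB with hB
  set c : ℝ := 4 * n ^ 2 with hc
  have e2 : ‖Γ.Top - (c : ℂ) • (1 : L2 Γ.Grp →L[ℂ] L2 Γ.Grp) - adj B ∘L B‖ ≤ 30 * w := BG.split h
  have g4 : R129S.Gap Γ.Top (γ + c) (r - 4 * w - 30 * w) := by
    refine (R129S.Gap.add_const g3 c).perturb ?_
    convert e2 using 2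
    abel
  -- quadratic form of `Top`
  have hq : ∀ ξ : L2 Γ.Grp, |(⟪ξ, Γ.Top ξ⟫_ℂ).re - c * ‖ξ‖ ^ 2 - ‖B ξ‖ ^ 2| ≤ 30 * w * ‖ξ‖ ^ 2 := by
    intro ξ
    have h1 := R129S.abs_re_inner_le
      (Γ.Top - (c : ℂ) • (1 : L2 Γ.Grp →L[ℂ] L2 Γ.Grp) - adj B ∘L B) ξ
    rw [sub_apply, sub_apply, inner_sub_right, inner_sub_right, Complex.sub_re, Complex.sub_re,
      R129S.re_inner_adjoint, smul_apply, one_apply_eq_self, inner_smul_right,
      Complex.re_ofReal_mul, R129S.re_inner_self] at h1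
    exact h1.trans (mul_le_mul_of_nonneg_right e2 (sq_nonneg _))
  -- the norm of `B`
  have n2 : γ - r / 2 - 4 * w ≤ ‖B‖ ^ 2 := by
    have h1 : ‖Γ.Bop Γ.gl‖ ^ 2 ≤ ‖Γ.Bdp‖ ^ 2 + 4 * w := by
      rw [sq, sq, ← ContinuousLinearMap.norm_adjoint_comp_self,
        ← ContinuousLinearMap.norm_adjoint_comp_self]
      have := norm_sub_norm_le (adj (Γ.Bop Γ.gl) ∘L Γ.Bop Γ.gl) (adj Γ.Bdp ∘L Γ.Bdp)
      rw [norm_sub_rev] at this
      linarith
    have h2 := pow_le_pow_left₀ (norm_nonneg _) n1 2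
    have h3 := pow_le_pow_left₀ (norm_nonneg _) (BG.norm_Bdp_le h) 2
    linarith
  obtain ⟨ξ, hξ⟩ := R129S.exists_lt_normSq B (c := γ - r / 2 - 5 * w) (by linarith) (by linarith)
  refine R129S.exists_proj_markov Γ.Top_mem Γ.Top_selfAdjoint (a := c - 30 * w) (ξ := ξ)
    (by linarith) g4 ?_ (fun η => ?_) ?_
  · have h1 := (abs_le.1 (hq ξ)).1
    have h2 : 0 ≤ (r / 2 - 69 * w) * ‖ξ‖ ^ 2 := mul_nonneg (by linarith) (sq_nonneg _)
    nlinarith
  · have h1 := (abs_le.1 (hq η)).1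
    nlinarith [sq_nonneg ‖B η‖]
  · have h1 : R129S.ent Γ.Top 1 1 = (c : ℂ) := Γ.mat_Top_one h
    rw [h1, Complex.ofReal_re]
    linarith

end Crest.Agent.R129
end

-- ▼ part PVb/R129/SX
section

/-!
# The model operator `X = W Q W*` for uniform voltages (task R129/SX).  Statements frozen.
-/

set_option autoImplicit false
open scoped BigOperators

namespace Crest.Agent.R129

theorem sx_row {I J K : Type} (S : L2 J →L[ℂ] L2 K) (T : L2 I →L[ℂ] L2 J) (k : K) (i : I) (j0 : J)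
    (h : ∀ j, j ≠ j0 → mat S k j = 0) : mat (S ∘L T) k i = mat S k j0 * mat T j0 i :=
  (hasSum_mat_comp S T k i).unique (hasSum_single j0 fun j hj => by rw [h j hj, zero_mul])

theorem sx_col {I J K : Type} (S : L2 J →L[ℂ] L2 K) (T : L2 I →L[ℂ] L2 J) (k : K) (i : I) (j0 : J)
    (h : ∀ j, j ≠ j0 → mat T j i = 0) : mat (S ∘L T) k i = mat S k j0 * mat T j0 i :=
  (hasSum_mat_comp S T k i).unique (hasSum_single j0 fun j hj => by rw [h j hj, mul_zero])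

theorem sx_row0 {I J K : Type} (S : L2 J →L[ℂ] L2 K) (T : L2 I →L[ℂ] L2 J) (k : K) (i : I)
    (h : ∀ j, mat S k j = 0) : mat (S ∘L T) k i = 0 :=
  (hasSum_mat_comp S T k i).unique (by simp only [h, zero_mul]; exact hasSum_zero)

theorem sx_col0 {I J K : Type} (S : L2 J →L[ℂ] L2 K) (T : L2 I →L[ℂ] L2 J) (k : K) (i : I)
    (h : ∀ j, mat T j i = 0) : mat (S ∘L T) k i = 0 :=
  (hasSum_mat_comp S T k i).unique (by simp only [h, mul_zero]; exact hasSum_zero)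

open Classical in
theorem sx_matQ {A : Type} [Group A] {on : ℤ → Prop} {μ : ℤ → (A × ZMod 4) →₀ ℝ}
    {Ai : ℤ → Subgroup A} (he : ∀ i, on i → Even i) (hμ : ∀ i, IsLaw (μ i))
    (hq : ∀ i, on i → ∀ x, qco (μ i) x = if x ∈ Ai i then ((Nat.card (Ai i) : ℂ))⁻¹ else 0)
    (p q : A × ℤ) : mat (Qop μ on) p q =
      if on p.2 ∧ q.2 = p.2 + 1 ∧ p.1 * q.1⁻¹ ∈ Ai p.2 then ((Nat.card (Ai p.2) : ℂ))⁻¹ else 0 := by
  rw [mat_Qop hμ]
  by_cases hp : Even p.2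
  · have h2 : ¬ on (p.2 - 1) := fun h => by
      have := he _ h
      rw [Int.even_sub_one] at this
      exact this hp
    rw [if_pos hp, if_neg (fun h : q.2 = p.2 - 1 ∧ on (p.2 - 1) => h2 h.2), add_zero]
    by_cases h1 : q.2 = p.2 + 1 ∧ on p.2
    · rw [if_pos h1, hq _ h1.2]
      by_cases h3 : p.1 * q.1⁻¹ ∈ Ai p.2
      · rw [if_pos h3, if_pos ⟨h1.2, h1.1, h3⟩]
      · rw [if_neg h3, if_neg fun h => h3 h.2.2]
    · rw [if_neg h1, if_neg fun h => h1 ⟨h.2.1, h.1⟩]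
  · rw [if_neg hp, if_neg fun h => hp (he _ h.1)]

open Classical in
theorem sx_matQQ {A : Type} [Group A] {on : ℤ → Prop} {μ : ℤ → (A × ZMod 4) →₀ ℝ}
    {Ai : ℤ → Subgroup A} (he : ∀ i, on i → Even i) (hμ : ∀ i, IsLaw (μ i))
    (hf : ∀ i, on i → Finite (Ai i))
    (hq : ∀ i, on i → ∀ x, qco (μ i) x = if x ∈ Ai i then ((Nat.card (Ai i) : ℂ))⁻¹ else 0)
    (a : A) (i : ℤ) (q : A × ℤ) : mat (adj (Qop μ on) ∘L Qop μ on) (a, i + 1) q =
      if on i ∧ q.2 = i + 1 ∧ a * q.1⁻¹ ∈ Ai i then ((Nat.card (Ai i) : ℂ))⁻¹ else 0 := by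
  have h := hasSum_mat_comp (adj (Qop μ on)) (Qop μ on) (a, i + 1) q
  simp only [mat_adj, sx_matQ he hμ hq] at h
  refine h.unique ?_
  by_cases hc : on i ∧ q.2 = i + 1 ∧ a * q.1⁻¹ ∈ Ai i
  · rw [if_pos hc]
    obtain ⟨hi, hq2, ha⟩ := hc
    haveI := hf i hi
    haveI := Fintype.ofFinite (Ai i)
    have hc0 : (Nat.card (Ai i) : ℂ) ≠ 0 := by exact_mod_cast Nat.card_pos.ne'
    set s : Finset (A × ℤ) := Finset.univ.image fun x : Ai i => ((x : A) * a, i) with hs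
    have hinj : Function.Injective fun x : Ai i => (((x : A) * a, i) : A × ℤ) := by
      intro x y hxy
      exact Subtype.ext (mul_right_cancel (Prod.ext_iff.1 hxy).1)
    have hmem : ∀ r : A × ℤ, r ∈ s ↔ r.2 = i ∧ r.1 * a⁻¹ ∈ Ai i := by
      intro r
      rw [hs, Finset.mem_image]
      constructor
      · rintro ⟨x, -, rfl⟩
        exact ⟨rfl, by simp⟩
      · rintro ⟨h1, h2⟩
        exact ⟨⟨_, h2⟩, Finset.mem_univ _, Prod.ext (by simp) h1.symm⟩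
    have e : ((Nat.card (Ai i) : ℂ))⁻¹ =
        ∑ _r ∈ s, ((Nat.card (Ai i) : ℂ))⁻¹ * ((Nat.card (Ai i) : ℂ))⁻¹ := by
      rw [Finset.sum_const, hs, Finset.card_image_of_injective _ hinj, Finset.card_univ,
        ← Nat.card_eq_fintype_card, nsmul_eq_mul]
      field_simp
    have h2 : HasSum (fun r : A × ℤ => if r ∈ s then
        ((Nat.card (Ai i) : ℂ))⁻¹ * ((Nat.card (Ai i) : ℂ))⁻¹ else 0) (∑ r ∈ s, if r ∈ s then
        ((Nat.card (Ai i) : ℂ))⁻¹ * ((Nat.card (Ai i) : ℂ))⁻¹ else 0) :=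
      hasSum_sum_of_ne_finset_zero fun p hp => if_neg hp
    rw [Finset.sum_congr rfl fun p hp => if_pos hp, ← e] at h2
    convert h2 using 2 with r
    obtain ⟨b, j⟩ := r
    by_cases hr : (b, j) ∈ s
    · rw [if_pos hr]
      obtain ⟨h1, h3⟩ := (hmem _).1 hr
      simp only at h1 h3
      subst h1
      have h4 : b * q.1⁻¹ ∈ Ai j := by
        have := (Ai j).mul_mem h3 ha
        rwa [mul_assoc, inv_mul_cancel_left] at this
      rw [if_pos ⟨hi, rfl, h3⟩, if_pos ⟨hi, hq2, h4⟩]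
      simp
    · rw [if_neg hr, if_neg, map_zero, zero_mul]
      rintro ⟨-, h1, h3⟩
      have h5 : j = i := by simp only at h1; omega
      subst h5
      exact hr ((hmem _).2 ⟨rfl, h3⟩)
  · rw [if_neg hc]
    convert hasSum_zero using 2 with r
    obtain ⟨b, j⟩ := r
    split_ifs with h1 h2
    · exfalso
      have h5 : j = i := by have := h1.2.1; simp only at this; omega
      subst h5
      refine hc ⟨h1.1, h2.2.1, ?_⟩
      have := (Ai j).mul_mem ((Ai j).inv_mem h1.2.2) h2.2.2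
      simpa [mul_assoc] using this
    · simp
    · simp
    · simp

namespace BG
variable {F A : Type} [Group A] {Γ : BG F A} {node : ℤ → Finset Γ.V} {on : ℤ → Prop}
  {μ : ℤ → (A × ZMod 4) →₀ ℝ} {Ai : ℤ → Subgroup A}

open Classical in
/-- `X* X = W (Q* Q) W*` by `adj_Wop_comp`.  Since `on i → Even i`,
`mat Q (a,i) (a',j) = if on i ∧ j = i + 1 ∧ a * a'⁻¹ ∈ Ai i then |Ai i|⁻¹ else 0` (`mat_Qop`), hence
`mat (Q* Q) (a,j) (a',j') = if on (j-1) ∧ j' = j ∧ a * a'⁻¹ ∈ Ai (j-1) then |Ai (j-1)|⁻¹ else 0`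
(the sum runs over the coset `Ai (j-1) · a`).  For every operator `Z` on `L2 (A × ℤ)`:
`mat (W Z W*) (a,u) (a',u') = mat Z (a,j) (a',j') / (√|node j| √|node j'|)` if `u ∈ node j`,
`u' ∈ node j'`, and `0` if `u` or `u'` lies in no node (`mat_Wop`, `hasSum_mat_comp`). -/
theorem mat_XX (hN : Γ.NodeHyp node on) (hμ : ∀ i, IsLaw (μ i)) (hf : ∀ i, on i → Finite (Ai i))
    (hq : ∀ i, on i → ∀ x, qco (μ i) x = if x ∈ Ai i then ((Nat.card (Ai i) : ℂ))⁻¹ else 0)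
    (p q : A × Γ.V) :
    (∀ i, on i → p.2 ∈ node (i + 1) →
      mat (adj (Γ.Wop A node ∘L Qop μ on ∘L adj (Γ.Wop A node)) ∘L
        (Γ.Wop A node ∘L Qop μ on ∘L adj (Γ.Wop A node))) p q =
      if q.2 ∈ node (i + 1) ∧ p.1 * q.1⁻¹ ∈ Ai i then ((blkSize node Ai i : ℂ))⁻¹ else 0) ∧
    ((∀ i, on i → p.2 ∉ node (i + 1)) →
      mat (adj (Γ.Wop A node ∘L Qop μ on ∘L adj (Γ.Wop A node)) ∘L
        (Γ.Wop A node ∘L Qop μ on ∘L adj (Γ.Wop A node))) p q = 0) := by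
  set W := Γ.Wop A node with hW
  set Q := Qop μ on with hQ
  have hWW : adj W ∘L W = 1 := Γ.adj_Wop_comp A node hN.ne hN.disj
  have e : adj (W ∘L Q ∘L adj W) ∘L (W ∘L Q ∘L adj W) = W ∘L ((adj Q ∘L Q) ∘L adj W) := by
    have hWW' : ∀ η, adj W (W η) = η := fun η => by
      have := congrArg (fun S : L2 (A × ℤ) →L[ℂ] L2 (A × ℤ) => S η) hWW
      simpa using this
    ext1 ξ
    simp only [adj, ContinuousLinearMap.adjoint_comp, ContinuousLinearMap.adjoint_adjoint,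
      ContinuousLinearMap.comp_apply]
    rw [hWW']
  rw [e]
  have hmW := Γ.mat_Wop A node hN.disj
  have hrow : ∀ (p : A × Γ.V) j, p.2 ∈ node j → ∀ r, r ≠ (p.1, j) → mat W p r = 0 := by
    intro p j hj r hr
    rw [hW, hmW, if_neg]
    rintro ⟨h1, h2⟩
    refine hr (Prod.ext h1.symm ?_)
    by_contra hne
    exact Finset.disjoint_left.1 (hN.disj _ _ hne) h2 hj
  have hrow0 : ∀ (p : A × Γ.V), (∀ j, p.2 ∉ node j) → ∀ r, mat W p r = 0 := by
    intro p hp r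
    rw [hW, hmW, if_neg fun h => hp _ h.2]
  have hval : ∀ (p : A × Γ.V) j, p.2 ∈ node j →
      mat W p (p.1, j) = (((Real.sqrt (node j).card)⁻¹ : ℝ) : ℂ) := by
    intro p j hj
    rw [hW, hmW, if_pos ⟨rfl, hj⟩]
  refine ⟨fun i hi hp => ?_, fun hp => ?_⟩
  · rw [sx_row _ _ _ _ _ (hrow p _ hp), hval p _ hp]
    by_cases hq' : ∃ j, q.2 ∈ node j
    · obtain ⟨j, hj⟩ := hq'
      rw [sx_col _ _ _ _ (q.1, j) (fun r hr => by rw [mat_adj, hrow q j hj r hr, map_zero]),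
        mat_adj, hval q j hj, hQ, sx_matQQ hN.even hμ hf hq]
      by_cases hc : q.2 ∈ node (i + 1) ∧ p.1 * q.1⁻¹ ∈ Ai i
      · have hji : j = i + 1 := by
          by_contra hne
          exact Finset.disjoint_left.1 (hN.disj _ _ hne) hj hc.1
        subst hji
        rw [if_pos hc, if_pos ⟨hi, rfl, hc.2⟩, Complex.conj_ofReal, mul_left_comm,
          ← Complex.ofReal_mul, ← mul_inv, Real.mul_self_sqrt (Nat.cast_nonneg _), blkSize]
        push_cast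
        rw [mul_inv]
      · rw [if_neg hc, if_neg, zero_mul, mul_zero]
        rintro ⟨-, h1, h2⟩
        simp only at h1 h2
        subst h1
        exact hc ⟨hj, h2⟩
    · push Not at hq'
      rw [sx_col0 _ _ _ _ (fun r => by rw [mat_adj, hrow0 q hq' r, map_zero]), mul_zero,
        if_neg fun h => hq' _ h.1]
  · by_cases hp' : ∃ j, p.2 ∈ node j
    · obtain ⟨j, hj⟩ := hp'
      obtain ⟨i, rfl⟩ : ∃ i, j = i + 1 := ⟨j - 1, by ring⟩
      rw [sx_row _ _ _ _ _ (hrow p _ hj), sx_row0 _ (adj W), mul_zero]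
      intro r
      rw [hQ, sx_matQQ hN.even hμ hf hq, if_neg fun h => hp i h.1 hj]
    · push Not at hp'
      exact sx_row0 _ _ _ _ (hrow0 p hp')

/-- `‖W‖ ≤ 1` from `adj_Wop_comp`, `norm_Qop_le` -/
theorem norm_X_le (hN : Γ.NodeHyp node on) (hμ : ∀ i, IsLaw (μ i)) :
    ‖Γ.Wop A node ∘L Qop μ on ∘L adj (Γ.Wop A node)‖ ≤ 2 := by
  have hW : ‖Γ.Wop A node‖ ≤ 1 :=
    ContinuousLinearMap.opNorm_le_bound _ zero_le_one fun ξ => by
      rw [ker_norm_of_adj_comp _ (Γ.adj_Wop_comp A node hN.ne hN.disj), one_mul]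
  have hW' : ‖adj (Γ.Wop A node)‖ ≤ 1 := by
    rw [adj, LinearIsometryEquiv.norm_map]; exact hW
  have hQ := norm_Qop_le hμ on
  calc _ ≤ ‖Γ.Wop A node‖ * ‖Qop μ on ∘L adj (Γ.Wop A node)‖ := ContinuousLinearMap.opNorm_comp_le _ _
    _ ≤ 1 * (‖Qop μ on‖ * ‖adj (Γ.Wop A node)‖) :=
        mul_le_mul hW (ContinuousLinearMap.opNorm_comp_le _ _) (norm_nonneg _) zero_le_one
    _ ≤ 1 * (2 * 1) := by gcongr
    _ = 2 := by norm_num

end BG

/-- `B* B - l² X* X = (B - l X)* B + l X* (B - l X)` -/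
theorem norm_adj_comp_sub {I J : Type} (B X : L2 I →L[ℂ] L2 J) {l ε : ℝ} (hl : 0 ≤ l)
    (hε : ε ≤ 1) (hX : ‖X‖ ≤ 2) (h : ‖B - (l : ℂ) • X‖ ≤ ε * l) :
    ‖adj B ∘L B - ((l ^ 2 : ℝ) : ℂ) • (adj X ∘L X)‖ ≤ 5 * ε * l ^ 2 := by
  set E := B - (l : ℂ) • X with hE
  have e : adj B ∘L B - ((l ^ 2 : ℝ) : ℂ) • (adj X ∘L X) =
      adj E ∘L B + (l : ℂ) • (adj X ∘L E) := by
    ext1 ξ
    simp only [hE, adj, map_sub, map_smulₛₗ, ContinuousLinearMap.sub_apply,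
      ContinuousLinearMap.add_apply, ContinuousLinearMap.smul_apply, ContinuousLinearMap.comp_apply,
      Complex.conj_ofReal, RingHom.id_apply, smul_sub, smul_smul, Complex.ofReal_pow, sq,
      Complex.ofReal_mul]
    abel
  have h0 : 0 ≤ ε * l := (norm_nonneg _).trans h
  have hB : ‖B‖ ≤ 3 * l := by
    have e2 : B = E + (l : ℂ) • X := by rw [hE]; abel
    have h1 : ‖(l : ℂ) • X‖ ≤ l * 2 := by
      rw [norm_smul, Complex.norm_real, Real.norm_of_nonneg hl]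
      exact mul_le_mul_of_nonneg_left hX hl
    have h2 := norm_add_le E ((l : ℂ) • X)
    rw [← e2] at h2
    nlinarith
  have h1 : ‖adj E ∘L B‖ ≤ ε * l * (3 * l) := by
    refine (ContinuousLinearMap.opNorm_comp_le _ _).trans ?_
    rw [adj, LinearIsometryEquiv.norm_map]
    exact mul_le_mul h hB (norm_nonneg _) h0
  have h2 : ‖(l : ℂ) • (adj X ∘L E)‖ ≤ l * (2 * (ε * l)) := by
    rw [norm_smul, Complex.norm_real, Real.norm_of_nonneg hl]
    refine mul_le_mul_of_nonneg_left ((ContinuousLinearMap.opNorm_comp_le _ _).trans ?_) hl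
    rw [adj, LinearIsometryEquiv.norm_map]
    exact mul_le_mul hX h (norm_nonneg _) zero_le_two
  rw [e]
  refine (norm_add_le _ _).trans ?_
  nlinarith

/-- A finite set with an equivalence relation all of whose saturated subsets are almost empty or
almost everything has a giant class.  Take a saturated `D ⊆ β` of maximal size among those with
`2 |D| ≤ |β|`; then `|D| ≤ 2 η |β|`.  For `x ∈ β \ D` the set `D ∪ class x` has more than half, so its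
complement has at most `2 η |β|` elements. -/
theorem exists_giant {X : Type} [DecidableEq X] (β : Finset X) (hβ : β.Nonempty)
    (r : X → X → Prop) (hr : Equivalence r) {η : ℝ}
    (h : ∀ D : Finset X, D ⊆ β → (∀ x ∈ D, ∀ y ∈ β, r x y → y ∈ D) →
      (D.card : ℝ) * (β \ D).card ≤ η * (β.card : ℝ) ^ 2) :
    ∃ x ∈ β, ∃ C : Finset X, (∀ y, y ∈ C ↔ y ∈ β ∧ r x y) ∧ (1 - 4 * η) * β.card ≤ C.card := by
  classical
  let P : Finset X → Prop := fun D => (∀ x ∈ D, ∀ y ∈ β, r x y → y ∈ D) ∧ 2 * D.card ≤ β.card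
  obtain ⟨D, hD, hmax⟩ := (β.powerset.filter P).exists_max_image Finset.card
    ⟨∅, Finset.mem_filter.2 ⟨Finset.empty_mem_powerset _, by simp [P]⟩⟩
  obtain ⟨hDβ, hsat, hhalf⟩ := Finset.mem_filter.1 hD
  rw [Finset.mem_powerset] at hDβ
  have hβ0 : 0 < β.card := hβ.card_pos
  have hβ0' : (0 : ℝ) < β.card := by exact_mod_cast hβ0
  have hcard : ∀ D : Finset X, D ⊆ β → ((β \ D).card : ℝ) = β.card - D.card := by
    intro D hD
    have := Finset.card_sdiff_add_card_eq_card hD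
    rw [← this]; push_cast; ring
  obtain ⟨x, hxβ, hxD⟩ : ∃ x ∈ β, x ∉ D := by
    by_contra hcon
    push Not at hcon
    have := Finset.card_le_card (show β ⊆ D from hcon)
    omega
  set C := β.filter (r x) with hC
  refine ⟨x, hxβ, C, fun y => Finset.mem_filter, ?_⟩
  have hDC : D ∪ C ⊆ β := Finset.union_subset hDβ (Finset.filter_subset _ _)
  have hsat' : ∀ z ∈ D ∪ C, ∀ y ∈ β, r z y → y ∈ D ∪ C := by
    intro z hz y hy hzy
    rcases Finset.mem_union.1 hz with hz | hz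
    · exact Finset.mem_union_left _ (hsat z hz y hy hzy)
    · exact Finset.mem_union_right _
        (Finset.mem_filter.2 ⟨hy, hr.trans (Finset.mem_filter.1 hz).2 hzy⟩)
  have hlt : D.card < (D ∪ C).card :=
    Finset.card_lt_card ⟨Finset.subset_union_left, fun hsub =>
      hxD (hsub (Finset.mem_union_right _ (Finset.mem_filter.2 ⟨hxβ, hr.refl x⟩)))⟩
  have hbig : β.card < 2 * (D ∪ C).card := by
    by_contra hcon
    have := hmax (D ∪ C) (Finset.mem_filter.2 ⟨Finset.mem_powerset.2 hDC, hsat', by omega⟩)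
    omega
  have h1 := h D hDβ hsat
  have h2 := h (D ∪ C) hDC hsat'
  rw [hcard _ hDβ] at h1
  rw [hcard _ hDC] at h2
  have h3 : (2 : ℝ) * D.card ≤ β.card := by exact_mod_cast hhalf
  have h4 : (β.card : ℝ) < 2 * (D ∪ C).card := by exact_mod_cast hbig
  have h5 : ((D ∪ C).card : ℝ) ≤ D.card + C.card := by exact_mod_cast Finset.card_union_le D C
  have h6 : ((D ∪ C).card : ℝ) ≤ β.card := by exact_mod_cast Finset.card_le_card hDC
  have h7 : (0 : ℝ) ≤ D.card := Nat.cast_nonneg _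
  have h8 : (D.card : ℝ) ≤ 2 * η * β.card := by
    refine le_of_mul_le_mul_right ?_ hβ0'
    nlinarith
  have h9 : (β.card : ℝ) - (D ∪ C).card ≤ 2 * η * β.card := by
    refine le_of_mul_le_mul_right ?_ hβ0'
    nlinarith
  linarith

end Crest.Agent.R129
end

-- ▼ part PVb/R129/SGiant

/-!
# Giant components of the `A`-cover (task R129/SGiant).  Statements frozen.

`PA` is an operator with the matrix of `X* X` (`mat_XX`): averaging over the blocks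
`β(i,a) = {q | q.2 ∈ node (i+1) ∧ a * q.1⁻¹ ∈ Ai i}`, which have `M i = blkSize node Ai i` elements.
Components stay in blocks: if `Conn Γ.a p q`, `p.2 ∈ node i ∪ node (i+1)`, `on i` then
`p.1 * q.1⁻¹ ∈ Ai i` (path induction with `NodeHyp.stay` and `hA`).
-/

set_option autoImplicit false
set_option linter.unusedSectionVars false
open scoped BigOperators

namespace Crest.Agent.R129

theorem sg_coe_sum_dl {I : Type} [DecidableEq I] (s : Finset I) (i : I) :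
    ((∑ q ∈ s, dl q : L2 I) : I → ℂ) i = if i ∈ s then 1 else 0 := by
  rw [lp.coeFn_sum, Finset.sum_apply]
  simp only [dl_apply]
  rw [Finset.sum_ite_eq]

theorem sg_norm_sum_dl {I : Type} (s : Finset I) :
    ‖(∑ q ∈ s, dl q : L2 I)‖ = Real.sqrt s.card := by
  classical
  have h := hasSum_norm_sq (∑ q ∈ s, dl q : L2 I)
  have h2 : HasSum (fun i => ‖((∑ q ∈ s, dl q : L2 I) : I → ℂ) i‖ ^ 2)
      (∑ i ∈ s, ‖((∑ q ∈ s, dl q : L2 I) : I → ℂ) i‖ ^ 2) :=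
    hasSum_sum_of_ne_finset_zero fun i hi => by rw [sg_coe_sum_dl, if_neg hi]; simp
  have h3 : ∑ i ∈ s, ‖((∑ q ∈ s, dl q : L2 I) : I → ℂ) i‖ ^ 2 = s.card := by
    rw [Finset.sum_congr rfl (g := fun _ => (1 : ℝ)) fun i hi => by
      rw [sg_coe_sum_dl, if_pos hi]; simp]
    simp
  rw [← h3, ← h.unique h2, Real.sqrt_sq (norm_nonneg _)]

theorem sg_norm_sum_mat {I J : Type} (T : L2 I →L[ℂ] L2 J) (s : Finset J) (t : Finset I) :
    ‖∑ p ∈ s, ∑ q ∈ t, mat T p q‖ ≤ ‖T‖ * (Real.sqrt s.card * Real.sqrt t.card) := by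
  have e : ∑ p ∈ s, ∑ q ∈ t, mat T p q
      = inner ℂ (∑ p ∈ s, dl p : L2 J) (T (∑ q ∈ t, dl q)) := by
    rw [sum_inner, map_sum]
    refine Finset.sum_congr rfl fun p _ => ?_
    rw [inner_sum]
    refine Finset.sum_congr rfl fun q _ => ?_
    rw [inner_dl]; rfl
  rw [e]
  refine (norm_inner_le_norm _ _).trans ?_
  have h1 := T.le_opNorm (∑ q ∈ t, dl q)
  rw [sg_norm_sum_dl] at h1 ⊢
  calc Real.sqrt s.card * ‖T (∑ q ∈ t, dl q)‖
      ≤ Real.sqrt s.card * (‖T‖ * Real.sqrt t.card) :=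
        mul_le_mul_of_nonneg_left h1 (Real.sqrt_nonneg _)
    _ = _ := by ring

theorem sg_sum_le {I : Type} (f : I → ℂ) (u : Finset I) {c : ℝ} (hc : 0 ≤ c)
    (h1 : ∀ i, f i ≠ 0 → i ∈ u ∧ ‖f i‖ ≤ c) (s : Finset I) :
    ∑ i ∈ s, ‖f i‖ ≤ u.card * c := by
  classical
  have e : ∑ i ∈ s, ‖f i‖ = ∑ i ∈ s ∩ u, ‖f i‖ := by
    symm
    refine Finset.sum_subset Finset.inter_subset_left fun i hi hi' => ?_
    by_contra hne
    exact hi' (Finset.mem_inter.2 ⟨hi, (h1 i fun h0 => hne (by rw [h0, norm_zero])).1⟩)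
  rw [e]
  calc ∑ i ∈ s ∩ u, ‖f i‖ ≤ ∑ _i ∈ s ∩ u, c := Finset.sum_le_sum fun i _ => by
        by_cases h0 : f i = 0
        · rw [h0, norm_zero]; exact hc
        · exact (h1 i h0).2
    _ = (s ∩ u).card * c := by simp
    _ ≤ u.card * c := by
      refine mul_le_mul_of_nonneg_right ?_ hc
      exact_mod_cast Finset.card_le_card Finset.inter_subset_right

theorem sg_coset {A : Type} [Group A] (H : Subgroup A) [Finite H] (a : A) :
    ∃ S : Finset A, (∀ x, x ∈ S ↔ a * x⁻¹ ∈ H) ∧ S.card = Nat.card H := by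
  classical
  have := Fintype.ofFinite H
  refine ⟨Finset.univ.image fun x : H => (x : A)⁻¹ * a, fun x => ?_, ?_⟩
  · rw [Finset.mem_image]
    constructor
    · rintro ⟨y, -, rfl⟩
      have : a * ((y : A)⁻¹ * a)⁻¹ = y := by group
      rw [this]; exact y.2
    · intro hx
      exact ⟨⟨_, hx⟩, Finset.mem_univ _, by simp⟩
  · rw [Finset.card_image_of_injective, Finset.card_univ, Nat.card_eq_fintype_card]
    intro x y hxy
    exact Subtype.ext (inv_injective (mul_right_cancel hxy))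

namespace BG
variable {F A : Type} [Fintype F] [Group A] {Γ : BG F A} {node : ℤ → Finset Γ.V} {on : ℤ → Prop}
  {Ai : ℤ → Subgroup A}

open Classical in
/-- hypotheses of this file -/
structure GiantHyp (Γ : BG F A) (node : ℤ → Finset Γ.V) (on : ℤ → Prop) (Ai : ℤ → Subgroup A)
    (PA : L2 (A × Γ.V) →L[ℂ] L2 (A × Γ.V)) (l δ : ℝ) : Prop where
  hN : Γ.NodeHyp node on
  fin : ∀ i, on i → Finite (Ai i)
  hA : ∀ u t w i, Γ.nb u t = some w → on i → u ∈ node i → Γ.a u t ∈ Ai i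
  m1 : ∀ (p q : A × Γ.V) i, on i → p.2 ∈ node (i + 1) → mat PA p q =
    if q.2 ∈ node (i + 1) ∧ p.1 * q.1⁻¹ ∈ Ai i then ((blkSize node Ai i : ℂ))⁻¹ else 0
  m0 : ∀ p q : A × Γ.V, (∀ i, on i → p.2 ∉ node (i + 1)) → mat PA p q = 0
  lpos : 0 < l
  dpos : 0 ≤ δ
  dle : δ ≤ 1 / 10
  close : ‖adj (Γ.Bop Γ.a) ∘L Γ.Bop Γ.a - ((l ^ 2 : ℝ) : ℂ) • PA‖ ≤ δ * l ^ 2

variable {PA : L2 (A × Γ.V) →L[ℂ] L2 (A × Γ.V)} {l δ : ℝ}

theorem NodeHyp.node_eq (hN : Γ.NodeHyp node on) {v : Γ.V} {i j : ℤ} (hi : v ∈ node i)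
    (hj : v ∈ node j) : i = j := by
  by_contra hne
  exact Finset.disjoint_left.1 (hN.disj i j hne) hi hj

theorem NodeHyp.not_isH (hN : Γ.NodeHyp node on) {v : Γ.V} {i : ℤ} (hi : on i)
    (hv : v ∈ node (i + 1)) : ¬ Γ.isH v := by
  rw [hN.typ _ _ hv, Int.even_add_one, not_not]
  exact hN.even i hi

theorem GiantHyp.path_mem (h : GiantHyp Γ node on Ai PA l δ) {u v : Γ.V} {k : A} {m : ℕ}
    (hm : Γ.Path Γ.a u k v m) {i : ℤ} (hi : on i) (hp : u ∈ node i ∨ u ∈ node (i + 1)) :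
    k ∈ Ai i ∧ (v ∈ node i ∨ v ∈ node (i + 1)) := by
  have hN := h.hN
  have he := hN.even i hi
  induction hm with
  | refl => exact ⟨one_mem _, hp⟩
  | @fwd x w k m t _ hxw ih =>
    obtain ⟨j, hj, hx, hw⟩ := hN.edge _ _ _ hxw
    have hje := hN.even j hj
    have : j = i := by
      rcases ih.2 with h1 | h1
      · exact hN.node_eq hx h1
      · have := hN.node_eq hx h1
        rw [this, Int.even_add_one] at hje
        exact absurd he hje
    subst this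
    exact ⟨mul_mem ih.1 (h.hA _ _ _ _ hxw hj hx), Or.inr hw⟩
  | @bwd x w k m t _ hxw ih =>
    obtain ⟨j, hj, hx, hw⟩ := hN.edge _ _ _ hxw
    have hje := hN.even j hj
    have : j = i := by
      rcases ih.2 with h1 | h1
      · have := hN.node_eq hw h1
        rw [← this, Int.even_add_one] at he
        exact absurd hje he
      · have := hN.node_eq hw h1
        omega
    subst this
    exact ⟨mul_mem ih.1 (inv_mem (h.hA _ _ _ _ hxw hj hx)), Or.inl hx⟩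

theorem GiantHyp.conn_mem (h : GiantHyp Γ node on Ai PA l δ) {p q : A × Γ.V}
    (hc : Γ.Conn Γ.a p q) {i : ℤ} (hi : on i) (hp : p.2 ∈ node i ∨ p.2 ∈ node (i + 1)) :
    p.1 * q.1⁻¹ ∈ Ai i := by
  obtain ⟨m, hm⟩ := hc
  exact (h.path_mem hm hi hp).1

theorem GiantHyp.exists_blk (h : GiantHyp Γ node on Ai PA l δ) {i : ℤ} (hi : on i) (a : A) :
    ∃ β : Finset (A × Γ.V), (∀ q, q ∈ β ↔ q.2 ∈ node (i + 1) ∧ a * q.1⁻¹ ∈ Ai i) ∧
      β.card = blkSize node Ai i := by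
  have := h.fin i hi
  obtain ⟨S, hS, hc⟩ := sg_coset (Ai i) a
  refine ⟨S ×ˢ node (i + 1), fun q => ?_, ?_⟩
  · rw [Finset.mem_product, hS, and_comm]
  · rw [Finset.card_product, hc, blkSize]

theorem GiantHyp.blk_pos (h : GiantHyp Γ node on Ai PA l δ) {i : ℤ} (hi : on i) :
    0 < blkSize node Ai i := by
  have := h.fin i hi
  exact Nat.mul_pos Nat.card_pos (h.hN.ne _).card_pos

/-- the class of `x` inside its block -/
theorem GiantHyp.cls_iff (h : GiantHyp Γ node on Ai PA l δ) {i : ℤ} (hi : on i) {a : A}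
    {β : Finset (A × Γ.V)} (hβ : ∀ q, q ∈ β ↔ q.2 ∈ node (i + 1) ∧ a * q.1⁻¹ ∈ Ai i)
    {x : A × Γ.V} (hx : x ∈ β) (r : A × Γ.V) :
    (Γ.Conn Γ.a x r ∧ ¬ Γ.isH r.2) ↔ (r ∈ β ∧ Γ.Conn Γ.a x r) := by
  have hx' := (hβ x).1 hx
  constructor
  · rintro ⟨hc, hH⟩
    refine ⟨(hβ r).2 ⟨?_, ?_⟩, hc⟩
    · rcases h.hN.stay hc hi (Or.inr hx'.1) with h1 | h1
      · exact absurd ((h.hN.typ _ _ h1).2 (h.hN.even i hi)) hH
      · exact h1
    · have : a * r.1⁻¹ = (a * x.1⁻¹) * (x.1 * r.1⁻¹) := by group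
      rw [this]
      exact mul_mem hx'.2 (h.conn_mem hc hi (Or.inr hx'.1))
  · rintro ⟨hr, hc⟩
    exact ⟨hc, h.hN.not_isH hi ((hβ r).1 hr).1⟩

theorem GiantHyp.csize_eq_card (h : GiantHyp Γ node on Ai PA l δ) {i : ℤ} (hi : on i) {a : A}
    {β : Finset (A × Γ.V)} (hβ : ∀ q, q ∈ β ↔ q.2 ∈ node (i + 1) ∧ a * q.1⁻¹ ∈ Ai i)
    {x : A × Γ.V} (hx : x ∈ β) {C : Finset (A × Γ.V)}
    (hC : ∀ y, y ∈ C ↔ y ∈ β ∧ Γ.Conn Γ.a x y) : Γ.csize Γ.a x = C.card := by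
  unfold csize
  rw [← Set.ncard_coe_finset]
  congr 1
  ext r
  rw [Set.mem_ofPred_eq, h.cls_iff hi hβ hx, Finset.mem_coe, hC]

theorem mat_BB_eq_zero {K : Type} [Group K] {κ : Γ.V → F → K} {p q : K × Γ.V}
    (hc : ¬ Γ.Conn κ p q) : mat (adj (Γ.Bop κ) ∘L Γ.Bop κ) p q = 0 := by
  classical
  have hB : ∀ r x, mat (Γ.Bop κ) r x ≠ 0 → Γ.Conn κ r x := by
    intro r x hrx
    rw [mat_Bop] at hrx
    obtain ⟨t, -, ht⟩ := Finset.exists_ne_zero_of_sum_ne_zero hrx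
    have : Γ.nb r.2 t = some x.2 ∧ κ r.2 t = r.1 * x.1⁻¹ := by
      by_contra hne; exact ht (if_neg hne)
    exact conn_of_edge this.1 this.2
  have h := hasSum_mat_comp (adj (Γ.Bop κ)) (Γ.Bop κ) p q
  have e : (fun r => mat (adj (Γ.Bop κ)) p r * mat (Γ.Bop κ) r q) = fun _ => 0 := by
    funext r
    rw [mat_adj]
    by_cases h1 : mat (Γ.Bop κ) r p = 0
    · rw [h1, map_zero, zero_mul]
    · by_cases h2 : mat (Γ.Bop κ) r q = 0
      · rw [h2, mul_zero]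
      · exact absurd ((hB _ _ h1).symm'.trans' (hB _ _ h2)) hc
  rw [e] at h
  exact h.unique hasSum_zero

/-- Apply `exists_giant` to the block `β` with `r = Conn Γ.a`, `η = δ²`.  For a saturated `D ⊆ β` let
`ξ = ∑ q ∈ D, dl q`, `ζ = ∑ q ∈ β \ D, dl q`.  `mat (B* B) p q = 0` unless `Conn p q`
(`hasSum_mat_comp`, `mat_Bop`, `conn_of_edge`), so `⟨ξ, B* B ζ⟩ = 0`, while
`⟨ξ, PA ζ⟩ = |D| |β \ D| / M`; thus `|D| |β \ D| / M ≤ δ √|D| √|β \ D|`.  The class of `x` in `β` is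
`{r | Conn x r ∧ ¬ isH r.2}` (`stay`, `conn_mem`). -/
theorem GiantHyp.giant (h : GiantHyp Γ node on Ai PA l δ) {i : ℤ} (hi : on i) (a : A) :
    ∃ q : A × Γ.V, q.2 ∈ node (i + 1) ∧ a * q.1⁻¹ ∈ Ai i ∧
      (1 - 4 * δ ^ 2) * blkSize node Ai i ≤ Γ.csize Γ.a q := by
  classical
  obtain ⟨β, hβ, hcard⟩ := h.exists_blk hi a
  have hM := h.blk_pos hi
  have hne : β.Nonempty := Finset.card_pos.1 (by rw [hcard]; exact hM)
  have hr : Equivalence (Γ.Conn Γ.a) := ⟨Conn.refl' _, Conn.symm', Conn.trans'⟩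
  obtain ⟨x, hx, C, hC, hle⟩ := exists_giant β hne (Γ.Conn Γ.a) hr (η := δ ^ 2) (by
    intro D hD hsat
    have h1 := sg_norm_sum_mat
      (adj (Γ.Bop Γ.a) ∘L Γ.Bop Γ.a - ((l ^ 2 : ℝ) : ℂ) • PA) D (β \ D)
    have e : ∀ p ∈ D, ∀ q ∈ β \ D,
        mat (adj (Γ.Bop Γ.a) ∘L Γ.Bop Γ.a - ((l ^ 2 : ℝ) : ℂ) • PA) p q
          = - (((l ^ 2 * (blkSize node Ai i : ℝ)⁻¹ : ℝ)) : ℂ) := by
      intro p hp q hq
      obtain ⟨hq1, hq2⟩ := Finset.mem_sdiff.1 hq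
      have hp' := (hβ p).1 (hD hp)
      have hq' := (hβ q).1 hq1
      have hpq : p.1 * q.1⁻¹ ∈ Ai i := by
        have : p.1 * q.1⁻¹ = (a * p.1⁻¹)⁻¹ * (a * q.1⁻¹) := by group
        rw [this]; exact mul_mem (inv_mem hp'.2) hq'.2
      rw [mat_sub, mat_smul, h.m1 p q i hi hp'.1, if_pos ⟨hq'.1, hpq⟩,
        mat_BB_eq_zero fun hc => hq2 (hsat p hp q hq1 hc)]
      push_cast; ring
    rw [Finset.sum_congr rfl fun p hp => Finset.sum_congr rfl fun q hq => e p hp q hq] at h1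
    simp only [Finset.sum_const, smul_neg, norm_neg, nsmul_eq_mul] at h1
    rw [norm_mul, norm_mul, Complex.norm_natCast, Complex.norm_natCast, Complex.norm_real,
      Real.norm_of_nonneg (by positivity)] at h1
    have hMr : (0 : ℝ) < blkSize node Ai i := by exact_mod_cast hM
    have hl2 : 0 < l ^ 2 := by have := h.lpos; positivity
    have hl0 : l ≠ 0 := h.lpos.ne'
    set x : ℝ := (D.card : ℝ) * ((β \ D).card : ℝ) with hx
    have hx0 : 0 ≤ x := by positivity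
    rw [← Real.sqrt_mul (Nat.cast_nonneg _), ← hx] at h1
    have h2 : x * (l ^ 2 * (blkSize node Ai i : ℝ)⁻¹) ≤ δ * l ^ 2 * Real.sqrt x := by
      calc _ = (D.card : ℝ) * (((β \ D).card : ℝ) * (l ^ 2 * (blkSize node Ai i : ℝ)⁻¹)) := by
            rw [hx]; ring
        _ ≤ _ := h1
        _ ≤ _ := mul_le_mul_of_nonneg_right h.close (Real.sqrt_nonneg _)
    have h3 : x ≤ δ * blkSize node Ai i * Real.sqrt x := by
      have h4 := mul_le_mul_of_nonneg_right h2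
        (show 0 ≤ (blkSize node Ai i : ℝ) * (l ^ 2)⁻¹ by positivity)
      calc x = x * (l ^ 2 * (blkSize node Ai i : ℝ)⁻¹) * ((blkSize node Ai i : ℝ) * (l ^ 2)⁻¹) := by
            field_simp
        _ ≤ _ := h4
        _ = _ := by field_simp
    rw [hcard]
    have h5 := Real.sq_sqrt hx0
    have h6 := Real.sqrt_nonneg x
    have h7 : 0 ≤ δ * blkSize node Ai i := mul_nonneg h.dpos hMr.le
    have h8 : Real.sqrt x ≤ δ * blkSize node Ai i := by
      by_contra hlt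
      push Not at hlt
      have : 0 < Real.sqrt x := lt_of_le_of_lt h7 hlt
      nlinarith
    calc x = Real.sqrt x ^ 2 := h5.symm
      _ ≤ (δ * blkSize node Ai i) ^ 2 := pow_le_pow_left₀ h6 h8 2
      _ = _ := by ring)
  have hx' := (hβ x).1 hx
  refine ⟨x, hx'.1, hx'.2, ?_⟩
  rw [h.csize_eq_card hi hβ hx hC, ← hcard]
  exact hle

theorem GiantHyp.big_lt (h : GiantHyp Γ node on Ai PA l δ) {i : ℤ} {p : A × Γ.V}
    (hp : p.2 ∈ node (i + 1)) (bp : Γ.Big Γ.a node on (blkSize node Ai) p) :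
    blkSize node Ai i < 2 * Γ.csize Γ.a p := by
  obtain ⟨j, -, hj, hlt⟩ := bp
  have : j = i := by have := h.hN.node_eq hj hp; omega
  rwa [this] at hlt

/-- two big vertices of the same block are connected (otherwise their disjoint classes would
have more than `M` elements together) -/
theorem GiantHyp.conn_of_big (h : GiantHyp Γ node on Ai PA l δ) {i : ℤ} (hi : on i)
    {p q : A × Γ.V} (hp : p.2 ∈ node (i + 1)) (hq : q.2 ∈ node (i + 1)) (hpq : p.1 * q.1⁻¹ ∈ Ai i)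
    (bp : Γ.Big Γ.a node on (blkSize node Ai) p) (bq : Γ.Big Γ.a node on (blkSize node Ai) q) :
    Γ.Conn Γ.a p q := by
  classical
  by_contra hc
  obtain ⟨β, hβ, hcard⟩ := h.exists_blk hi p.1
  have hpβ : p ∈ β := (hβ p).2 ⟨hp, by simp⟩
  have hqβ : q ∈ β := (hβ q).2 ⟨hq, hpq⟩
  have e1 := h.csize_eq_card hi hβ hpβ (C := β.filter (Γ.Conn Γ.a p)) fun y => Finset.mem_filter
  have e2 := h.csize_eq_card hi hβ hqβ (C := β.filter (Γ.Conn Γ.a q)) fun y => Finset.mem_filter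
  have hd : Disjoint (β.filter (Γ.Conn Γ.a p)) (β.filter (Γ.Conn Γ.a q)) := by
    rw [Finset.disjoint_left]
    intro y h1 h2
    exact hc ((Finset.mem_filter.1 h1).2.trans' (Finset.mem_filter.1 h2).2.symm')
  have hle : (β.filter (Γ.Conn Γ.a p) ∪ β.filter (Γ.Conn Γ.a q)).card ≤ β.card :=
    Finset.card_le_card (Finset.union_subset (Finset.filter_subset _ _) (Finset.filter_subset _ _))
  rw [Finset.card_union_of_disjoint hd, ← e1, ← e2, hcard] at hle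
  have b1 := h.big_lt hp bp
  have b2 := h.big_lt hq bq
  omega

/-- the giant class of a block consists of its big vertices -/
theorem GiantHyp.giant' (h : GiantHyp Γ node on Ai PA l δ) {i : ℤ} (hi : on i) {a : A}
    {β : Finset (A × Γ.V)} (hβ : ∀ q, q ∈ β ↔ q.2 ∈ node (i + 1) ∧ a * q.1⁻¹ ∈ Ai i) :
    ∃ C : Finset (A × Γ.V), C ⊆ β ∧ (1 - 4 * δ ^ 2) * blkSize node Ai i ≤ C.card ∧ 0 < C.card ∧
      (∀ y ∈ β, y ∈ C ↔ Γ.Big Γ.a node on (blkSize node Ai) y) ∧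
      ∀ y ∈ C, Γ.csize Γ.a y = C.card := by
  classical
  obtain ⟨x, hx1, hx2, hle⟩ := h.giant hi a
  have hx : x ∈ β := (hβ x).2 ⟨hx1, hx2⟩
  have e := h.csize_eq_card hi hβ hx (C := β.filter (Γ.Conn Γ.a x)) fun y => Finset.mem_filter
  have hM : (0 : ℝ) < blkSize node Ai i := by exact_mod_cast h.blk_pos hi
  have bx : Γ.Big Γ.a node on (blkSize node Ai) x := by
    refine ⟨i, hi, hx1, ?_⟩
    have h1 := h.dpos
    have h2 := h.dle
    have h3 : δ ^ 2 ≤ 1 / 100 := by nlinarith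
    have : (blkSize node Ai i : ℝ) < 2 * Γ.csize Γ.a x := by nlinarith
    exact_mod_cast this
  refine ⟨β.filter (Γ.Conn Γ.a x), Finset.filter_subset _ _, by rw [← e]; exact hle,
    by rw [← e]; exact bx.finite.2, fun y hy => ?_, fun y hy => ?_⟩
  · have hy' := (hβ y).1 hy
    rw [Finset.mem_filter]
    constructor
    · rintro ⟨-, hc⟩
      exact (big_iff h.hN bx hc).2 (h.hN.not_isH hi hy'.1)
    · intro by'
      refine ⟨hy, h.conn_of_big hi hx1 hy'.1 ?_ bx by'⟩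
      have : x.1 * y.1⁻¹ = (a * x.1⁻¹)⁻¹ * (a * y.1⁻¹) := by group
      rw [this]; exact mul_mem (inv_mem hx2) hy'.2
  · rw [← e, csize_conn (Finset.mem_filter.1 hy).2]

theorem GiantHyp.csize_le (h : GiantHyp Γ node on Ai PA l δ) {i : ℤ} (hi : on i) {q : A × Γ.V}
    (hq : q.2 ∈ node (i + 1)) : Γ.csize Γ.a q ≤ blkSize node Ai i := by
  classical
  obtain ⟨β, hβ, hcard⟩ := h.exists_blk hi q.1
  have hqβ : q ∈ β := (hβ q).2 ⟨hq, by simp⟩
  rw [h.csize_eq_card hi hβ hqβ (C := β.filter (Γ.Conn Γ.a q)) fun y => Finset.mem_filter, ← hcard]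
  exact Finset.card_filter_le _ _

/-- same block -/
def Same (Γ : BG F A) (node : ℤ → Finset Γ.V) (on : ℤ → Prop) (Ai : ℤ → Subgroup A) (i : ℤ)
    (p q : A × Γ.V) : Prop :=
  on i ∧ p.2 ∈ node (i + 1) ∧ q.2 ∈ node (i + 1) ∧ p.1 * q.1⁻¹ ∈ Ai i

theorem Same.symm {i : ℤ} {p q : A × Γ.V} (h : Same Γ node on Ai i p q) :
    Same Γ node on Ai i q p := by
  refine ⟨h.1, h.2.2.1, h.2.1, ?_⟩
  have : q.1 * p.1⁻¹ = (p.1 * q.1⁻¹)⁻¹ := by group
  rw [this]; exact inv_mem h.2.2.2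

theorem GiantHyp.mat_ne (h : GiantHyp Γ node on Ai PA l δ) {p q : A × Γ.V}
    (hne : mat PA p q ≠ 0) :
    ∃ i, Same Γ node on Ai i p q ∧ mat PA p q = ((blkSize node Ai i : ℂ))⁻¹ := by
  classical
  by_cases hp : ∃ i, on i ∧ p.2 ∈ node (i + 1)
  · obtain ⟨i, hi, hp⟩ := hp
    rw [h.m1 p q i hi hp] at hne ⊢
    have hs : q.2 ∈ node (i + 1) ∧ p.1 * q.1⁻¹ ∈ Ai i := by
      by_contra hh; exact hne (if_neg hh)
    exact ⟨i, ⟨hi, hp, hs.1, hs.2⟩, if_pos hs⟩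
  · exact absurd (h.m0 p q fun i hi hp' => hp ⟨i, hi, hp'⟩) hne

/-- reduction to one block -/
theorem GiantHyp.sum_blk (h : GiantHyp Γ node on Ai PA l δ) (p : A × Γ.V) (f : A × Γ.V → ℂ)
    (P : ℤ → A × Γ.V → Prop) {c : ℝ} (hc : 0 ≤ c)
    (hf : ∀ q, f q ≠ 0 → ∃ i, Same Γ node on Ai i p q ∧ P i q)
    (hb : ∀ i, on i → p.2 ∈ node (i + 1) → ∀ β : Finset (A × Γ.V),
      (∀ q, q ∈ β ↔ q.2 ∈ node (i + 1) ∧ p.1 * q.1⁻¹ ∈ Ai i) → β.card = blkSize node Ai i →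
      (∀ q, f q ≠ 0 → q ∈ β ∧ P i q) → ∀ s : Finset (A × Γ.V), ∑ q ∈ s, ‖f q‖ ≤ c)
    (s : Finset (A × Γ.V)) : ∑ q ∈ s, ‖f q‖ ≤ c := by
  by_cases hp : ∃ i, on i ∧ p.2 ∈ node (i + 1)
  · obtain ⟨i, hi, hp⟩ := hp
    obtain ⟨β, hβ, hcard⟩ := h.exists_blk hi p.1
    refine hb i hi hp β hβ hcard (fun q hq => ?_) s
    obtain ⟨j, hs, hP⟩ := hf q hq
    have : j = i := by have := h.hN.node_eq hs.2.1 hp; omega
    subst this
    exact ⟨(hβ q).2 hs.2.2, hP⟩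
  · rw [Finset.sum_eq_zero]
    · exact hc
    · intro q _
      by_contra hne
      obtain ⟨j, hs, -⟩ := hf q fun h0 => hne (by rw [h0, norm_zero])
      exact hp ⟨j, hs.1, hs.2.1⟩

theorem GiantHyp.sum_one (h : GiantHyp Γ node on Ai PA l δ) (p : A × Γ.V) (f : A × Γ.V → ℂ)
    (hf : ∀ q, f q ≠ 0 → ∃ i, Same Γ node on Ai i p q ∧ ‖f q‖ ≤ (blkSize node Ai i : ℝ)⁻¹)
    (s : Finset (A × Γ.V)) : ∑ q ∈ s, ‖f q‖ ≤ 1 := by
  refine h.sum_blk p f _ zero_le_one hf (fun i hi _ β _ hcard hf' s => ?_) s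
  have hM : (0 : ℝ) < blkSize node Ai i := by exact_mod_cast h.blk_pos hi
  refine (sg_sum_le f β (by positivity) hf' s).trans (le_of_eq ?_)
  rw [hcard, mul_inv_cancel₀ hM.ne']

theorem GiantHyp.sum_small (h : GiantHyp Γ node on Ai PA l δ) (p : A × Γ.V) (f : A × Γ.V → ℂ)
    (hf : ∀ q, f q ≠ 0 → ¬ Γ.Big Γ.a node on (blkSize node Ai) q ∧
      ∃ i, Same Γ node on Ai i p q ∧ ‖f q‖ ≤ (blkSize node Ai i : ℝ)⁻¹)
    (s : Finset (A × Γ.V)) : ∑ q ∈ s, ‖f q‖ ≤ 4 * δ ^ 2 := by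
  classical
  refine h.sum_blk p f _ (by positivity) (fun q hq => (hf q hq).2)
    (fun i hi _ β hβ hcard hf' s => ?_) s
  have hM : (0 : ℝ) < blkSize node Ai i := by exact_mod_cast h.blk_pos hi
  obtain ⟨C, hCβ, hle, -, hC, -⟩ := h.giant' hi hβ
  refine (sg_sum_le f (β \ C) (c := (blkSize node Ai i : ℝ)⁻¹) (by positivity)
    (fun q hq => ⟨Finset.mem_sdiff.2 ⟨(hf' q hq).1,
      fun hqC => (hf q hq).1 ((hC q (hf' q hq).1).1 hqC)⟩, (hf' q hq).2⟩) s).trans ?_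
  have e : ((β \ C).card : ℝ) = blkSize node Ai i - C.card := by
    rw [Finset.card_sdiff_of_subset hCβ, Nat.cast_sub (Finset.card_le_card hCβ), hcard]
  rw [e, ← div_eq_mul_inv, div_le_iff₀ hM]
  linarith

theorem GiantHyp.sum_big (h : GiantHyp Γ node on Ai PA l δ) (p : A × Γ.V) (f : A × Γ.V → ℂ)
    (hf : ∀ q, f q ≠ 0 → Γ.Big Γ.a node on (blkSize node Ai) p ∧
      ∃ i, Same Γ node on Ai i p q ∧ Γ.Conn Γ.a p q ∧
        ‖f q‖ ≤ (Γ.csize Γ.a p : ℝ)⁻¹ - (blkSize node Ai i : ℝ)⁻¹)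
    (s : Finset (A × Γ.V)) : ∑ q ∈ s, ‖f q‖ ≤ 4 * δ ^ 2 := by
  classical
  refine h.sum_blk p f _ (by positivity) (fun q hq => (hf q hq).2)
    (fun i hi hp β hβ hcard hf' s => ?_) s
  by_cases bp : Γ.Big Γ.a node on (blkSize node Ai) p
  swap
  · rw [Finset.sum_eq_zero]
    · positivity
    · intro q _
      by_contra hne
      exact bp (hf q fun h0 => hne (by rw [h0, norm_zero])).1
  have hM : (0 : ℝ) < blkSize node Ai i := by exact_mod_cast h.blk_pos hi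
  obtain ⟨C, hCβ, hle, hC0, hC, hsz⟩ := h.giant' hi hβ
  have hpβ : p ∈ β := (hβ p).2 ⟨hp, by simp⟩
  have e := hsz p ((hC p hpβ).2 bp)
  have h1 : (0 : ℝ) < C.card := by exact_mod_cast hC0
  have h2 : (C.card : ℝ) ≤ blkSize node Ai i := by
    rw [← hcard]; exact_mod_cast Finset.card_le_card hCβ
  have h3 : (blkSize node Ai i : ℝ)⁻¹ ≤ (C.card : ℝ)⁻¹ := inv_anti₀ h1 h2
  refine (sg_sum_le f C (c := (C.card : ℝ)⁻¹ - (blkSize node Ai i : ℝ)⁻¹) (by linarith)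
    (fun q hq => ⟨(hC q (hf' q hq).1).2 ((big_iff h.hN bp (hf' q hq).2.1).2
      (h.hN.not_isH hi ((hβ q).1 (hf' q hq).1).1)), by rw [← e]; exact (hf' q hq).2.2⟩) s).trans ?_
  rw [mul_sub, mul_inv_cancel₀ h1.ne', ← div_eq_mul_inv, sub_le_comm, le_div_iff₀ hM]
  exact hle

/-- Let `G = {q | Big q}`, `θ = csize / M ∈ [1 - 4δ², 1]` on big vertices; a block has at most `4 δ² M`
non-big vertices.  `PA - Pav = (prj G PA prj G - Pav) + prj Gᶜ PA + prj G PA prj Gᶜ`; `schur₁` gives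
`4δ²` (row and column sums `1 - θ`), `√(1 · 4δ²)`, `√(4δ² · 1)`. -/
theorem GiantHyp.norm_sub (h : GiantHyp Γ node on Ai PA l δ) :
    ‖PA - Γ.Pav Γ.a node on (blkSize node Ai)‖ ≤ 5 * δ := by
  classical
  have hN := h.hN
  have hδ := h.dpos
  set M := blkSize node Ai with hMdef
  set E := PA - Γ.Pav Γ.a node on M with hE
  -- entries of `E` with a small endpoint
  have hsm : ∀ p q, ¬ (Γ.Big Γ.a node on M p ∧ Γ.Big Γ.a node on M q) → mat E p q ≠ 0 →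
      ∃ i, Same Γ node on Ai i p q ∧ ‖mat E p q‖ ≤ (M i : ℝ)⁻¹ := by
    intro p q hpq hne
    have e : mat E p q = mat PA p q := by
      rw [hE, mat_sub, mat_Pav hN, if_neg fun hh => hpq hh.2, sub_zero]
    rw [e] at hne ⊢
    obtain ⟨i, hi, he⟩ := h.mat_ne hne
    exact ⟨i, hi, by rw [he, norm_inv, Complex.norm_natCast]⟩
  -- entries with two big endpoints
  have hbg : ∀ p q, Γ.Big Γ.a node on M p → Γ.Big Γ.a node on M q → mat E p q ≠ 0 →
      ∃ i, Same Γ node on Ai i p q ∧ Γ.Conn Γ.a p q ∧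
        ‖mat E p q‖ ≤ (Γ.csize Γ.a q : ℝ)⁻¹ - (M i : ℝ)⁻¹ := by
    intro p q bp bq hne
    obtain ⟨i, hi, hp, -⟩ := id bp
    by_cases hs : q.2 ∈ node (i + 1) ∧ p.1 * q.1⁻¹ ∈ Ai i
    · have hc := h.conn_of_big hi hp hs.1 hs.2 bp bq
      refine ⟨i, ⟨hi, hp, hs.1, hs.2⟩, hc, ?_⟩
      rw [hE, mat_sub, mat_Pav hN, if_pos ⟨hc, bp, bq⟩, h.m1 p q i hi hp, if_pos hs]
      have h1 : (0 : ℝ) < Γ.csize Γ.a q := by exact_mod_cast bq.finite.2
      have h2 : (Γ.csize Γ.a q : ℝ) ≤ M i := by exact_mod_cast h.csize_le hi hs.1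
      have h3 : (M i : ℝ)⁻¹ ≤ (Γ.csize Γ.a q : ℝ)⁻¹ := inv_anti₀ h1 h2
      have e : ((blkSize node Ai i : ℂ))⁻¹ - ((Γ.csize Γ.a q : ℂ))⁻¹
          = -(((Γ.csize Γ.a q : ℝ)⁻¹ - (M i : ℝ)⁻¹ : ℝ) : ℂ) := by
        rw [hMdef]; push_cast; ring
      rw [e, norm_neg, Complex.norm_real, Real.norm_of_nonneg (by linarith)]
    · exfalso
      apply hne
      have hc : ¬ Γ.Conn Γ.a p q := by
        intro hc
        apply hs
        refine ⟨?_, h.conn_mem hc hi (Or.inr hp)⟩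
        rcases hN.stay hc hi (Or.inr hp) with h1 | h1
        · exact absurd ((hN.typ _ _ h1).2 (hN.even i hi)) ((big_iff hN bp hc).1 bq)
        · exact h1
      rw [hE, mat_sub, mat_Pav hN, if_neg fun hh => hc hh.1, h.m1 p q i hi hp, if_neg hs, sub_zero]
  let k1 : A × Γ.V → A × Γ.V → ℂ := fun p q =>
    if Γ.Big Γ.a node on M p ∧ Γ.Big Γ.a node on M q then mat E p q else 0
  let k2 : A × Γ.V → A × Γ.V → ℂ := fun p q =>
    if ¬ Γ.Big Γ.a node on M p then mat E p q else 0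
  let k3 : A × Γ.V → A × Γ.V → ℂ := fun p q =>
    if Γ.Big Γ.a node on M p ∧ ¬ Γ.Big Γ.a node on M q then mat E p q else 0
  have hk1 : ∀ p q, k1 p q ≠ 0 → Γ.Big Γ.a node on M p ∧ Γ.Big Γ.a node on M q ∧
      ∃ i, Same Γ node on Ai i p q ∧ Γ.Conn Γ.a p q ∧
        ‖k1 p q‖ ≤ (Γ.csize Γ.a q : ℝ)⁻¹ - (M i : ℝ)⁻¹ := by
    intro p q hne
    have hb : Γ.Big Γ.a node on M p ∧ Γ.Big Γ.a node on M q := by
      by_contra hh; exact hne (if_neg hh)
    have e : k1 p q = mat E p q := if_pos hb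
    rw [e] at hne ⊢
    exact ⟨hb.1, hb.2, hbg p q hb.1 hb.2 hne⟩
  have hk2 : ∀ p q, k2 p q ≠ 0 → ¬ Γ.Big Γ.a node on M p ∧
      ∃ i, Same Γ node on Ai i p q ∧ ‖k2 p q‖ ≤ (M i : ℝ)⁻¹ := by
    intro p q hne
    have hb : ¬ Γ.Big Γ.a node on M p := by
      intro hh; exact hne (if_neg (not_not.2 hh))
    have e : k2 p q = mat E p q := if_pos hb
    rw [e] at hne ⊢
    exact ⟨hb, hsm p q (fun hh => hb hh.1) hne⟩
  have hk3 : ∀ p q, k3 p q ≠ 0 → ¬ Γ.Big Γ.a node on M q ∧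
      ∃ i, Same Γ node on Ai i p q ∧ ‖k3 p q‖ ≤ (M i : ℝ)⁻¹ := by
    intro p q hne
    have hb : Γ.Big Γ.a node on M p ∧ ¬ Γ.Big Γ.a node on M q := by
      by_contra hh; exact hne (if_neg hh)
    have e : k3 p q = mat E p q := if_pos hb
    rw [e] at hne ⊢
    exact ⟨hb.2, hsm p q (fun hh => hb.2 hh.2) hne⟩
  have d4 : (0 : ℝ) ≤ 4 * δ ^ 2 := by positivity
  have s1 := schur₁ k1 (4 * δ ^ 2) (4 * δ ^ 2) d4 d4
    (fun p => h.sum_big p _ fun q hq => by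
      obtain ⟨bp, -, i, hs, hc, hle⟩ := hk1 p q hq
      exact ⟨bp, i, hs, hc, by rw [csize_conn hc]; exact hle⟩)
    (fun q => h.sum_big q _ fun p hp => by
      obtain ⟨-, bq, i, hs, hc, hle⟩ := hk1 p q hp
      exact ⟨bq, i, hs.symm, hc.symm', hle⟩)
  have s2 := schur₁ k2 1 (4 * δ ^ 2) zero_le_one d4
    (fun p => h.sum_one p _ fun q hq => (hk2 p q hq).2)
    (fun q => h.sum_small q _ fun p hp => by
      obtain ⟨bp, i, hs, hle⟩ := hk2 p q hp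
      exact ⟨bp, i, hs.symm, hle⟩)
  have s3 := schur₁ k3 (4 * δ ^ 2) 1 d4 zero_le_one
    (fun p => h.sum_small p _ fun q hq => hk3 p q hq)
    (fun q => h.sum_one q _ fun p hp => by
      obtain ⟨-, i, hs, hle⟩ := hk3 p q hp
      exact ⟨i, hs.symm, hle⟩)
  have hdec : E = kop k1 + kop k2 + kop k3 := by
    refine mat_ext fun p q => ?_
    rw [mat_add, mat_add, s1.1, s2.1, s3.1]
    by_cases bp : Γ.Big Γ.a node on M p <;> by_cases bq : Γ.Big Γ.a node on M q <;>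
      simp [k1, k2, k3, bp, bq]
  have n1 := s1.2
  have n2 := s2.2
  have n3 := s3.2
  rw [Real.sqrt_mul_self d4] at n1
  rw [show (1 : ℝ) * (4 * δ ^ 2) = (2 * δ) ^ 2 by ring, Real.sqrt_sq (by positivity)] at n2
  rw [show (4 * δ ^ 2) * (1 : ℝ) = (2 * δ) ^ 2 by ring, Real.sqrt_sq (by positivity)] at n3
  rw [hdec]
  have := h.dle
  calc ‖kop k1 + kop k2 + kop k3‖ ≤ ‖kop k1‖ + ‖kop k2‖ + ‖kop k3‖ := norm_add₃_le
    _ ≤ 5 * δ := by nlinarith

/-- the sum of the diagonal entries over the block `Ai i × node (i+1)` is `1` (one giant class), and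
they do not depend on the first coordinate (`mat_Pav_mul_right`) -/
theorem GiantHyp.sum_diag (h : GiantHyp Γ node on Ai PA l δ) {i : ℤ} (hi : on i) :
    ∑ v ∈ node (i + 1), mat (Γ.Pav Γ.a node on (blkSize node Ai)) (1, v) (1, v)
      = ((Nat.card (Ai i) : ℂ))⁻¹ := by
  classical
  have := h.fin i hi
  obtain ⟨S, hS, hc⟩ := sg_coset (Ai i) 1
  have hβ : ∀ q : A × Γ.V, q ∈ S ×ˢ node (i + 1) ↔ q.2 ∈ node (i + 1) ∧ 1 * q.1⁻¹ ∈ Ai i := by
    intro q; rw [Finset.mem_product, hS, and_comm]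
  obtain ⟨C, hCβ, -, hC0, hC, hsz⟩ := h.giant' hi hβ
  have h1 : ∑ q ∈ S ×ˢ node (i + 1), mat (Γ.Pav Γ.a node on (blkSize node Ai)) q q = 1 := by
    rw [← Finset.sum_subset hCβ]
    · rw [Finset.sum_congr rfl (g := fun _ => ((C.card : ℂ))⁻¹)]
      · rw [Finset.sum_const, nsmul_eq_mul, mul_inv_cancel₀]
        exact_mod_cast hC0.ne'
      · intro q hq
        have bq := (hC q (hCβ hq)).1 hq
        rw [mat_Pav h.hN, if_pos ⟨Conn.refl' _ _, bq, bq⟩, hsz q hq]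
    · intro q hq hq'
      rw [mat_Pav h.hN, if_neg fun hh => hq' ((hC q hq).2 hh.2.1)]
  rw [Finset.sum_product] at h1
  have e : ∀ x ∈ S, ∑ v ∈ node (i + 1), mat (Γ.Pav Γ.a node on (blkSize node Ai)) (x, v) (x, v)
      = ∑ v ∈ node (i + 1), mat (Γ.Pav Γ.a node on (blkSize node Ai)) (1, v) (1, v) := by
    intro x _
    refine Finset.sum_congr rfl fun v _ => ?_
    have := mat_Pav_mul_right (M := blkSize node Ai) h.hN Γ.a 1 1 x v v
    rwa [one_mul] at this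
  rw [Finset.sum_congr rfl e, Finset.sum_const, nsmul_eq_mul, hc] at h1
  exact eq_inv_of_mul_eq_one_right h1

end BG
end Crest.Agent.R129
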