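import Crest.Agent.PVb.R129.SAvg
import Crest.Agent.PVb.R129.SForest_Mg
import Crest.Agent.PVb.R129.SDefs
import Crest.Agent.PVb.R129.SGiant_Mg
import Crest.Agent.PVb.R129.Ker

-- ▼ part PVb/R129/SRest
section

/-!
# The equivariant map `Uav` is close to `U0 ∘ Pav` (task R129/SRest).  Statements frozen.
-/

set_option autoImplicit false
open scoped BigOperators

namespace Crest.Agent.R129
namespace BG
variable {F A : Type} [Fintype F] [DecidableEq F] [Group A] {Γ : BG F A}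
  {node : ℤ → Finset Γ.V} {on : ℤ → Prop} {N : ℤ → ℕ} {ε : ℝ}

theorem sr_sum_le {I : Type} (f : I → ℝ) (c : ℝ) (hc : 0 ≤ c) (u : Finset I) (hf : ∀ i, f i ≤ c)
    (h0 : ∀ i, i ∉ u → f i ≤ 0) (s : Finset I) : ∑ i ∈ s, f i ≤ u.card * c := by
  classical
  calc ∑ i ∈ s, f i ≤ ∑ i ∈ s, if i ∈ u then c else 0 := by
        refine Finset.sum_le_sum fun i _ => ?_
        split_ifs with h
        exacts [hf i, h0 i h]
    _ = ((s.filter fun i => i ∈ u).card : ℝ) * c := by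
        rw [← Finset.sum_filter, Finset.sum_const, nsmul_eq_mul]
    _ ≤ u.card * c := by
        refine mul_le_mul_of_nonneg_right ?_ hc
        exact_mod_cast Finset.card_le_card fun i hi => (Finset.mem_filter.1 hi).2

theorem sr_geom (s : Finset ℤ) : ∑ i ∈ s, ((2 : ℝ) ^ i.natAbs)⁻¹ ≤ 3 := by
  have h1 : HasSum (fun n : ℕ => ((2 : ℝ) ^ (n : ℤ).natAbs)⁻¹) 2 := by
    simpa using hasSum_geometric_two
  have h2 : HasSum (fun n : ℕ => ((2 : ℝ) ^ (-((n : ℤ) + 1)).natAbs)⁻¹) 1 := by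
    have e : ∀ n : ℕ, ((2 : ℝ) ^ (-((n : ℤ) + 1)).natAbs)⁻¹ = 1 / 2 / 2 ^ n := by
      intro n
      have : (-((n : ℤ) + 1)).natAbs = n + 1 := by omega
      rw [this, pow_succ]
      field_simp
    simp only [e]
    exact hasSum_geometric_two' 1
  have h3 := HasSum.of_nat_of_neg_add_one (f := fun i : ℤ => ((2 : ℝ) ^ i.natAbs)⁻¹) h1 h2
  exact (sum_le_hasSum s (fun _ _ => by positivity) h3).trans (by norm_num)

omit [Fintype F] [DecidableEq F] [Group A] in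
theorem sr_notH (hN : Γ.NodeHyp node on) {K : Type} [Group K] {κ : Γ.V → F → K} {M : ℤ → ℕ}
    {q : K × Γ.V} (h : Γ.Big κ node on M q) : ¬ Γ.isH q.2 := by
  obtain ⟨i, hi, hq, -⟩ := h
  rw [hN.typ _ _ hq, Int.even_add_one, not_not]
  exact hN.even i hi

open Classical in
omit [Fintype F] [DecidableEq F] [Group A] in
theorem sr_row (hN : Γ.NodeHyp node on) {K : Type} [Group K] (κ : Γ.V → F → K) (M : ℤ → ℕ)
    (p : K × Γ.V) (s : Finset (K × Γ.V)) :
    ∑ q ∈ s, (if Γ.Conn κ p q ∧ Γ.Big κ node on M q then ((Γ.csize κ q : ℝ))⁻¹ else 0) ≤ 1 := by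
  by_cases h0 : Γ.csize κ p = 0
  · refine (Finset.sum_nonpos fun q _ => ?_).trans zero_le_one
    split_ifs with h
    · rw [← csize_conn h.1, h0]; simp
    · exact le_rfl
  · have hfin : {r | Γ.Conn κ p r ∧ ¬ Γ.isH r.2}.Finite := Set.finite_of_ncard_ne_zero h0
    refine (sr_sum_le _ ((Γ.csize κ p : ℝ))⁻¹ (by positivity) hfin.toFinset (fun q => ?_)
      (fun q hq => ?_) s).trans ?_
    · split_ifs with h
      · rw [csize_conn h.1]
      · positivity
    · rw [if_neg]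
      intro h
      exact hq (hfin.mem_toFinset.2 ⟨h.1, sr_notH hN h.2⟩)
    · rw [← Set.ncard_eq_toFinset_card _ hfin]
      exact (mul_inv_cancel₀ (by exact_mod_cast h0)).le

theorem sr_col {a b c ε t : ℝ} (ha : a * t ≤ ε * b) (hε : 0 ≤ ε) {n : ℝ} (hn : 0 < n) (ht : 0 < t)
    (hc0 : 0 < c) (hc : b * n < 2 * c) : a * c⁻¹ ≤ 2 * ε * (t * n)⁻¹ := by
  rw [← div_eq_mul_inv, ← div_eq_mul_inv, div_le_div_iff₀ hc0 (mul_pos ht hn)]
  have h1 : a * t * n ≤ ε * b * n := mul_le_mul_of_nonneg_right ha hn.le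
  have h2 : ε * (b * n) ≤ ε * (2 * c) := mul_le_mul_of_nonneg_left hc.le hε
  nlinarith

/-- `exists_root`, `NodeHyp.stay` for the root, `exists_ball` with `ℓ = ⌈8 L(root)⌉₊` -/
theorem exists_shallow (h : Γ.SCHyp) (hN : Γ.NodeHyp node on)
    (hs : ∀ i, on i → ∀ v, v ∈ node i ∨ v ∈ node (i + 1) →
      ((Fintype.card F : ℝ) + 1) ^ (⌈8 * Γ.L v⌉₊ + 1) * 2 ^ i.natAbs ≤ ε * N i)
    {i : ℤ} (hi : on i) {q : Γ.Grp × Γ.V} (hq : q.2 ∈ node (i + 1)) :
    ∃ s : Finset (Γ.Grp × Γ.V), (s.card : ℝ) * 2 ^ i.natAbs ≤ ε * N i ∧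
      ∀ p, Γ.Conn Γ.gl q p → p ∉ Γ.Yset → p ∈ s := by
  obtain ⟨root, h1, h2, h3⟩ := exists_root h
  obtain ⟨s, hs1, hs2⟩ := exists_ball Γ Γ.gl (root q) ⌈8 * Γ.L (root q).2⌉₊
  refine ⟨s, ?_, fun p hp hY => ?_⟩
  · refine le_trans ?_ (hs i hi (root q).2 (hN.stay (h1 q) hi (Or.inr hq)))
    refine mul_le_mul_of_nonneg_right ?_ (by positivity)
    have a1 : (s.card : ℝ) ≤ ((Fintype.card F : ℝ) + 1) ^ ⌈8 * Γ.L (root q).2⌉₊ := by
      exact_mod_cast hs1
    refine a1.trans (pow_le_pow_right₀ ?_ (Nat.le_succ _))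
    have : (0 : ℝ) ≤ Fintype.card F := by positivity
    linarith
  · obtain ⟨m, hm, hp'⟩ := h3 p hY
    rw [← h2 q p hp] at hm hp'
    exact hs2 p m (by exact_mod_cast hm.trans (Nat.le_ceil _)) hp'

/-- `schur₁`: row sums `≤ 1`, column sums `≤ |s| / csize ≤ 2 |s| / (N i |node (i+1)|) ≤ 2 ε` -/
theorem norm_prj_compl_Pav (h : Γ.SCHyp) (hN : Γ.NodeHyp node on) (hε : 0 ≤ ε)
    (hs : ∀ i, on i → ∀ v, v ∈ node i ∨ v ∈ node (i + 1) →
      ((Fintype.card F : ℝ) + 1) ^ (⌈8 * Γ.L v⌉₊ + 1) * 2 ^ i.natAbs ≤ ε * N i) :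
    ‖prj Γ.Ysetᶜ ∘L Γ.Pav Γ.gl node on fun i => N i * (node (i + 1)).card‖
      ≤ Real.sqrt (2 * ε) := by
  classical
  set M : ℤ → ℕ := fun i => N i * (node (i + 1)).card with hM
  let k : Γ.Grp × Γ.V → Γ.Grp × Γ.V → ℂ := fun p q =>
    if p ∉ Γ.Yset ∧ Γ.Conn Γ.gl p q ∧ Γ.Big Γ.gl node on M p ∧ Γ.Big Γ.gl node on M q
    then ((Γ.csize Γ.gl q : ℂ))⁻¹ else 0
  have hk : kop k = prj Γ.Ysetᶜ ∘L Γ.Pav Γ.gl node on M := by
    refine eq_kop fun p q => ?_
    have e : mat (prj Γ.Ysetᶜ ∘L Γ.Pav Γ.gl node on M) p q =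
        if p ∈ Γ.Ysetᶜ then mat (Γ.Pav Γ.gl node on M) p q else 0 := by
      have := prj_apply Γ.Ysetᶜ (Γ.Pav Γ.gl node on M (dl q)) p
      convert this <;> rfl
    rw [e, mat_Pav hN]
    by_cases hp : p ∈ Γ.Yset <;> simp [k, hp]
  have hb := (schur₁ k 1 (2 * ε) zero_le_one (by positivity) (fun p s => ?_) (fun q s => ?_)).2
  · rw [hk, one_mul] at hb
    exact hb
  · refine le_trans (Finset.sum_le_sum fun q _ => ?_) (sr_row hN Γ.gl M p s)
    simp only [k]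
    split_ifs with h1 h2 h2
    · simp
    · exact absurd ⟨h1.2.1, h1.2.2.2⟩ h2
    · simp
    · simp
  · by_cases hq : Γ.Big Γ.gl node on M q
    · have hc0 : (0 : ℝ) < Γ.csize Γ.gl q := by exact_mod_cast hq.finite.2
      obtain ⟨i, hi, hq1, hq2⟩ := hq
      obtain ⟨u, hu1, hu2⟩ := exists_shallow h hN hs hi hq1
      refine (sr_sum_le _ ((Γ.csize Γ.gl q : ℝ))⁻¹ (by positivity) u (fun p => ?_)
        (fun p hp => ?_) s).trans ?_
      · simp only [k]
        split_ifs <;> simp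
      · simp only [k]
        rw [if_neg, norm_zero]
        exact fun h1 => hp (hu2 p h1.2.1.symm' h1.1)
      · have hn : (1 : ℝ) ≤ (node (i + 1)).card := by
          exact_mod_cast (hN.ne (i + 1)).card_pos
        have ht : (1 : ℝ) ≤ 2 ^ i.natAbs := one_le_pow₀ (by norm_num)
        have hc : (N i : ℝ) * (node (i + 1)).card < 2 * Γ.csize Γ.gl q := by exact_mod_cast hq2
        refine (sr_col hu1 hε (by linarith) (by linarith) hc0 hc).trans ?_
        refine mul_le_of_le_one_right (by positivity) (inv_le_one_of_one_le₀ ?_)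
        exact one_le_mul_of_one_le_of_one_le ht hn
    · refine (Finset.sum_nonpos fun p _ => ?_).trans (by positivity)
      simp only [k]
      rw [if_neg (fun h1 => hq h1.2.2.2), norm_zero]

open Classical in
/-- Let `R` be the kernel `if Big q ∧ ∃ v, ¬ isH v ∧ Conn (g,v) q ∧ (g,v) ∉ Yset then csize⁻¹ else 0`.
Weighted `schur` with weight `1` on `Grp` and `w q = 2^{-|i|} / |node (i+1)|` for `q.2 ∈ node (i+1)`,
`on i` (`w q = 1` otherwise).  Column: at most `|s|` values of `g` (`exists_shallow`), each entry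
`≤ 2 / (N i |node (i+1)|)`, so `β = 2 ε`.  Row: for each `i` and `v ∈ node (i+1)` the `q` connected to
`(g,v)` contribute at most `csize · csize⁻¹ · w`, so the sum is `≤ ∑ i, 2^{-|i|} ≤ 3 = α`.
`mat (U0 ∘L Pav) g q = ∑' p, mat U0 g p * mat Pav p q` is the same kernel with `(g,v) ∈ Yset`
(`mat_U0`, `mat_Pav`, `big_iff`; `v` is unique by `conn_gl_unique`), so `U0 ∘L Pav + kop R` has the
kernel of `Uav` (`eq_kop`). -/
theorem Uav_spec (h : Γ.SCHyp) (hN : Γ.NodeHyp node on) (hε : 0 ≤ ε)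
    (hs : ∀ i, on i → ∀ v, v ∈ node i ∨ v ∈ node (i + 1) →
      ((Fintype.card F : ℝ) + 1) ^ (⌈8 * Γ.L v⌉₊ + 1) * 2 ^ i.natAbs ≤ ε * N i) :
    (∀ g q, mat (Γ.Uav node on fun i => N i * (node (i + 1)).card) g q =
      if Γ.Big Γ.gl node on (fun i => N i * (node (i + 1)).card) q ∧
          ∃ v, ¬ Γ.isH v ∧ Γ.Conn Γ.gl (g, v) q
      then ((Γ.csize Γ.gl q : ℂ))⁻¹ else 0) ∧
    ‖(Γ.Uav node on fun i => N i * (node (i + 1)).card)
        - Γ.U0 ∘L Γ.Pav Γ.gl node on fun i => N i * (node (i + 1)).card‖ ≤ Real.sqrt (6 * ε) := by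
  set M : ℤ → ℕ := fun i => N i * (node (i + 1)).card with hM
  obtain ⟨idx, hidx⟩ : ∃ idx : Γ.V → ℤ, ∀ i v, v ∈ node (i + 1) → idx v = i := by
    refine ⟨fun v => if h : ∃ i, v ∈ node (i + 1) then h.choose else 0, fun i v hv => ?_⟩
    have hex : ∃ i, v ∈ node (i + 1) := ⟨i, hv⟩
    simp only [dif_pos hex]
    by_contra hne
    exact Finset.disjoint_left.1 (hN.disj (hex.choose + 1) (i + 1) (by omega)) hex.choose_spec hv
  let wt : ℤ → ℝ := fun i => ((2 : ℝ) ^ i.natAbs * (node (i + 1)).card)⁻¹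
  have hnode : ∀ i, (0 : ℝ) < (node i).card := fun i => by exact_mod_cast (hN.ne i).card_pos
  have hwt : ∀ i, 0 < wt i := fun i => by
    have := hnode (i + 1)
    positivity
  let R : Γ.Grp → Γ.Grp × Γ.V → ℂ := fun g q =>
    if Γ.Big Γ.gl node on M q ∧ ∃ v, ¬ Γ.isH v ∧ Γ.Conn Γ.gl (g, v) q ∧ (g, v) ∉ Γ.Yset
    then ((Γ.csize Γ.gl q : ℂ))⁻¹ else 0
  obtain ⟨hR1, hR2⟩ := schur R (fun q => wt (idx q.2)) (fun _ => 1) (fun q => hwt _)
    (fun _ => zero_lt_one) 3 (2 * ε) (by norm_num) (by positivity) (fun g s => by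
      let a : ℤ → Γ.V → Γ.Grp × Γ.V → ℝ := fun i v q =>
        (if Γ.Conn Γ.gl (g, v) q ∧ Γ.Big Γ.gl node on M q then ((Γ.csize Γ.gl q : ℝ))⁻¹ else 0) * wt i
      have ha0 : ∀ i v q, 0 ≤ a i v q := fun i v q => by
        refine mul_nonneg ?_ (hwt i).le
        split_ifs <;> positivity
      calc ∑ q ∈ s, ‖R g q‖ * wt (idx q.2)
          ≤ ∑ q ∈ s, ∑ i ∈ s.image (fun q => idx q.2), ∑ v ∈ node (i + 1), a i v q := by
            refine Finset.sum_le_sum fun q hq => ?_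
            simp only [R]
            split_ifs with h1
            · obtain ⟨hB, v, hv, hc, -⟩ := h1
              obtain ⟨i, hi, hq1, -⟩ := id hB
              have hv1 : v ∈ node (i + 1) := by
                rcases hN.stay hc.symm' hi (Or.inr hq1) with h2 | h2
                · exact absurd ((hN.typ i v h2).2 (hN.even i hi)) hv
                · exact h2
              have hi' : i ∈ s.image (fun q => idx q.2) :=
                Finset.mem_image.2 ⟨q, hq, hidx i _ hq1⟩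
              refine le_trans ?_ (Finset.single_le_sum (f := fun i => ∑ v ∈ node (i + 1), a i v q)
                (fun j _ => Finset.sum_nonneg fun v _ => ha0 j v q) hi')
              refine le_trans ?_ (Finset.single_le_sum (f := fun v => a i v q)
                (fun v _ => ha0 i v q) hv1)
              simp only [a]
              rw [if_pos ⟨hc, hB⟩, hidx i _ hq1]
              simp
            · rw [norm_zero, zero_mul]
              exact Finset.sum_nonneg fun j _ => Finset.sum_nonneg fun v _ => ha0 j v q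
        _ = ∑ i ∈ s.image (fun q => idx q.2), ∑ v ∈ node (i + 1), ∑ q ∈ s, a i v q := by
            rw [Finset.sum_comm]
            exact Finset.sum_congr rfl fun i _ => Finset.sum_comm
        _ ≤ ∑ i ∈ s.image (fun q => idx q.2), ((2 : ℝ) ^ i.natAbs)⁻¹ := by
            refine Finset.sum_le_sum fun i _ => ?_
            calc ∑ v ∈ node (i + 1), ∑ q ∈ s, a i v q ≤ ∑ v ∈ node (i + 1), wt i := by
                  refine Finset.sum_le_sum fun v _ => ?_
                  simp only [a]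
                  rw [← Finset.sum_mul]
                  exact mul_le_of_le_one_left (hwt i).le (sr_row hN Γ.gl M (g, v) s)
              _ = ((2 : ℝ) ^ i.natAbs)⁻¹ := by
                  rw [Finset.sum_const, nsmul_eq_mul]
                  have := hnode (i + 1)
                  simp only [wt]
                  field_simp
        _ ≤ 3 * 1 := by rw [mul_one]; exact sr_geom _) (fun q s => by
      simp only [mul_one]
      by_cases hq : Γ.Big Γ.gl node on M q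
      · have hc0 : (0 : ℝ) < Γ.csize Γ.gl q := by exact_mod_cast hq.finite.2
        obtain ⟨i, hi, hq1, hq2⟩ := hq
        obtain ⟨u, hu1, hu2⟩ := exists_shallow h hN hs hi hq1
        refine (sr_sum_le _ ((Γ.csize Γ.gl q : ℝ))⁻¹ (by positivity) (u.image Prod.fst) (fun g => ?_)
          (fun g hg => ?_) s).trans ?_
        · simp only [R]
          split_ifs <;> simp
        · simp only [R]
          rw [if_neg, norm_zero]
          rintro ⟨-, v, -, h1, h2⟩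
          exact hg (Finset.mem_image.2 ⟨(g, v), hu2 _ h1.symm' h2, rfl⟩)
        · have hc : (N i : ℝ) * (node (i + 1)).card < 2 * Γ.csize Γ.gl q := by exact_mod_cast hq2
          rw [hidx i _ hq1]
          refine le_trans (mul_le_mul_of_nonneg_right ?_ (by positivity))
            (sr_col hu1 hε (hnode (i + 1)) (by positivity) hc0 hc)
          exact_mod_cast Finset.card_image_le
      · refine (Finset.sum_nonpos fun g _ => ?_).trans (mul_nonneg (by positivity) (hwt _).le)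
        simp only [R]
        rw [if_neg (fun h1 => hq h1.1), norm_zero])
  have hU : ∀ g q, mat (Γ.U0 ∘L Γ.Pav Γ.gl node on M) g q =
      if Γ.Big Γ.gl node on M q ∧ ∃ v, ¬ Γ.isH v ∧ Γ.Conn Γ.gl (g, v) q ∧ (g, v) ∈ Γ.Yset
      then ((Γ.csize Γ.gl q : ℂ))⁻¹ else 0 := by
    intro g q
    refine (hasSum_mat_comp Γ.U0 (Γ.Pav Γ.gl node on M) g q).unique ?_
    simp only [mat_U0 h, mat_Pav hN]
    split_ifs with h1
    · obtain ⟨hB, v, hv, hc, hY⟩ := h1
      have hBv : Γ.Big Γ.gl node on M (g, v) := (big_iff hN hB hc.symm').2 hv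
      convert hasSum_single (g, v) ?_ using 1
      · rw [if_pos ⟨rfl, hY⟩, if_pos ⟨hc, hBv, hB⟩, one_mul]
      · rintro ⟨g', v'⟩ hne
        by_cases h2 : g = g' ∧ (g', v') ∈ Γ.Yset
        · rw [if_neg (t := ((Γ.csize Γ.gl q : ℂ))⁻¹), mul_zero]
          rintro ⟨h3, -, -⟩
          obtain ⟨rfl, -⟩ := h2
          exact hne (by rw [conn_gl_unique h (h3.trans' hc.symm')])
        · rw [if_neg h2, zero_mul]
    · convert hasSum_zero with ⟨g', v'⟩
      by_cases h2 : g = g' ∧ (g', v') ∈ Γ.Yset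
      · rw [if_neg (t := ((Γ.csize Γ.gl q : ℂ))⁻¹), mul_zero]
        rintro ⟨h3, h4, h5⟩
        obtain ⟨rfl, h6⟩ := h2
        exact h1 ⟨h5, v', sr_notH hN h4, h3, h6⟩
      · rw [if_neg h2, zero_mul]
  have hsum : ∀ g q, mat (Γ.U0 ∘L Γ.Pav Γ.gl node on M + kop R) g q =
      if Γ.Big Γ.gl node on M q ∧ ∃ v, ¬ Γ.isH v ∧ Γ.Conn Γ.gl (g, v) q
      then ((Γ.csize Γ.gl q : ℂ))⁻¹ else 0 := by
    intro g q
    rw [mat_add, hU, hR1]
    simp only [R]
    by_cases h1 : Γ.Big Γ.gl node on M q ∧ ∃ v, ¬ Γ.isH v ∧ Γ.Conn Γ.gl (g, v) q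
    · rw [if_pos h1]
      obtain ⟨hB, v, hv, hc⟩ := h1
      by_cases hY : (g, v) ∈ Γ.Yset
      · rw [if_pos ⟨hB, v, hv, hc, hY⟩, if_neg, add_zero]
        rintro ⟨-, v', -, h2, h3⟩
        exact h3 (conn_gl_unique h (hc.trans' h2.symm') ▸ hY)
      · rw [if_neg, if_pos ⟨hB, v, hv, hc, hY⟩, zero_add]
        rintro ⟨-, v', -, h2, h3⟩
        exact hY (conn_gl_unique h (h2.trans' hc.symm') ▸ h3)
    · rw [if_neg h1, if_neg, if_neg, add_zero]
      · rintro ⟨hB, v, hv, hc, -⟩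
        exact h1 ⟨hB, v, hv, hc⟩
      · rintro ⟨hB, v, hv, hc, -⟩
        exact h1 ⟨hB, v, hv, hc⟩
  have hUav : Γ.Uav node on M = Γ.U0 ∘L Γ.Pav Γ.gl node on M + kop R := eq_kop hsum
  rw [hUav]
  refine ⟨hsum, ?_⟩
  rw [add_sub_cancel_left]
  refine hR2.trans (le_of_eq ?_)
  congr 1
  ring

end BG
end Crest.Agent.R129
end

-- ▼ part PVb/R129/SZY
section

/-!
# Equivalence of projections and the trace swap (task R129/SZY).  Statements frozen.
-/

set_option autoImplicit false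
open scoped BigOperators

namespace Crest.Agent.R129

/-- `R = Z* Z + (1 - P)` and `R' = Z Z* + (1 - e)` are within distance `< 1` of `1`, so they are units
(`Units.oneSub`); `R P = Z* Z = P R`, `R' Z = Z R`, `R' e = Z Z*`.  Put `Y = R⁻¹ Z*`. -/
theorem exists_pinv {I J : Type} (Z : L2 I →L[ℂ] L2 J) (P : L2 I →L[ℂ] L2 I) (e : L2 J →L[ℂ] L2 J)
    (hP : P ∘L P = P) (hP' : adj P = P) (he : e ∘L e = e) (he' : adj e = e)
    (h1 : Z ∘L P = Z) (h2 : e ∘L Z = Z) (h3 : ‖adj Z ∘L Z - P‖ < 1) (h4 : ‖Z ∘L adj Z - e‖ < 1) :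
    ∃ Y : L2 J →L[ℂ] L2 I, Y ∘L Z = P ∧ Z ∘L Y = e ∧
      ∀ (u : L2 I →L[ℂ] L2 I) (u' : L2 J →L[ℂ] L2 J), u' ∘L Z = Z ∘L u →
        u ∘L adj Z = adj Z ∘L u' → u ∘L P = P ∘L u → u ∘L Y = Y ∘L u' := by
  have hPP : ∀ x, P (P x) = P x := fun x => DFunLike.congr_fun hP x
  have hee : ∀ x, e (e x) = e x := fun x => DFunLike.congr_fun he x
  have hZP : ∀ x, Z (P x) = Z x := fun x => DFunLike.congr_fun h1 x
  have heZ : ∀ x, e (Z x) = Z x := fun x => DFunLike.congr_fun h2 x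
  have hZe : ∀ y, adj Z (e y) = adj Z y := fun y => by
    have : adj (e ∘L Z) = adj Z ∘L adj e := ContinuousLinearMap.adjoint_comp _ _
    rw [he', h2] at this
    symm
    exact DFunLike.congr_fun this y
  let R := Units.oneSub (P - adj Z ∘L Z) (by rwa [norm_sub_rev])
  let R' := Units.oneSub (e - Z ∘L adj Z) (by rwa [norm_sub_rev])
  have hR : ∀ x, R.val x = x - (P x - adj Z (Z x)) := fun x => rfl
  have hR' : ∀ y, R'.val y = y - (e y - Z (adj Z y)) := fun y => rfl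
  have hRi : ∀ x, R.inv (R.val x) = x := fun x => DFunLike.congr_fun R.inv_val x
  have hiR : ∀ x, R.val (R.inv x) = x := fun x => DFunLike.congr_fun R.val_inv x
  have hRi' : ∀ x, R'.inv (R'.val x) = x := fun x => DFunLike.congr_fun R'.inv_val x
  have inj : ∀ x x', R.val x = R.val x' → x = x' := fun x x' h => by rw [← hRi x, h, hRi]
  have inj' : ∀ x x', R'.val x = R'.val x' → x = x' := fun x x' h => by rw [← hRi' x, h, hRi']
  refine ⟨R.inv ∘L adj Z, ?_, ?_, fun u u' k1 k2 k3 => ?_⟩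
  · refine ContinuousLinearMap.ext fun x => inj _ _ ?_
    change R.val (R.inv (adj Z (Z x))) = _
    rw [hiR, hR, hPP, hZP]; abel
  · refine ContinuousLinearMap.ext fun y => inj' _ _ ?_
    change R'.val (Z (R.inv (adj Z y))) = _
    have k : ∀ x, R'.val (Z x) = Z (R.val x) := fun x => by
      rw [hR', hR, heZ, map_sub, map_sub, hZP]
    rw [k, hiR, hR', hee, hZe]; abel
  · have l1 : ∀ x, u' (Z x) = Z (u x) := fun x => DFunLike.congr_fun k1 x
    have l2 : ∀ x, u (adj Z x) = adj Z (u' x) := fun x => DFunLike.congr_fun k2 x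
    have l3 : ∀ x, u (P x) = P (u x) := fun x => DFunLike.congr_fun k3 x
    refine ContinuousLinearMap.ext fun y => inj _ _ ?_
    change R.val (u (R.inv (adj Z y))) = R.val (R.inv (adj Z (u' y)))
    have k : ∀ x, R.val (u x) = u (R.val x) := fun x => by
      rw [hR, hR, map_sub, map_sub, l3, l2, l1]
    rw [k, hiR, hiR, l2]

theorem szy_emb_dl {I J : Type} {f : I → J} (hf : Function.Injective f) (i : I) :
    emb f (dl i) = dl (f i) := by
  classical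
  ext j
  have h := mat_emb hf j i
  rw [dl_apply]
  unfold mat at h
  rw [h]

theorem szy_emb_apply {I J : Type} {f : I → J} (hf : Function.Injective f) (ξ : L2 I) (i : I) :
    (emb f ξ : J → ℂ) (f i) = (ξ : I → ℂ) i := by
  rw [← adj_emb_apply hf]
  have := congrArg (fun S : L2 I →L[ℂ] L2 I => S ξ) (adj_emb_comp hf)
  simp only [ContinuousLinearMap.comp_apply, one_apply_eq_self] at this
  rw [this]

theorem szy_norm_le {I : Type} {P : L2 I →L[ℂ] L2 I} (hP : P ∘L P = P) (hP' : adj P = P) :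
    ‖P‖ ≤ 1 := by
  have h := ContinuousLinearMap.norm_adjoint_comp_self P
  change ‖adj P ∘L P‖ = _ at h
  rw [hP', hP] at h
  by_contra hc
  push Not at hc
  nlinarith

/-- equivariance in terms of matrix entries -/
theorem comp_emb_iff {I J : Type} (T : L2 I →L[ℂ] L2 J) (σ : I ≃ I) (τ : J ≃ J) :
    emb τ ∘L T = T ∘L emb σ ↔ ∀ j i, mat T (τ j) (σ i) = mat T j i := by
  have e1 : ∀ j i, mat (emb τ ∘L T) (τ j) i = mat T j i := fun j i =>
    szy_emb_apply τ.injective (T (dl i)) j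
  have e2 : ∀ j i, mat (T ∘L emb σ) j i = mat T j (σ i) := fun j i => by
    unfold mat
    rw [ContinuousLinearMap.comp_apply, szy_emb_dl σ.injective]
  constructor
  · intro h j i
    rw [← e2, ← h, e1]
  · intro h
    refine mat_ext fun j i => ?_
    obtain ⟨j, rfl⟩ := τ.surjective j
    rw [e1, e2, h]

/-- `mat (Z Y) 1 1 = ∑ (g,v), mat Z 1 (g,v) * mat Y (g,v) 1
= ∑ (g,v), mat Y (1,v) g⁻¹ * mat Z g⁻¹ (1,v)`; `HasSum.prod_fiberwise` after swapping the factors -/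
theorem trace_swap {G V : Type} [Group G] (Z : L2 (G × V) →L[ℂ] L2 G) (Y : L2 G →L[ℂ] L2 (G × V))
    (hZ : ∀ g a k v, mat Z (g * k) (a * k, v) = mat Z g (a, v))
    (hY : ∀ g a k v, mat Y (a * k, v) (g * k) = mat Y (a, v) g) :
    HasSum (fun v => mat (Y ∘L Z) (1, v) (1, v)) (mat (Z ∘L Y) 1 1) := by
  have h := hasSum_mat_comp Z Y 1 1
  let E : V × G ≃ G × V := (Equiv.prodComm V G).trans ((Equiv.inv G).prodCongr (Equiv.refl V))
  rw [← E.hasSum_iff] at h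
  refine h.prod_fiberwise fun v => ?_
  have h2 := hasSum_mat_comp Y Z (1, v) (1, v)
  refine h2.congr_fun ?_
  intro g
  have a1 := hZ 1 g⁻¹ g v
  have a2 := hY 1 g⁻¹ g v
  rw [one_mul, inv_mul_cancel] at a1 a2
  change mat Z 1 (g⁻¹, v) * mat Y (g⁻¹, v) 1 = _
  rw [← a1, ← a2, mul_comm]

/-- an equivariant almost unitary equivalence: `Z = e U P`; everything in one statement -/
theorem trace_of_close {G V : Type} [Group G] (U : L2 (G × V) →L[ℂ] L2 G)
    (P : L2 (G × V) →L[ℂ] L2 (G × V)) (e : L2 G →L[ℂ] L2 G)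
    (hP : P ∘L P = P) (hP' : adj P = P) (he : e ∘L e = e) (he' : adj e = e)
    (hU : ∀ g a k v, mat U (g * k) (a * k, v) = mat U g (a, v))
    (hPe : ∀ a b k u v, mat P (a * k, u) (b * k, v) = mat P (a, u) (b, v))
    (hee : ∀ g a k, mat e (g * k) (a * k) = mat e g a)
    (h1 : U ∘L P = U) (h3 : ‖adj U ∘L U - P‖ ≤ 1 / 10) (h4 : ‖U ∘L adj U - e‖ ≤ 1 / 10) :
    HasSum (fun v => mat P (1, v) (1, v)) (mat e 1 1) := by
  have nP := szy_norm_le hP hP'
  have ne := szy_norm_le he he'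
  have hadj : adj (e ∘L U) = adj U ∘L e := by
    have : adj (e ∘L U) = adj U ∘L adj e := ContinuousLinearMap.adjoint_comp _ _
    rwa [he'] at this
  have hee' : ∀ x, e (e x) = e x := fun x => DFunLike.congr_fun he x
  have hPP : ∀ x, P (P x) = P x := fun x => DFunLike.congr_fun hP x
  have nU : ‖U‖ * ‖U‖ ≤ 11 / 10 := by
    have h := ContinuousLinearMap.norm_adjoint_comp_self U
    change ‖adj U ∘L U‖ = _ at h
    have h' := norm_add_le (adj U ∘L U - P) P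
    rw [sub_add_cancel] at h'
    linarith
  have nU' : ‖adj U‖ = ‖U‖ := LinearIsometryEquiv.norm_map _ _
  have k3 : ‖adj (e ∘L U) ∘L (e ∘L U) - P‖ < 1 := by
    obtain ⟨D, hD⟩ : ∃ D, D = adj U ∘L U - P := ⟨_, rfl⟩
    obtain ⟨E, hE⟩ : ∃ E, E = U ∘L adj U - e := ⟨_, rfl⟩
    have e1 : adj (e ∘L U) ∘L (e ∘L U) - P =
        P ∘L D + D ∘L P + D ∘L D - adj U ∘L E ∘L U := by
      rw [hadj, hD, hE]
      refine ContinuousLinearMap.ext fun x => ?_
      simp only [ContinuousLinearMap.comp_apply, sub_apply, add_apply, map_sub, hee', hPP]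
      abel
    rw [← hD] at h3
    rw [← hE] at h4
    have a1 := (P.opNorm_comp_le D).trans (mul_le_mul nP h3 (norm_nonneg _) zero_le_one)
    have a2 := (D.opNorm_comp_le P).trans (mul_le_mul h3 nP (norm_nonneg _) (by norm_num))
    have a3 := (D.opNorm_comp_le D).trans (mul_le_mul h3 h3 (norm_nonneg _) (by norm_num))
    have a4 := ((adj U).opNorm_comp_le (E ∘L U)).trans
      (mul_le_mul_of_nonneg_left ((E.opNorm_comp_le U).trans
        (mul_le_mul_of_nonneg_right h4 (norm_nonneg _))) (norm_nonneg _))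
    rw [nU'] at a4
    rw [e1]
    have a5 := norm_sub_le (P ∘L D + D ∘L P + D ∘L D) (adj U ∘L E ∘L U)
    have a6 := norm_add_le (P ∘L D + D ∘L P) (D ∘L D)
    have a7 := norm_add_le (P ∘L D) (D ∘L P)
    linarith
  have k4 : ‖(e ∘L U) ∘L adj (e ∘L U) - e‖ < 1 := by
    obtain ⟨E, hE⟩ : ∃ E, E = U ∘L adj U - e := ⟨_, rfl⟩
    have e1 : (e ∘L U) ∘L adj (e ∘L U) - e = e ∘L E ∘L e := by
      rw [hadj, hE]
      refine ContinuousLinearMap.ext fun x => ?_
      simp only [ContinuousLinearMap.comp_apply, sub_apply, map_sub, hee']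
    rw [← hE] at h4
    have a4 := (e.opNorm_comp_le (E ∘L e)).trans
      (mul_le_mul ne ((E.opNorm_comp_le e).trans (mul_le_mul h4 ne (norm_nonneg _) (by norm_num)))
        (norm_nonneg _) zero_le_one)
    rw [e1]
    linarith
  obtain ⟨Y, hY1, hY2, hY3⟩ := exists_pinv (e ∘L U) P e hP hP' he he'
    (by rw [ContinuousLinearMap.comp_assoc, h1]) (by rw [← ContinuousLinearMap.comp_assoc, he]) k3 k4
  let σ : G → G × V ≃ G × V := fun k => (Equiv.mulRight k).prodCongr (Equiv.refl V)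
  have c1 : ∀ k, emb (Equiv.mulRight k) ∘L U = U ∘L emb (σ k) := fun k =>
    (comp_emb_iff U _ _).2 fun g p => hU g p.1 k p.2
  have c2 : ∀ k, emb (Equiv.mulRight k) ∘L e = e ∘L emb (Equiv.mulRight k) := fun k =>
    (comp_emb_iff e _ _).2 fun g a => hee g a k
  have c3 : ∀ k, emb (σ k) ∘L P = P ∘L emb (σ k) := fun k =>
    (comp_emb_iff P _ _).2 fun p q => hPe p.1 q.1 k p.2 q.2
  have c4 : ∀ k, emb (σ k) ∘L adj U = adj U ∘L emb (Equiv.mulRight k) := fun k =>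
    (comp_emb_iff (adj U) _ _).2 fun p g => by
      rw [mat_adj, mat_adj]; exact congrArg _ (hU g p.1 k p.2)
  have c5 : ∀ k, emb (Equiv.mulRight k) ∘L (e ∘L U) = (e ∘L U) ∘L emb (σ k) := fun k => by
    rw [← ContinuousLinearMap.comp_assoc, c2, ContinuousLinearMap.comp_assoc, c1,
      ContinuousLinearMap.comp_assoc]
  have c6 : ∀ k, emb (σ k) ∘L adj (e ∘L U) = adj (e ∘L U) ∘L emb (Equiv.mulRight k) := fun k => by
    rw [hadj, ← ContinuousLinearMap.comp_assoc, c4, ContinuousLinearMap.comp_assoc, c2,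
      ContinuousLinearMap.comp_assoc]
  have := trace_swap (e ∘L U) Y
    (fun g a k v => (comp_emb_iff _ _ _).1 (c5 k) g (a, v))
    (fun g a k v => (comp_emb_iff _ _ _).1 (hY3 _ _ (c5 k) (c6 k) (c3 k)) (a, v) g)
  rwa [hY1, hY2] at this

open Classical in
/-- regroup a sum over vertices by nodes -/
theorem hasSum_nodes {V : Type} (node : ℤ → Finset V) (on : ℤ → Prop)
    (hd : ∀ i j, i ≠ j → Disjoint (node i) (node j)) (f : V → ℂ) (x : ℂ) (h : HasSum f x)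
    (h0 : ∀ v, (∀ i, on i → v ∉ node (i + 1)) → f v = 0) :
    HasSum (fun i : ℤ => if on i then ∑ v ∈ node (i + 1), f v else 0) x := by
  let T : ℤ → Finset V := fun i => if on i then node (i + 1) else ∅
  have hT : ∀ i v, v ∈ T i ↔ on i ∧ v ∈ node (i + 1) := fun i v => by
    by_cases hi : on i <;> simp [T, hi]
  let φ : (Σ i : ℤ, T i) → V := fun p => p.2
  have hφ : Function.Injective φ := by
    rintro ⟨i, v, hv⟩ ⟨j, w, hw⟩ e
    obtain rfl : v = w := e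
    obtain rfl : i = j := by
      by_contra hc
      exact Finset.disjoint_left.1 (hd (i + 1) (j + 1) (by omega)) ((hT _ _).1 hv).2 ((hT _ _).1 hw).2
    rfl
  rw [← hφ.hasSum_iff (fun v hv => h0 v fun i hi hv' => hv ⟨⟨i, v, (hT _ _).2 ⟨hi, hv'⟩⟩, rfl⟩)] at h
  refine h.sigma fun i => ?_
  have := (T i).hasSum f
  have e : ∑ v ∈ T i, f v = if on i then ∑ v ∈ node (i + 1), f v else 0 := by
    by_cases hi : on i <;> simp [T, hi]
  rw [e] at this
  exact this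

end Crest.Agent.R129
end

-- ▼ part PVb/R129/S73
section

/-! # Part S for the irrational trace -/

set_option autoImplicit false
open scoped BigOperators InnerProductSpace
open Crest.OperatorAlgebra

namespace Crest.Agent.R129

theorem norm_adj {I J : Type} (T : L2 I →L[ℂ] L2 J) : ‖adj T‖ = ‖T‖ :=
  LinearIsometryEquiv.norm_map _ _

theorem adj_comp' {I J K : Type} (S : L2 J →L[ℂ] L2 K) (T : L2 I →L[ℂ] L2 J) :
    adj (S ∘L T) = adj T ∘L adj S := ContinuousLinearMap.adjoint_comp _ _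

theorem HasSum.congr_fun' {ι : Type} {f g : ι → ℝ} {x : ℝ} (h : HasSum f x) (e : ∀ i, g i = f i) :
    HasSum g x := (funext e : g = f) ▸ h

theorem norm_comp_le' {I J K : Type} (S : L2 J →L[ℂ] L2 K) (T : L2 I →L[ℂ] L2 J) {a b : ℝ}
    (hS : ‖S‖ ≤ a) (hT : ‖T‖ ≤ b) : ‖S ∘L T‖ ≤ a * b :=
  (ContinuousLinearMap.opNorm_comp_le _ _).trans
    (mul_le_mul hS hT (norm_nonneg _) ((norm_nonneg _).trans hS))

/-- the abstract perturbation argument -/
theorem close_of_close {I J : Type} (U0 Ua : L2 I →L[ℂ] L2 J) (P Y Yc : L2 I →L[ℂ] L2 I)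
    (T : L2 J →L[ℂ] L2 J) (hT : IsSelfAdjoint T) (hP : P ∘L P = P) (hP' : adj P = P)
    (nP : ‖P‖ ≤ 1) (nU : ‖U0‖ ≤ 1) (hY : adj U0 ∘L U0 = Y) (hYc : adj Yc ∘L Yc = 1 - Y)
    (h1 : ‖Yc ∘L P‖ ≤ 1 / 100) (h2 : ‖Ua - U0 ∘L P‖ ≤ 1 / 100)
    (h3 : ‖T - U0 ∘L P ∘L adj U0‖ ≤ 1 / 500) :
    R129S.Gap T (1 / 2) (1 / 4) ∧ ‖adj (Ua ∘L P) ∘L (Ua ∘L P) - P‖ ≤ 1 / 10 ∧
      ‖(Ua ∘L P) ∘L adj (Ua ∘L P) - R129S.up T (1 / 2)‖ ≤ 1 / 10 := by
  set U1 := U0 ∘L P with hU1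
  set U := Ua ∘L P with hU
  have n1 : ‖U1‖ ≤ 1 := by simpa using norm_comp_le' U0 P nU nP
  have hU1P : U1 ∘L P = U1 := by rw [hU1, ContinuousLinearMap.comp_assoc, hP]
  have d1 : ‖U - U1‖ ≤ 1 / 100 := by
    have : U - U1 = (Ua - U1) ∘L P := by rw [ContinuousLinearMap.sub_comp, hU1P]
    rw [this]
    simpa using norm_comp_le' _ P h2 nP
  have n2 : ‖U‖ ≤ 101 / 100 := by
    have := norm_add_le (U - U1) U1
    rw [sub_add_cancel] at this
    linarith
  have a1 : adj U1 = P ∘L adj U0 := by rw [hU1, adj_comp', hP']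
  have e1 : adj U1 ∘L U1 - P = -(adj (Yc ∘L P) ∘L (Yc ∘L P)) := by
    rw [a1, hU1, adj_comp', hP', ContinuousLinearMap.comp_assoc,
      ContinuousLinearMap.comp_assoc, ← ContinuousLinearMap.comp_assoc (adj U0), hY,
      ← ContinuousLinearMap.comp_assoc (adj Yc), hYc,
      ContinuousLinearMap.sub_comp, ContinuousLinearMap.comp_sub, ContinuousLinearMap.one_def,
      ContinuousLinearMap.id_comp, hP]
    abel
  have d2 : ‖adj U1 ∘L U1 - P‖ ≤ 1 / 10000 := by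
    rw [e1, norm_neg]
    have := norm_comp_le' (adj (Yc ∘L P)) (Yc ∘L P) ((norm_adj _).trans_le h1) h1
    linarith
  have d3 : ‖adj U ∘L U - adj U1 ∘L U1‖ ≤ 2 * (101 / 100) * (1 / 100) :=
    R129S.norm_adjoint_comp_sub U U1 n2 (by linarith) d1
  have d4 : ‖U ∘L adj U - U1 ∘L adj U1‖ ≤ 2 * (101 / 100) * (1 / 100) := by
    have := R129S.norm_adjoint_comp_sub (adj U) (adj U1) (a := 101 / 100) (δ := 1 / 100)
      ((norm_adj _).trans_le n2) ((norm_adj _).trans_le (by linarith))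
      (by rw [← map_sub]; exact (norm_adj _).trans_le d1)
    rwa [ContinuousLinearMap.adjoint_adjoint, ContinuousLinearMap.adjoint_adjoint] at this
  set S0 := U1 ∘L adj U1 with hS0
  have e2 : U0 ∘L P ∘L adj U0 = S0 := by
    rw [hS0, a1, ← ContinuousLinearMap.comp_assoc U1, hU1P, hU1, ContinuousLinearMap.comp_assoc]
  rw [e2] at h3
  have n3 : ‖S0‖ ≤ 1 := by simpa using norm_comp_le' U1 (adj U1) n1 ((norm_adj _).trans_le n1)
  have d5 : ‖S0 * S0 - S0‖ ≤ 1 / 10000 := by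
    have : S0 * S0 - S0 = U1 ∘L (adj U1 ∘L U1 - P) ∘L adj U1 := by
      rw [ContinuousLinearMap.sub_comp, ContinuousLinearMap.comp_sub,
        ← ContinuousLinearMap.comp_assoc U1 P, hU1P]
      rfl
    rw [this]
    simpa using norm_comp_le' U1 _ n1 (norm_comp_le' _ _ d2 ((norm_adj _).trans_le n1))
  have d6 : ‖T * T - T‖ ≤ 1 / 100 := by
    have e : T * T - T = (S0 * S0 - S0) + (T - S0) * T + S0 * (T - S0) - (T - S0) := by
      noncomm_ring
    have n4 : ‖T‖ ≤ 2 := by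
      have := norm_add_le (T - S0) S0
      rw [sub_add_cancel] at this
      linarith
    have b1 : ‖(T - S0) * T‖ ≤ 1 / 500 * 2 := norm_comp_le' _ _ h3 n4
    have b2 : ‖S0 * (T - S0)‖ ≤ 1 * (1 / 500) := norm_comp_le' _ _ n3 h3
    rw [e]
    have c1 := norm_sub_le ((S0 * S0 - S0) + (T - S0) * T + S0 * (T - S0)) (T - S0)
    have c2 := norm_add_le ((S0 * S0 - S0) + (T - S0) * T) (S0 * (T - S0))
    have c3 := norm_add_le (S0 * S0 - S0) ((T - S0) * T)
    linarith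
  obtain ⟨g, d7⟩ := R129S.approx_proj hT (by norm_num) d6
  refine ⟨g, ?_, ?_⟩
  · have := norm_sub_le_norm_sub_add_norm_sub (adj U ∘L U) (adj U1 ∘L U1) P
    linarith
  · have c1 := norm_sub_le_norm_sub_add_norm_sub (U ∘L adj U) S0 (R129S.up T (1 / 2))
    have c2 := norm_sub_le_norm_sub_add_norm_sub S0 T (R129S.up T (1 / 2))
    rw [norm_sub_rev] at h3 d7
    linarith

theorem prj_compl {I : Type} (s : Set I) : adj (prj sᶜ) ∘L prj sᶜ = 1 - prj s := by
  classical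
  rw [adj_prj, prj_comp_prj, Set.inter_self]
  refine mat_ext fun j i => ?_
  rw [mat_sub, mat_prj, mat_prj, mat_one]
  by_cases h1 : j = i <;> by_cases h2 : i ∈ s <;> simp [h1, h2]

theorem mat_comp_mul_right {G V : Type} [Group G] (U : L2 (G × V) →L[ℂ] L2 G)
    (P : L2 (G × V) →L[ℂ] L2 (G × V))
    (hU : ∀ g a k v, mat U (g * k) (a * k, v) = mat U g (a, v))
    (hP : ∀ a b k u v, mat P (a * k, u) (b * k, v) = mat P (a, u) (b, v))
    (g a k : G) (v : V) : mat (U ∘L P) (g * k) (a * k, v) = mat (U ∘L P) g (a, v) := by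
  have h1 := hasSum_mat_comp U P (g * k) (a * k, v)
  rw [← ((Equiv.mulRight k).prodCongr (Equiv.refl V)).hasSum_iff] at h1
  refine h1.unique ?_
  convert hasSum_mat_comp U P g (a, v) using 2 with p
  obtain ⟨b, u⟩ := p
  exact congrArg₂ (· * ·) (hU g b k u) (hP b a k u v)

open Classical in
theorem partS73' : ∃ ε C₀ : ℝ, 0 < ε ∧ 0 < C₀ ∧
    ∀ (F A : Type) [Fintype F] [DecidableEq F] [Nonempty F] [Group A]
    (Γ : BG F A) (node : ℤ → Finset Γ.V) (on : ℤ → Prop) (μ : ℤ → (A × ZMod 4) →₀ ℝ)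
    (Ai : ℤ → Subgroup A) (lam : ℝ), Γ.SCHyp → (∀ i, on i → Even i) →
    (∀ i, (node i).Nonempty) → (∀ i j, i ≠ j → Disjoint (node i) (node j)) →
    (∀ i, ∀ v ∈ node i, Γ.isH v ↔ Even i) →
    (∀ i, IsLaw (μ i)) → (∀ i, on i → Finite (Ai i)) →
    (∀ i, on i → ∀ x, qco (μ i) x = if x ∈ Ai i then ((Nat.card (Ai i) : ℂ))⁻¹ else 0) →
    (∀ u t w, Γ.nb u t = some w → ∃ i, on i ∧ u ∈ node i ∧ w ∈ node (i + 1) ∧ Γ.a u t ∈ Ai i) →
    (∀ i, on i → ∀ v, v ∈ node i ∨ v ∈ node (i + 1) →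
      ((Fintype.card F : ℝ) + 1) ^ (⌈8 * Γ.L v⌉₊ + 1) * 2 ^ i.natAbs ≤ ε * Nat.card (Ai i)) →
    0 < lam → C₀ * (Fintype.card F * Real.sqrt (Fintype.card F)) ≤ lam ^ 2 →
    ‖Γ.Bop Γ.a - (lam : ℂ) • (Γ.Wop A node ∘L Qop μ on ∘L adj (Γ.Wop A node))‖ ≤ ε * lam →
    ∃ (G : Type) (_ : Group G), Group.FG G ∧
      ∃ b ∈ reducedGroupCStar G, b * b = b ∧ star b = b ∧
        HasSum (fun i : ℤ => if on i then ((Nat.card (Ai i) : ℝ))⁻¹ else 0)
          (canonicalTrace G b).re := by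
  refine ⟨1 / 60000, 34000, by norm_num, by norm_num, ?_⟩
  intro F A _ _ _ _ Γ node on μ Ai l h hev hne hd hty hμ hf hq hed hs hl hC hB
  have hN : Γ.NodeHyp node on :=
    ⟨hev, hne, hd, hty, fun u t w e => (hed u t w e).imp fun i hi => ⟨hi.1, hi.2.1, hi.2.2.1⟩⟩
  set X := Γ.Wop A node ∘L Qop μ on ∘L adj (Γ.Wop A node) with hX
  have hG : BG.GiantHyp Γ node on Ai (adj X ∘L X) l (5 * (1 / 60000)) :=
    { hN := hN
      fin := hf
      hA := fun u t w i e hi hu => by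
        obtain ⟨j, -, hj, -, hj'⟩ := hed u t w e
        by_cases hij : i = j
        · exact hij ▸ hj'
        · exact absurd hj (Finset.disjoint_left.1 (hd i j hij) hu)
      m1 := fun p q i => (BG.mat_XX hN hμ hf hq p q).1 i
      m0 := fun p q => (BG.mat_XX hN hμ hf hq p q).2
      lpos := hl
      dpos := by norm_num
      dle := by norm_num
      close := norm_adj_comp_sub _ _ hl.le (by norm_num) (BG.norm_X_le hN hμ) hB }
  set M := blkSize node Ai with hM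
  have hl2 : 0 < l ^ 2 := by positivity
  -- the `A`-cover
  have c1 : ‖adj (Γ.Bop Γ.a) ∘L Γ.Bop Γ.a - ((l ^ 2 : ℝ) : ℂ) • Γ.Pav Γ.a node on M‖
      ≤ 30 * (1 / 60000) * l ^ 2 := by
    have h1 := norm_sub_le_norm_sub_add_norm_sub (adj (Γ.Bop Γ.a) ∘L Γ.Bop Γ.a)
      (((l ^ 2 : ℝ) : ℂ) • (adj X ∘L X)) (((l ^ 2 : ℝ) : ℂ) • Γ.Pav Γ.a node on M)
    rw [← smul_sub, norm_smul, Complex.norm_real, Real.norm_of_nonneg hl2.le] at h1
    have h2 := mul_le_mul_of_nonneg_left hG.norm_sub hl2.le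
    have h3 := hG.close
    linarith
  -- the group cover
  obtain ⟨⟨φ, hφ⟩, -⟩ := BG.exists_covIso_gl h
  set P := Γ.Pav Γ.gl node on M with hP
  have c2 : ‖adj (Γ.Bop Γ.gl) ∘L Γ.Bop Γ.gl - ((l ^ 2 : ℝ) : ℂ) • P‖ ≤ 30 * (1 / 60000) * l ^ 2 :=
    (((hφ.locIso_Bop.adj'.comp hφ.inj_comp hφ.locIso_Bop).sub
      ((hφ.locIso_Pav hN).smul _)).norm_le hφ.inj_comp).trans c1
  set n : ℝ := (Fintype.card F : ℝ) with hn_def
  set w : ℝ := n * Real.sqrt n with hw
  set c : ℝ := 4 * n ^ 2 with hc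
  have c3 : ‖adj Γ.Bdp ∘L Γ.Bdp - ((l ^ 2 : ℝ) : ℂ) • P‖ ≤ 4 * w + 30 * (1 / 60000) * l ^ 2 := by
    have h1 := norm_sub_le_norm_sub_add_norm_sub (adj Γ.Bdp ∘L Γ.Bdp)
      (adj (Γ.Bop Γ.gl) ∘L Γ.Bop Γ.gl) (((l ^ 2 : ℝ) : ℂ) • P)
    have h2 := BG.norm_BB_sub h
    linarith
  have nU := BG.norm_U0_le h
  have c4 : ‖Γ.Top - (c : ℂ) • (1 : L2 Γ.Grp →L[ℂ] L2 Γ.Grp)
      - ((l ^ 2 : ℝ) : ℂ) • (Γ.U0 ∘L P ∘L adj Γ.U0)‖ ≤ 34 * w + 30 * (1 / 60000) * l ^ 2 := by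
    have h1 := norm_sub_le_norm_sub_add_norm_sub
      (Γ.Top - (c : ℂ) • (1 : L2 Γ.Grp →L[ℂ] L2 Γ.Grp)) (adj (Γ.Dp Γ.IsB) ∘L Γ.Dp Γ.IsB)
      (((l ^ 2 : ℝ) : ℂ) • (Γ.U0 ∘L P ∘L adj Γ.U0))
    have h2 := BG.split h
    have h3 : adj (Γ.Dp Γ.IsB) ∘L Γ.Dp Γ.IsB - ((l ^ 2 : ℝ) : ℂ) • (Γ.U0 ∘L P ∘L adj Γ.U0)
        = Γ.U0 ∘L (adj Γ.Bdp ∘L Γ.Bdp - ((l ^ 2 : ℝ) : ℂ) • P) ∘L adj Γ.U0 := by
      rw [BG.BB_eq h, ContinuousLinearMap.sub_comp, ContinuousLinearMap.comp_sub,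
        ContinuousLinearMap.smul_comp, ContinuousLinearMap.comp_smul]
    have h4 := norm_comp_le' Γ.U0 _ nU (norm_comp_le' _ _ c3 ((norm_adj _).trans_le nU))
    rw [← h3] at h4
    linarith
  set T : L2 Γ.Grp →L[ℂ] L2 Γ.Grp :=
    (((l ^ 2)⁻¹ : ℝ) : ℂ) • (Γ.Top - (c : ℂ) • (1 : L2 Γ.Grp →L[ℂ] L2 Γ.Grp)) with hT
  have hTm : T ∈ R129S.redAlg Γ.Grp :=
    SMulMemClass.smul_mem _ (sub_mem Γ.Top_mem (SMulMemClass.smul_mem _ (one_mem _)))
  have hTs : IsSelfAdjoint T := by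
    refine IsSelfAdjoint.smul ?_ (Γ.Top_selfAdjoint.sub (IsSelfAdjoint.smul ?_ (IsSelfAdjoint.one _)))
    · exact Complex.conj_ofReal _
    · exact Complex.conj_ofReal _
  have c5 : ‖T - Γ.U0 ∘L P ∘L adj Γ.U0‖ ≤ 1 / 500 := by
    have e : T - Γ.U0 ∘L P ∘L adj Γ.U0 = (((l ^ 2)⁻¹ : ℝ) : ℂ) •
        (Γ.Top - (c : ℂ) • (1 : L2 Γ.Grp →L[ℂ] L2 Γ.Grp)
          - ((l ^ 2 : ℝ) : ℂ) • (Γ.U0 ∘L P ∘L adj Γ.U0)) := by
      rw [smul_sub, smul_smul, ← Complex.ofReal_mul, inv_mul_cancel₀ hl2.ne', Complex.ofReal_one,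
        one_smul]
    rw [e, norm_smul, Complex.norm_real, Real.norm_of_nonneg (inv_nonneg.2 hl2.le),
      inv_mul_le_iff₀ hl2]
    linarith
  obtain ⟨mU, c6⟩ := BG.Uav_spec (N := fun i => Nat.card (Ai i)) h hN (by norm_num) hs
  have c7 := BG.norm_prj_compl_Pav (N := fun i => Nat.card (Ai i)) h hN (by norm_num) hs
  have s1 : Real.sqrt (6 * (1 / 60000)) ≤ 1 / 100 := Real.sqrt_le_iff.2 (by norm_num)
  have s2 : Real.sqrt (2 * (1 / 60000)) ≤ 1 / 100 := Real.sqrt_le_iff.2 (by norm_num)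
  obtain ⟨g, c8, c9⟩ := close_of_close Γ.U0 (Γ.Uav node on M) P (prj Γ.Yset) (prj Γ.Ysetᶜ) T hTs
    (BG.Pav_comp hN _) (BG.adj_Pav hN _) (BG.norm_Pav_le hN _) nU (BG.adj_U0_comp h)
    (prj_compl _) (c7.trans s2) (c6.trans s1) c5
  have hem := R129S.up_mem R129S.isClosed_redAlg hTm (1 / 2)
  have he1 := g.up_mul hTs (by norm_num)
  have he2 := (R129S.up_selfAdjoint T (1 / 2)).star_eq
  refine ⟨Γ.Grp, inferInstance, Γ.fg_Grp, R129S.up T (1 / 2), hem, he1, he2, ?_⟩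
  have hUe : ∀ g a k v, mat (Γ.Uav node on M) (g * k) (a * k, v) = mat (Γ.Uav node on M) g (a, v) := by
    intro g a k v
    refine (mU _ _).trans (Eq.trans ?_ (mU _ _).symm)
    simp only [BG.big_mul_right, BG.conn_mul_right, BG.csize_mul_right]
  have t1 := trace_of_close (Γ.Uav node on M ∘L P) P (R129S.up T (1 / 2)) (BG.Pav_comp hN _)
    (BG.adj_Pav hN _) he1 he2 (mat_comp_mul_right _ _ hUe (BG.mat_Pav_mul_right hN _))
    (BG.mat_Pav_mul_right hN _) (R129S.ent_mul_right hem)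
    (by rw [ContinuousLinearMap.comp_assoc, BG.Pav_comp hN]) c8 c9
  have t2 := hasSum_nodes node on hd _ _ t1 (fun v hv => by
    rw [BG.mat_Pav hN, if_neg]
    rintro ⟨-, ⟨i, hi, hv', -⟩, -⟩
    exact hv i hi hv')
  have t3 := Complex.hasSum_re t2
  rw [R129S.trace_eq]
  refine HasSum.congr_fun' t3 fun i => ?_
  split_ifs with hi
  · rw [Finset.sum_congr rfl fun v _ => hφ.mat_Pav_diag hN v, hG.sum_diag hi,
      ← Complex.ofReal_natCast, ← Complex.ofReal_inv, Complex.ofReal_re]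
  · rfl

end Crest.Agent.R129
end

-- ▼ part PVb/R129/PartS

/-! # Part S (owner helper84): spectral split.  The two statements are frozen. -/

set_option autoImplicit false
open Crest.OperatorAlgebra

namespace Crest.Agent.R129

/-- `T = D* D = |S| + J B_d* B_d J* + O(n^{3/2})`, `‖B^ - B_d‖ ≤ 2√n`, gap and norm of `B^ = Bop gl`
come from the `A`-cover (`embed`, `embed'`), `τ(T) = |S|`. -/
theorem partS74 : ∃ C₀ : ℝ, 0 < C₀ ∧ ∀ (F A : Type) [Fintype F] [DecidableEq F] [Nonempty F] [Group A]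
    (Γ : BG F A), Γ.SCHyp → (∀ a : A, IsOfFinOrder a → a = 1) → ∀ γ r : ℝ,
    C₀ * (Fintype.card F * Real.sqrt (Fintype.card F)) ≤ r → r ≤ γ →
    Gap (adj (Γ.Bop Γ.a) ∘L Γ.Bop Γ.a) γ r → γ - r / 2 ≤ ‖Γ.Bop Γ.a‖ ^ 2 →
    ∃ (G : Type) (_ : Group G), Group.FG G ∧ (∀ g : G, IsOfFinOrder g → g = 1) ∧
      ∃ e ∈ reducedGroupCStar G, e * e = e ∧ star e = e ∧
        0 < (canonicalTrace G e).re ∧ (canonicalTrace G e).re < 1 / 2 :=
  partS74'

open Classical in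
/-- Exact trace when the active pairs `(i,i+1)` (`i` even) carry uniform voltages in finite
subgroups `Ai i` that are huge compared with the shallow balls. -/
theorem partS73 : ∃ ε C₀ : ℝ, 0 < ε ∧ 0 < C₀ ∧
    ∀ (F A : Type) [Fintype F] [DecidableEq F] [Nonempty F] [Group A]
    (Γ : BG F A) (node : ℤ → Finset Γ.V) (on : ℤ → Prop) (μ : ℤ → (A × ZMod 4) →₀ ℝ)
    (Ai : ℤ → Subgroup A) (lam : ℝ), Γ.SCHyp → (∀ i, on i → Even i) →
    (∀ i, (node i).Nonempty) → (∀ i j, i ≠ j → Disjoint (node i) (node j)) →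
    (∀ i, ∀ v ∈ node i, Γ.isH v ↔ Even i) →
    (∀ i, IsLaw (μ i)) → (∀ i, on i → Finite (Ai i)) →
    (∀ i, on i → ∀ x, qco (μ i) x = if x ∈ Ai i then ((Nat.card (Ai i) : ℂ))⁻¹ else 0) →
    (∀ u t w, Γ.nb u t = some w → ∃ i, on i ∧ u ∈ node i ∧ w ∈ node (i + 1) ∧ Γ.a u t ∈ Ai i) →
    (∀ i, on i → ∀ v, v ∈ node i ∨ v ∈ node (i + 1) →
      ((Fintype.card F : ℝ) + 1) ^ (⌈8 * Γ.L v⌉₊ + 1) * 2 ^ i.natAbs ≤ ε * Nat.card (Ai i)) →
    0 < lam → C₀ * (Fintype.card F * Real.sqrt (Fintype.card F)) ≤ lam ^ 2 →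
    ‖Γ.Bop Γ.a - (lam : ℂ) • (Γ.Wop A node ∘L Qop μ on ∘L adj (Γ.Wop A node))‖ ≤ ε * lam →
    ∃ (G : Type) (_ : Group G), Group.FG G ∧
      ∃ b ∈ reducedGroupCStar G, b * b = b ∧ star b = b ∧
        HasSum (fun i : ℤ => if on i then ((Nat.card (Ai i) : ℝ))⁻¹ else 0)
          (canonicalTrace G b).re :=
  partS73'

end Crest.Agent.R129
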