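import Crest.Agent.PVb.R129.A.Low_Mg
import Crest.Agent.PVb.R129.A.Band
import Crest.Agent.PVb.R129.A.Est
import Crest.Agent.PVb.R129.WQ
import Crest.Agent.PVb.R129.A.Sym
import Crest.Agent.PVb.R129.A.Grow_Mg
import Crest.Agent.PVb.R129.PartS
import Crest.Agent.PVb.R129.PartG

-- ▼ part PVb/R129/A/Tri
section

/-! # `V V* V - V` is small, `V` is not (task R129/A-Tri). Statements frozen. -/

set_option autoImplicit false
open scoped BigOperators Matrix

namespace Crest.Agent.R129.A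
variable {p : Par} {ρ : NN p.n →* Matrix (I p.n) (I p.n) ℤ} {L : Loc ρ}

/-- If `j` is odd or `i` is even then `tri X j i = 0`.  Otherwise write `X° j i = br L (F j) 1 (F i)`,
`m k = ip L (F k) (F k)` (invariant: `ip_aff`).  By `ev_sub, ev_sum, ev_mul, ev_adjM`, `Bd.tri`, `Bd.st`, `st_sub`, each of the
four terms is within `3 e (r+e)²` of `tw (tw (X° j i') (st (X° j' i'))) (X° j' i) = br (F j) (m i' * m j') (F i)`
(`st_br`, `tw_br` twice, `F_inQ`, `fin_supp`).  The four brackets minus `X° j i` add up to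
`br (F j) ((m (j-1) + m (j+1)) (m (i-1) + m (i+1)) - 1) (F i)`, and where `chi j, chi i ≠ 0` both sums are within `2δ`
of `1` (`chi_sq`), so the middle function is at most `8 δ`; use `hbr`. -/
theorem tri_bd (h : p.Ok) (hc : IsConc p.b ρ L) (X : ℤ → ℤ → MonoidAlgebra ℂ (HG ρ)) {r e δ : ℝ}
    (hδ0 : 0 ≤ δ) (hδ : δ ≤ 1)
    (hX : ∀ j i, X j i ≠ 0 → Even j ∧ Odd i)
    (hbr : ∀ j i, Even j → Odd i → ∀ (m : (I p.n → ℝ) → ℝ) (c : ℝ), 0 ≤ c →
      (∀ y, chi p.P j (p.uu (y none)) ≠ 0 → chi p.P i (p.uu (y none)) ≠ 0 → |m y| ≤ c) →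
      Bd (br L (p.F j) m (p.F i)) (r * c))
    (hlink : ∀ j i, Even j → Odd i → Bd (ev (X j i) - br L (p.F j) (fun _ => 1) (p.F i)) e)
    (hip : ∀ m y, |ip L (p.F m) (p.F m) y - chi p.P m (p.uu (y none)) ^ 2| ≤ δ) (j i : ℤ) :
    Bd (ev (tri X j i)) (12 * e * (r + e) ^ 2 + e + 8 * δ * r) := by
  have hr : 0 ≤ r := by
    simpa using (hbr 0 1 Even.zero odd_one (fun _ => 0) 1 zero_le_one (by simp)).nonneg
  have he : 0 ≤ e := (hlink 0 1 Even.zero odd_one).nonneg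
  by_cases hji : Even j ∧ Odd i
  swap
  · have h0 : tri X j i = 0 := by
      have a0 : X j i = 0 := by_contra fun hne => hji (hX _ _ hne)
      rw [tri, a0, sub_zero]
      refine Finset.sum_eq_zero fun i' _ => Finset.sum_eq_zero fun j' _ => ?_
      rcases not_and_or.1 hji with h1 | h1
      · rw [show X j i' = 0 from by_contra fun hne => h1 (hX _ _ hne).1, zero_mul, zero_mul]
      · rw [show X j' i = 0 from by_contra fun hne => h1 (hX _ _ hne).2, mul_zero]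
    rw [h0, ev_zero]
    exact bd_zero (by positivity)
  obtain ⟨hj, hi⟩ := hji
  have hQ : ∀ m y, p.F m y ≠ 0 → InQ y := fun m y hy => h.F_inQ hy
  have b1 : ∀ j i, Even j → Odd i → Bd (br L (p.F j) (fun _ => 1) (p.F i)) r := fun j i hj hi => by
    simpa using hbr j i hj hi (fun _ => 1) 1 zero_le_one (by simp)
  set m : ℤ → (I p.n → ℝ) → ℝ := fun k => ip L (p.F k) (p.F k) with hm
  have term : ∀ i' j', Odd i' → Even j' → Bd (ev (X j i' * adjM (X j' i') * X j' i) -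
      br L (p.F j) (fun y => m i' y * m j' y) (p.F i)) (3 * e * (r + e) ^ 2) := by
    intro i' j' hi' hj'
    have t := Bd.tri (ρ := ρ) (b1 j i' hj hi') ((b1 j' i' hj' hi').st (ρ := ρ)) (b1 j' i hj' hi)
      (hlink j i' hj hi') (by rw [← st_sub]; exact (hlink j' i' hj' hi').st) (hlink j' i hj' hi)
    rw [st_br L _ _ _ (hQ j') (hQ i') (fun _ _ => rfl),
      tw_br L _ _ _ _ _ _ (hQ i') (fin_supp h hc i') (fun _ _ => rfl),
      tw_br L _ _ _ _ _ _ (hQ j') (fin_supp h hc j') (fun _ _ => rfl)] at t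
    rw [ev_mul, ev_mul, ev_adjM]
    simpa only [one_mul, mul_one] using t
  have o1 : Odd (j - 1) := hj.sub_odd odd_one
  have o2 : Odd (j + 1) := hj.add_one
  have e1 : Even (i - 1) := hi.sub_odd odd_one
  have e2 : Even (i + 1) := hi.add_one
  have mid := hbr j i hj hi
    (fun y => (m (j - 1) y + m (j + 1) y) * (m (i - 1) y + m (i + 1) y) - 1) (8 * δ)
    (by positivity) (fun y hy hy' => by
      have a1 := chi_sq h.two_le_P hy
      have a2 := chi_sq h.two_le_P hy'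
      have c1 := abs_le.1 (hip (j - 1) y)
      have c2 := abs_le.1 (hip (j + 1) y)
      have c3 := abs_le.1 (hip (i - 1) y)
      have c4 := abs_le.1 (hip (i + 1) y)
      have d1 : |m (j - 1) y + m (j + 1) y - 1| ≤ 2 * δ :=
        abs_le.2 ⟨by simp only [hm]; linarith, by simp only [hm]; linarith⟩
      have d2 : |m (i - 1) y + m (i + 1) y - 1| ≤ 2 * δ :=
        abs_le.2 ⟨by simp only [hm]; linarith, by simp only [hm]; linarith⟩
      generalize m (j - 1) y + m (j + 1) y = u at d1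
      generalize m (i - 1) y + m (i + 1) y = v at d2
      have d3 : |(u - 1) * (v - 1)| ≤ 2 * δ * (2 * δ) := by
        rw [abs_mul]; gcongr
      rw [show u * v - 1 = (u - 1) * (v - 1) + (u - 1) + (v - 1) by ring]
      refine (abs_add_three _ _ _).trans ?_
      nlinarith)
  have tot := ((((term _ _ o1 e1).add (term _ _ o1 e2)).add
    ((term _ _ o2 e1).add (term _ _ o2 e2))).add mid).add (hlink j i hj hi).neg
  have n1 : j - 1 ≠ j + 1 := by omega
  have n2 : i - 1 ≠ i + 1 := by omega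
  rw [tri, Finset.sum_pair n1, Finset.sum_pair n2, Finset.sum_pair n2, ev_sub, ev_add, ev_add,
    ev_add]
  refine Bd.mono ?_ (le_of_eq (show 3 * e * (r + e) ^ 2 + 3 * e * (r + e) ^ 2 +
    (3 * e * (r + e) ^ 2 + 3 * e * (r + e) ^ 2) + r * (8 * δ) + e = _ by ring))
  convert tot using 1
  funext g x
  simp only [Pi.add_apply, Pi.sub_apply, Pi.neg_apply, br]
  push_cast
  ring

/-- `x₀ = (θ₀, 0, 0)` with `uu θ₀ = wp 1` (`exists_theta`, `chi_one`, `theta_mem`), `η' g = F 0 (aff g x₀)`,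
`η h = F 1 (aff h x₀)` on their finite supports (`fin_supp`).  By `fibre_br` the pairing of the bracket is
`m₀ m₁` with `m_k = ip (F k) (F k) x₀ = ∑ η²  ≥ 7/8`; split `br = ev a - (ev a - br)`, `fibre_le`, `fibre_bd`:
`m₀ m₁ ≤ (‖cvop a‖ + 1/8) √m₀ √m₁`. -/
theorem low_bd (h : p.Ok) (hc : IsConc p.b ρ L) (a : MonoidAlgebra ℂ (HG ρ))
    (hlink : Bd (ev a - br L (p.F 0) (fun _ => 1) (p.F 1)) (1 / 8))
    (hip : ∀ m y, |ip L (p.F m) (p.F m) y - chi p.P m (p.uu (y none)) ^ 2| ≤ 1 / 8) :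
    3 / 4 ≤ ‖cvop a‖ := by
  obtain ⟨θ, hθ⟩ := h.exists_theta (wp p.P 1)
  obtain ⟨c0, c1⟩ := chi_one h.two_le_P
  obtain ⟨t0, t1⟩ := h.theta_mem (m := 0) (θ := θ) (by rw [hθ, c0]; exact one_ne_zero)
  let x₀ : I p.n → ℝ := fun i => Option.elim i θ fun _ => 0
  have hx : InQ x₀ := by
    rintro (_ | i)
    · exact ⟨by simp only [x₀, Option.elim]; linarith, by simp only [x₀, Option.elim]; linarith⟩
    · exact ⟨by simp [x₀], by simp [x₀]⟩
  have hip' : ∀ k, chi p.P k (wp p.P 1) = 1 → 7 / 8 ≤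
      ∑ g ∈ (fin_supp h hc k x₀).toFinset, p.F k (L.aff g x₀) ^ 2 := by
    intro k hk
    have a1 := (abs_le.1 (hip k x₀)).1
    rw [show x₀ none = θ from rfl, hθ, hk, ip,
      finsum_eq_sum_of_support_subset (s := (fin_supp h hc k x₀).toFinset)] at a1
    · simp only [sq]; linarith
    · intro g hg
      simpa using hg
  set s := (fin_supp h hc 0 x₀).toFinset
  set t := (fin_supp h hc 1 x₀).toFinset
  have m0 : 7 / 8 ≤ ∑ g ∈ s, p.F 0 (L.aff g x₀) ^ 2 := hip' 0 c0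
  have m1 : 7 / 8 ≤ ∑ g ∈ t, p.F 1 (L.aff g x₀) ^ 2 := hip' 1 c1
  have f1 := fibre_le a x₀ s t (fun g => ((p.F 0 (L.aff g x₀) : ℝ) : ℂ))
    (fun g => ((p.F 1 (L.aff g x₀) : ℝ) : ℂ))
  have f2 := fibre_bd (ρ := ρ) hlink x₀ s t (fun g => ((p.F 0 (L.aff g x₀) : ℝ) : ℂ))
    (fun g => ((p.F 1 (L.aff g x₀) : ℝ) : ℂ))
  have f3 := norm_sub_le_of_le f1 f2
  simp only [← Finset.sum_sub_distrib, ← sub_mul, ← mul_sub, Pi.sub_apply, sub_sub_cancel,
    fibre_br L (p.F 0) (p.F 1) (fun y hy => h.F_inQ hy) hx, Complex.norm_real, Real.norm_eq_abs,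
    sq_abs] at f3
  simp only [← Complex.ofReal_sum, Complex.norm_real, Real.norm_eq_abs] at f3
  rw [← Finset.sum_mul_sum] at f3
  generalize ∑ g ∈ s, p.F 0 (L.aff g x₀) ^ 2 = u at m0 f3
  generalize ∑ g ∈ t, p.F 1 (L.aff g x₀) ^ 2 = v at m1 f3
  have hu : 0 ≤ u := by linarith
  have hv : 0 ≤ v := by linarith
  rw [abs_of_nonneg (mul_nonneg hu hv), mul_assoc, mul_assoc, ← add_mul, ← Real.sqrt_mul hu] at f3
  have hw : 7 / 8 ≤ √(u * v) := Real.le_sqrt_of_sq_le (by nlinarith)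
  have := Real.mul_self_sqrt (mul_nonneg hu hv)
  nlinarith

end Crest.Agent.R129.A
end

-- ▼ part PVb/R129/A/Law
section

/-! # Label laws (task R129/A-Law). Statements frozen. -/

set_option autoImplicit false
open scoped BigOperators Matrix

namespace Crest.Agent.R129.A

theorem law_sum4 {M : Type} [AddCommMonoid M] (f : ℂ → M) :
    ∑ ω : ZMod 4, f (ph ω) = f 1 + f Complex.I + f (-1) + f (-Complex.I) := by
  have h : ∑ ω : ZMod 4, f (ph ω) = f (ph 0) + f (ph 1) + f (ph 2) + f (ph 3) :=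
    Fin.sum_univ_four fun ω : Fin 4 => f (ph ω)
  have h0 : ph 0 = 1 := pow_zero _
  have h1 : ph 1 = Complex.I := pow_one _
  have h2 : ph 2 = -1 := Complex.I_sq
  have h3 : ph 3 = -Complex.I := Complex.I_pow_three
  rw [h, h0, h1, h2, h3]

/-- Weights `ν (x, ω) = (‖a x‖ + re (conj (ph ω) * a x)) / 2 + [x = x₀] (1 - 2 l1 a) / 4`:
`∑_ω ph ω = 0`, `∑_ω ph ω * re (conj (ph ω) z) = 2 z` (sum over `ZMod 4 = Fin 4`, `ph = 1, I, -1, -I`). -/
theorem exists_law1 {A : Type} (a : A →₀ ℂ) (ha : l1 a ≤ 1 / 2) (x₀ : A) :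
    ∃ ν : (A × ZMod 4) →₀ ℝ, IsLaw ν ∧ (∀ x, qco ν x = a x) ∧
      ∀ x ω, (x, ω) ∈ ν.support → a x ≠ 0 ∨ x = x₀ := by
  classical
  let w : A × ZMod 4 → ℝ := fun p => (‖a p.1‖ + ((starRingEnd ℂ) (ph p.2) * a p.1).re) / 2 +
    if p.1 = x₀ then (1 - 2 * l1 a) / 4 else 0
  have hw : ∀ p, w p ≠ 0 → a p.1 ≠ 0 ∨ p.1 = x₀ := fun p hp => by
    by_contra h
    rw [not_or, not_not] at h
    exact hp (by simp [w, h.1, h.2])
  have hs : ∀ p, w p ≠ 0 → p ∈ insert x₀ a.support ×ˢ (Finset.univ : Finset (ZMod 4)) :=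
    fun p hp => by simpa [or_comm] using hw p hp
  refine ⟨Finsupp.onFinset _ w hs, ⟨fun p => ?_, ?_⟩, fun x => ?_,
    fun x ω h => hw _ (Finsupp.mem_support_iff.1 h)⟩
  · have h1 := Complex.abs_re_le_norm ((starRingEnd ℂ) (ph p.2) * a p.1)
    rw [norm_mul, Complex.norm_conj, norm_ph, one_mul] at h1
    refine add_nonneg (by linarith [(abs_le.1 h1).1]) ?_
    split_ifs
    · linarith
    · rfl
  · have h2 : ∀ x, ∑ ω, w (x, ω) = 2 * ‖a x‖ + if x = x₀ then 1 - 2 * l1 a else 0 := fun x => by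
      refine (law_sum4 fun z => (‖a x‖ + ((starRingEnd ℂ) z * a x).re) / 2 +
        if x = x₀ then (1 - 2 * l1 a) / 4 else 0).trans ?_
      split_ifs <;> simp <;> ring
    rw [Finsupp.onFinset_sum _ fun _ => rfl, Finset.sum_product]
    simp only [h2]
    rw [Finset.sum_add_distrib, ← Finset.mul_sum, ← l1_eq_sum a _ (Finset.subset_insert _ _),
      Finset.sum_ite_eq', if_pos (Finset.mem_insert_self _ _)]
    ring
  · refine (law_sum4 fun z => (((‖a x‖ + ((starRingEnd ℂ) z * a x).re) / 2 +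
      (if x = x₀ then (1 - 2 * l1 a) / 4 else 0) : ℝ) : ℂ) * z).trans ?_
    generalize (if x = x₀ then (1 - 2 * l1 a) / 4 else 0) = t
    generalize ‖a x‖ = r
    apply Complex.ext <;> simp <;> ring

/-- `ν = (1/|S|) ∑_{g ∈ S} ν_g` with `ν_g` from `exists_law1` for `|S| • a g` and `x₀ = σ g`. -/
theorem exists_law {A N : Type} (π : A → N) (σ : N → A) (hσ : ∀ g, π (σ g) = g) (S : Finset N)
    (hS : S.Nonempty) (a : N → A →₀ ℂ) (hsupp : ∀ g x, a g x ≠ 0 → π x = g)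
    (ha : ∀ g ∈ S, (S.card : ℝ) * l1 (a g) ≤ 1 / 2) :
    ∃ ν : (A × ZMod 4) →₀ ℝ, IsLaw ν ∧ (∀ x, qco ν x = ∑ g ∈ S, a g x) ∧
      (∀ x ω, (x, ω) ∈ ν.support → ∃ g ∈ S, a g x ≠ 0 ∨ x = σ g) ∧
      ∀ φ : N → ℝ, ν.sum (fun x w => w * φ (π x.1)) = (∑ g ∈ S, φ g) / S.card := by
  classical
  have hc : (S.card : ℝ) ≠ 0 := by exact_mod_cast hS.card_pos.ne'
  have hc' : (S.card : ℂ) ≠ 0 := by exact_mod_cast hS.card_pos.ne'
  choose! ν h1 h2 h3 using fun g (hg : g ∈ S) =>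
    exists_law1 ((S.card : ℂ) • a g) (by rw [l1_smul, Complex.norm_natCast]; exact ha g hg) (σ g)
  simp only [Finsupp.smul_apply, smul_eq_mul, ne_eq, mul_eq_zero, hc', false_or] at h2 h3
  have key : ∀ φ : N → ℝ, ((S.card : ℝ)⁻¹ • ∑ g ∈ S, ν g).sum (fun x w => w * φ (π x.1)) =
      (∑ g ∈ S, φ g) / S.card := fun φ => by
    have e : ∀ μ : (A × ZMod 4) →₀ ℝ, μ.sum (fun x w => w * φ (π x.1)) =
        Finsupp.linearCombination ℝ (fun x : A × ZMod 4 => φ (π x.1)) μ := fun μ =>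
      (Finsupp.linearCombination_apply ℝ μ).symm
    rw [e, map_smul, map_sum, smul_eq_mul, div_eq_inv_mul]
    refine congrArg _ (Finset.sum_congr rfl fun g hg => ?_)
    rw [← e, Finsupp.sum_congr (g2 := fun _ w => w * φ g) fun x hx => by
      rcases h3 g hg x.1 x.2 hx with h | h
      · rw [hsupp g _ h]
      · rw [h, hσ], ← Finsupp.sum_mul, (h1 g hg).2, one_mul]
  refine ⟨(S.card : ℝ)⁻¹ • ∑ g ∈ S, ν g, ⟨fun p => ?_, ?_⟩, fun x => ?_, fun x ω h => ?_, key⟩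
  · rw [Finsupp.smul_apply, Finsupp.finsetSum_apply]
    exact mul_nonneg (by positivity) (Finset.sum_nonneg fun g hg => (h1 g hg).1 p)
  · simpa [hc] using key fun _ => 1
  · have : qco ((S.card : ℝ)⁻¹ • ∑ g ∈ S, ν g) x = (S.card : ℂ)⁻¹ * ∑ g ∈ S, qco (ν g) x := by
      simp only [qco, Finsupp.smul_apply, Finsupp.finsetSum_apply, smul_eq_mul]
      push_cast
      rw [Finset.sum_comm, Finset.mul_sum]
      simp only [mul_assoc, Finset.sum_mul]
    rw [this, Finset.sum_congr rfl fun g hg => h2 g hg x, ← Finset.mul_sum,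
      inv_mul_cancel_left₀ hc']
  · have h4 := Finsupp.mem_support_iff.1 (Finsupp.support_smul h)
    rw [Finsupp.finsetSum_apply] at h4
    obtain ⟨g, hg, h5⟩ := Finset.exists_ne_zero_of_sum_ne_zero h4
    exact ⟨g, hg, h3 g hg x ω (Finsupp.mem_support_iff.2 h5)⟩

theorem law_pi {α : Type} (t : Bool → Finset α) (ht : ∀ s, (t s).Nonempty) (s : Bool) (f : α → ℝ) :
    (∑ g ∈ Fintype.piFinset t, f (g s)) / (Fintype.piFinset t).card =
      (∑ x ∈ t s, f x) / (t s).card := by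
  have h := Finset.prod_univ_sum t fun i x => if i = s then f x else (1 : ℝ)
  have h1 : ((t true).card : ℝ) ≠ 0 := by exact_mod_cast (ht true).card_pos.ne'
  have h2 : ((t false).card : ℝ) ≠ 0 := by exact_mod_cast (ht false).card_pos.ne'
  simp only [Finset.prod_ite_eq', Finset.mem_univ, if_true] at h
  rw [← h, Fintype.card_piFinset, Fintype.prod_bool, Fintype.prod_bool]
  cases s <;> simp <;> field_simp

theorem law_box {c : ℕ} (T : Idx (c + 1) → Finset ℤ) (T' : Finset ℤ) :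
    box (fun a a' => if h : a < a' then T ⟨(a, a'), h⟩ else T') =
      ((Fintype.piFinset T).map UT.equivCo.symm.toEmbedding).map ⟨UT.mat, UT.mat_injective⟩ := by
  ext m
  refine (Fintype.mem_piFinset.trans (forall_congr' fun _ => Fintype.mem_piFinset)).trans ?_
  simp only [Fintype.mem_piFinset, Finset.mem_map, Function.Embedding.coeFn_mk,
    exists_exists_and_eq_and]
  constructor
  · intro h
    refine ⟨co m, fun a => ?_, ?_⟩
    · have := h a.1.1 a.1.2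
      rwa [if_pos a.2, dif_pos a.2] at this
    · ext i j
      change (1 : Matrix _ _ ℤ) i j + su (co m) i j = m i j
      have := h i j
      by_cases hij : i < j
      · rw [Matrix.one_apply_ne hij.ne, su_apply_lt _ hij, zero_add]
        rfl
      · rw [if_neg hij] at this
        rw [isSU_su _ _ _ (not_lt.1 hij), add_zero, Matrix.one_apply]
        split_ifs at this ⊢ <;> exact (Finset.mem_singleton.1 this).symm
  · rintro ⟨g, hg, rfl⟩ i j
    change (1 : Matrix _ _ ℤ) i j + su g i j ∈ _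
    by_cases hij : i < j
    · rw [Matrix.one_apply_ne hij.ne, su_apply_lt _ hij, zero_add, if_pos hij, dif_pos hij]
      exact hg _
    · rw [isSU_su _ _ _ (not_lt.1 hij), add_zero, Matrix.one_apply, if_neg hij]
      split_ifs <;> exact Finset.mem_singleton_self _

/-- `Sx a b = if h : a < b then Icc (-rad ⟨(a,b),h⟩) (rad ..) else Icc 0 (vr l s)`; `g ↦ g.mat` is a bijection from
`boxU l s` to `box Sx` (`Finset.sum_nbij'` with inverse `m ↦ ⟨co m⟩`), and the sum over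
`S l = piFinset boxU` of a function of the coordinate `s` factors (`Finset.sum_piFinset..` or
`Fintype.piFinset` over `Bool` written as a product). -/
theorem unif_box (c R v0 b : ℕ) (h : (Par.mk (c + 1) R v0 b).Ok) (l : ℤ) (s : Bool) :
    ∃ Sx : Fin (c + 1) → Fin (c + 1) → Finset ℤ,
      (∀ a a', (Par.mk (c + 1) R v0 b).vr l s ≤ (Sx a a').card) ∧
      ∀ φ : Matrix (Fin (c + 1)) (Fin (c + 1)) ℤ → ℝ,
        (∑ g ∈ (Par.mk (c + 1) R v0 b).S l, φ (g s).mat) / ((Par.mk (c + 1) R v0 b).S l).card =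
          (∑ m ∈ box Sx, φ m) / (box Sx).card := by
  obtain ⟨T, hT⟩ : ∃ T : Idx (c + 1) → Finset ℤ, T = fun a => Finset.Icc
    (-((Par.mk (c + 1) R v0 b).rad l s a : ℤ)) ((Par.mk (c + 1) R v0 b).rad l s a) := ⟨_, rfl⟩
  refine ⟨fun a a' => if h : a < a' then T ⟨(a, a'), h⟩
      else Finset.Icc 0 ((Par.mk (c + 1) R v0 b).vr l s), fun a a' => ?_, fun φ => ?_⟩
  · beta_reduce
    split_ifs with haa
    · have hR : 0 < R := lt_of_lt_of_le two_pos h.two_le
      have hK : 0 < (Par.mk (c + 1) R v0 b).K := by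
        unfold Par.K Par.P
        positivity
      have h1 : (Par.mk (c + 1) R v0 b).vr l s ≤ (Par.mk (c + 1) R v0 b).rad l s ⟨(a, a'), haa⟩ :=
        (Nat.le_mul_of_pos_left _ hK).trans (Nat.le_self_pow (Idx.dist_pos _).ne' _)
      rw [hT, Int.card_Icc]
      omega
    · rw [Int.card_Icc]
      omega
  · rw [law_box, Finset.sum_map, Finset.card_map, hT]
    have hne : ∀ s, ((Par.mk (c + 1) R v0 b).boxU l s).Nonempty := fun s =>
      Finset.Nonempty.map (Fintype.piFinset_nonempty.2 fun a => Finset.nonempty_Icc.2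
        (neg_le_self (Nat.cast_nonneg _)))
    exact law_pi ((Par.mk (c + 1) R v0 b).boxU l) hne s fun g => φ (UT.mat g)

/-- compare matrix entries (`mat_Qop`, `mat_Bnd`, `mat_smul`) -/
theorem Qop_eq {A : Type} [Group A] (μ : ℤ → (A × ZMod 4) →₀ ℝ) (hμ : ∀ i, IsLaw (μ i))
    (v : ℤ → MonoidAlgebra ℂ A) (c : ℂ) (hq : ∀ l x, qco (μ l) x = c * (v l).coeff x) {L : ℝ}
    (hb : Band (vM v) 1 L) : Qop μ (fun _ => True) = c • Bnd (vM v) := by
  refine mat_ext fun p q => ?_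
  rw [mat_Qop hμ, mat_smul, mat_Bnd hb, vM]
  simp only [and_true, hq]
  by_cases he : Even p.2
  · by_cases h1 : q.2 = p.2 + 1
    · rw [if_pos he, if_pos h1, if_neg (by omega), if_pos ⟨he, Or.inl h1⟩, add_zero,
        min_eq_left (by omega)]
    · by_cases h2 : q.2 = p.2 - 1
      · rw [if_pos he, if_neg h1, if_pos h2, if_pos ⟨he, Or.inr h2⟩, zero_add,
          min_eq_right (by omega), h2]
      · simp [he, h1, h2]
  · simp [he]

end Crest.Agent.R129.A
end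

-- ▼ part PVb/R129/A/Up
section

/-! # Upper bound for convolution operators by symbols (task R129/A-Up). Statement frozen. -/

set_option autoImplicit false
open scoped BigOperators Matrix

namespace Crest.Agent.R129.A
variable {ι N : Type} [Fintype ι] [DecidableEq ι] [Group N] {ρ : N →* Matrix ι ι ℤ}

theorem up_geom (k : ℤ) (hk : k ≠ 0) (L : ℕ) (hL : |k| < L) :
    ∑ j ∈ Finset.range L, Complex.exp (2 * Real.pi * Complex.I * (k * (j / L))) = 0 := by
  have hL0 : (L : ℂ) ≠ 0 := by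
    have : 0 < L := by have := abs_nonneg k; omega
    exact_mod_cast this.ne'
  set z := Complex.exp (2 * Real.pi * Complex.I * (k / L)) with hz
  have e : ∀ j : ℕ, Complex.exp (2 * Real.pi * Complex.I * (k * (j / L))) = z ^ j := fun j => by
    rw [hz, ← Complex.exp_nat_mul]
    congr 1; ring
  simp only [e]
  have h1 : z ^ L = 1 := by
    rw [hz, ← Complex.exp_nat_mul, Complex.exp_eq_one_iff]
    exact ⟨k, by field_simp⟩
  have h2 : z - 1 ≠ 0 := by
    intro h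
    rw [sub_eq_zero, hz, Complex.exp_eq_one_iff] at h
    obtain ⟨n, hn⟩ := h
    have hpi : (2 * Real.pi * Complex.I : ℂ) ≠ 0 := Complex.two_pi_I_ne_zero
    have : (k : ℂ) = n * L := by
      rw [mul_comm (n : ℂ) (2 * Real.pi * Complex.I)] at hn
      have := mul_left_cancel₀ hpi hn
      field_simp at this
      rw [this]; ring
    have hk' : k = n * L := by exact_mod_cast this
    have hn0 : n ≠ 0 := fun e => hk (by rw [hk', e, zero_mul])
    rw [hk', abs_mul, Nat.abs_cast] at hL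
    have : 1 ≤ |n| := Int.one_le_abs hn0
    have hLp : (0 : ℤ) ≤ L := Int.natCast_nonneg L
    nlinarith
  have := geom_sum_mul z L
  rw [h1, sub_self] at this
  exact (mul_eq_zero.1 this).resolve_right h2

/-- the grid -/
def grid (ι : Type) [Fintype ι] [DecidableEq ι] (L : ℕ) : Finset (ι → ℕ) :=
  Fintype.piFinset fun _ => Finset.range L

theorem up_grid (k : ι → ℤ) : ∀ᶠ L : ℕ in Filter.atTop,
    ∑ ω ∈ grid ι L, ch k (fun i => (ω i : ℝ) / L) =
      if k = 0 then ((grid ι L).card : ℂ) else 0 := by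
  by_cases hk : k = 0
  · refine Filter.Eventually.of_forall fun L => ?_
    rw [if_pos hk, hk]
    simp [ch_zero]
  · obtain ⟨i, hi⟩ := Function.ne_iff.1 hk
    filter_upwards [Filter.eventually_gt_atTop (k i).natAbs] with L hL
    rw [if_neg hk]
    have e : ∀ ω : ι → ℕ, ch k (fun i => (ω i : ℝ) / L) =
        ∏ i, Complex.exp (2 * Real.pi * Complex.I * (k i * (ω i / L))) := fun ω => by
      unfold ch
      rw [← Complex.exp_sum]
      congr 1
      push_cast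
      rw [Finset.mul_sum]
    simp only [e]
    unfold grid
    rw [← Finset.prod_univ_sum (fun _ : ι => Finset.range L)
      (fun i (j : ℕ) => Complex.exp (2 * Real.pi * Complex.I * (k i * (j / L))))]
    refine Finset.prod_eq_zero (Finset.mem_univ i) (up_geom _ hi _ ?_)
    rw [Int.abs_eq_natAbs]
    exact_mod_cast hL

theorem up_vecMul_inj (g : N) {k k' : ι → ℤ} (h : k ᵥ* ρ g = k' ᵥ* ρ g) : k = k' := by
  have := congrArg (fun v => v ᵥ* ρ g⁻¹) h
  simpa only [Matrix.vecMul_vecMul, ← map_mul, mul_inv_cancel, map_one, Matrix.vecMul_one]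
    using this

theorem up_parseval (b : MonoidAlgebra ℂ (HG ρ)) (T : Finset N)
    (hT : ∀ y ∈ b.coeff.support, y.g ∈ T) : ∀ᶠ L : ℕ in Filter.atTop,
    ∑ ω ∈ grid ι L, ∑ g ∈ T, ‖ev b g (act ρ g fun i => (ω i : ℝ) / L)‖ ^ 2 =
      (grid ι L).card * ∑ y ∈ b.coeff.support, ‖b.coeff y‖ ^ 2 := by
  classical
  have hev : ∀ᶠ L : ℕ in Filter.atTop, ∀ y ∈ b.coeff.support, ∀ y' ∈ b.coeff.support,
      ∑ ω ∈ grid ι L, ch (y.k ᵥ* ρ y.g + -(y'.k ᵥ* ρ y.g)) (fun i => (ω i : ℝ) / L) =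
        if y.k ᵥ* ρ y.g + -(y'.k ᵥ* ρ y.g) = 0 then ((grid ι L).card : ℂ) else 0 := by
    rw [Filter.eventually_all_finset]
    intro y _
    rw [Filter.eventually_all_finset]
    intro y' _
    exact up_grid _
  filter_upwards [hev] with L hL
  apply Complex.ofReal_injective
  have e1 : ∀ x : ι → ℝ, ((∑ g ∈ T, ‖ev b g (act ρ g x)‖ ^ 2 : ℝ) : ℂ) =
      ∑ y ∈ b.coeff.support, ∑ y' ∈ b.coeff.support, if y'.g = y.g then
        b.coeff y * (starRingEnd ℂ) (b.coeff y') * ch (y.k ᵥ* ρ y.g + -(y'.k ᵥ* ρ y.g)) x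
        else 0 := fun x => by
    have e2 : ∀ g, ((‖ev b g (act ρ g x)‖ ^ 2 : ℝ) : ℂ) =
        ∑ y ∈ b.coeff.support, if y.g = g then ∑ y' ∈ b.coeff.support, (if y'.g = y.g then
          b.coeff y * (starRingEnd ℂ) (b.coeff y') * ch (y.k ᵥ* ρ y.g + -(y'.k ᵥ* ρ y.g)) x
          else 0) else 0 := fun g => by
      rw [← Complex.normSq_eq_norm_sq, ← Complex.mul_conj]
      unfold ev Finsupp.sum
      beta_reduce
      rw [map_sum, Finset.sum_mul]
      refine Finset.sum_congr rfl fun y _ => ?_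
      split_ifs with hy
      · rw [Finset.mul_sum]
        refine Finset.sum_congr rfl fun y' _ => ?_
        rw [hy]
        split_ifs with hy'
        · rw [ch_add, ch_neg, ch_act, ch_act, map_mul]; ring
        · simp
      · simp
    rw [Complex.ofReal_sum]
    simp only [e2]
    rw [Finset.sum_comm]
    refine Finset.sum_congr rfl fun y hy => ?_
    rw [Finset.sum_ite_eq, if_pos (hT y hy)]
  rw [Complex.ofReal_sum]
  simp only [e1]
  rw [Finset.sum_comm]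
  push_cast
  rw [Finset.mul_sum]
  refine Finset.sum_congr rfl fun y hy => ?_
  rw [Finset.sum_comm, Finset.sum_eq_single y]
  · simp only [if_true]
    rw [← Finset.mul_sum, hL y hy y hy, if_pos (add_neg_cancel _), Complex.mul_conj,
      Complex.normSq_eq_norm_sq]
    push_cast; ring
  · intro y' hy' hne
    by_cases hg : y'.g = y.g
    · simp only [if_pos hg]
      rw [← Finset.mul_sum, hL y hy y' hy', if_neg, mul_zero]
      intro e
      rw [add_neg_eq_zero] at e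
      exact hne (HG.ext (up_vecMul_inj _ e).symm hg)
    · simp only [if_neg hg, Finset.sum_const_zero]
  · intro h; exact absurd hy h

omit [Fintype ι] [DecidableEq ι] in
theorem up_schur (S T T' : Finset N) (w : N → ℝ) (r : ℝ) (α : N → N → ℂ) (u : N → ℂ)
    (hα : ∀ g h, ‖α g h‖ ≤ w h) (hw : ∑ h ∈ S, w h ≤ r) (hu : ∀ g, g ∉ T → u g = 0) :
    ∑ g ∈ T', ‖∑ h ∈ S, α g h * u (h⁻¹ * g)‖ ^ 2 ≤ r ^ 2 * ∑ g ∈ T, ‖u g‖ ^ 2 := by
  classical
  have hw0 : ∀ h, 0 ≤ w h := fun h => (norm_nonneg _).trans (hα 1 h)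
  have hr : 0 ≤ r := (Finset.sum_nonneg fun h _ => hw0 h).trans hw
  have hU : 0 ≤ ∑ g ∈ T, ‖u g‖ ^ 2 := Finset.sum_nonneg fun _ _ => by positivity
  have h1 : ∀ g, ‖∑ h ∈ S, α g h * u (h⁻¹ * g)‖ ^ 2 ≤
      r * ∑ h ∈ S, w h * ‖u (h⁻¹ * g)‖ ^ 2 := fun g => by
    have a1 : ‖∑ h ∈ S, α g h * u (h⁻¹ * g)‖ ≤ ∑ h ∈ S, w h * ‖u (h⁻¹ * g)‖ :=
      (norm_sum_le _ _).trans (Finset.sum_le_sum fun h _ => by
        rw [norm_mul]; exact mul_le_mul_of_nonneg_right (hα g h) (norm_nonneg _))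
    refine (pow_le_pow_left₀ (norm_nonneg _) a1 2).trans ?_
    refine (Finset.sum_sq_le_sum_mul_sum_of_sq_le_mul S (f := w)
      (g := fun h => w h * ‖u (h⁻¹ * g)‖ ^ 2) (fun h _ => hw0 h)
      (fun h _ => mul_nonneg (hw0 h) (by positivity)) (fun h _ => le_of_eq (by ring))).trans ?_
    exact mul_le_mul_of_nonneg_right hw
      (Finset.sum_nonneg fun h _ => mul_nonneg (hw0 h) (by positivity))
  have h2 : ∀ h, ∑ g ∈ T', ‖u (h⁻¹ * g)‖ ^ 2 ≤ ∑ g ∈ T, ‖u g‖ ^ 2 := fun h => by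
    have : ∑ g ∈ T', ‖u (h⁻¹ * g)‖ ^ 2 =
        ∑ g ∈ T'.map (Equiv.mulLeft h⁻¹).toEmbedding, ‖u g‖ ^ 2 := by
      rw [Finset.sum_map]; rfl
    rw [this, ← Finset.sum_filter_of_ne (p := fun g => g ∈ T)
      (fun g _ hg => by by_contra hc; exact hg (by rw [hu g hc]; simp))]
    exact Finset.sum_le_sum_of_subset_of_nonneg (fun j hj => (Finset.mem_filter.1 hj).2)
      fun _ _ _ => by positivity
  calc _ ≤ ∑ g ∈ T', r * ∑ h ∈ S, w h * ‖u (h⁻¹ * g)‖ ^ 2 := Finset.sum_le_sum fun g _ => h1 g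
    _ = r * ∑ h ∈ S, w h * ∑ g ∈ T', ‖u (h⁻¹ * g)‖ ^ 2 := by
        rw [← Finset.mul_sum, Finset.sum_comm]
        simp only [Finset.mul_sum]
    _ ≤ r * ∑ h ∈ S, w h * ∑ g ∈ T, ‖u g‖ ^ 2 :=
        mul_le_mul_of_nonneg_left
          (Finset.sum_le_sum fun h _ => mul_le_mul_of_nonneg_left (h2 h) (hw0 h)) hr
    _ ≤ r * (r * ∑ g ∈ T, ‖u g‖ ^ 2) := by
        rw [← Finset.sum_mul]
        exact mul_le_mul_of_nonneg_left (mul_le_mul_of_nonneg_right hw hU) hr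
    _ = _ := by ring

theorem up_fin (a b : MonoidAlgebra ℂ (HG ρ)) {r : ℝ} (h : Bd (ev a) r) :
    ∑ y ∈ (a * b).coeff.support, ‖(a * b).coeff y‖ ^ 2 ≤
      r ^ 2 * ∑ y ∈ b.coeff.support, ‖b.coeff y‖ ^ 2 := by
  classical
  obtain ⟨S, w, h0, h1, h2⟩ := h
  have p1 := up_parseval b (b.coeff.support.image HG.g) fun y hy => Finset.mem_image_of_mem _ hy
  have p2 := up_parseval (a * b) ((a * b).coeff.support.image HG.g)
    fun y hy => Finset.mem_image_of_mem _ hy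
  obtain ⟨L, ⟨q1, q2⟩, hL⟩ := ((p1.and p2).and (Filter.eventually_gt_atTop 0)).exists
  have hc : (0 : ℝ) < (grid ι L).card := by
    have : (grid ι L).Nonempty := ⟨fun _ => 0, by
      unfold grid
      rw [Fintype.mem_piFinset]
      exact fun _ => Finset.mem_range.2 hL⟩
    exact_mod_cast this.card_pos
  refine le_of_mul_le_mul_left ?_ hc
  rw [← q2, mul_left_comm, ← q1, Finset.mul_sum]
  refine Finset.sum_le_sum fun ω _ => ?_
  generalize (fun i => (ω i : ℝ) / L) = x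
  have e : ∀ g, ev (a * b) g (act ρ g x) =
      ∑ h ∈ S, ev a h (act ρ g x) * (fun g => ev b g (act ρ g x)) (h⁻¹ * g) := fun g => by
    rw [ev_mul, tw_eq_sum _ S h0]
    simp only [act_mul]
  simp only [e]
  refine up_schur S _ _ w r (fun g h => ev a h (act ρ g x)) (fun g => ev b g (act ρ g x))
    (fun g h => h1 h _) h2 (fun g hg => ?_)
  unfold ev
  refine Finset.sum_eq_zero fun h hh => if_neg fun e => hg ?_
  rw [← e]
  exact Finset.mem_image_of_mem _ hh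

/-- Suggested route.
(1) For a bounded `T` on `L2 A`: if `‖T ξ‖ ≤ r ‖ξ‖` for all finitely supported `ξ` then `‖T‖ ≤ r`
(finite partial sums of `lp.hasSum_single` converge).  For `ξ : MonoidAlgebra ℂ (HG ρ)` viewed in `L2`,
`cvop a ξ = a * ξ` (`mat_cvop`, `hasSum_apply`).
(2) Parseval: for a trigonometric polynomial `P`, `∑_k ‖P k‖² = avg_x ‖tev P x‖²`, where `avg` is either the
integral over the unit cube / `UnitAddTorus` (`UnitAddTorus.orthonormal_mFourier`), or the average over the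
grid `x = y / L`, `y ∈ (Fin L)^ι`, with `L` larger than all frequency differences (geometric sums).
Since `x ↦ ev ξ g (act ρ g x)` is the polynomial with the coefficients of `ξ` on the fibre over `g`
relabelled by the injective map `k ↦ k ᵥ* ρ g` (`ch_act`),
`‖ξ‖² = avg_x ∑_g ‖ξ^x g‖²` with `ξ^x g = ev ξ g (act ρ g x)`.
(3) `(a ξ)^x g = ∑_h ev a h (act ρ g x) * ξ^x (h⁻¹ g)` (`ev_mul`, `act_mul`), so by Cauchy–Schwarz with the
weights `w` of `Bd`, `∑_g ‖(a ξ)^x g‖² ≤ r² ∑_g ‖ξ^x g‖²`. -/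
theorem norm_cvop_le (a : MonoidAlgebra ℂ (HG ρ)) {r : ℝ} (h : Bd (ev a) r) : ‖cvop a‖ ≤ r := by
  classical
  have hr := h.nonneg
  refine ContinuousLinearMap.opNorm_le_bound _ hr fun ξ => ?_
  refine lp.norm_le_of_forall_sum_le (p := 2) (by norm_num) (by positivity) fun t => ?_
  simp only [ENNReal.toReal_ofNat, Real.rpow_ofNat]
  have ht : Filter.Tendsto
      (fun s : Finset (HG ρ) => ∑ j ∈ t, ‖∑ i ∈ s, mat (cvop a) j i * (ξ : HG ρ → ℂ) i‖ ^ 2)
      Filter.atTop (nhds (∑ j ∈ t, ‖(cvop a ξ : HG ρ → ℂ) j‖ ^ 2)) := by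
    refine tendsto_finsetSum _ fun j _ => ?_
    have := hasSum_apply (cvop a) ξ j
    unfold HasSum at this
    simp only [SummationFilter.unconditional_filter] at this
    exact this.norm.pow 2
  refine le_of_tendsto' ht fun s => ?_
  let b : MonoidAlgebra ℂ (HG ρ) := ∑ i ∈ s, MonoidAlgebra.single i ((ξ : HG ρ → ℂ) i)
  have hb : ∀ y, b.coeff y = if y ∈ s then (ξ : HG ρ → ℂ) y else 0 := fun y => by
    simp only [b, MonoidAlgebra.coeff_sum, Finsupp.finsetSum_apply, MonoidAlgebra.coeff_single,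
      Finsupp.single_apply]
    rw [Finset.sum_ite_eq']
  have e1 : ∀ j, ∑ i ∈ s, mat (cvop a) j i * (ξ : HG ρ → ℂ) i = (a * b).coeff j := fun j => by
    simp only [b, Finset.mul_sum, MonoidAlgebra.coeff_sum, Finsupp.finsetSum_apply,
      MonoidAlgebra.coeff_mul_single_apply, mat_cvop]
  simp only [e1]
  have h1 : ∑ j ∈ t, ‖(a * b).coeff j‖ ^ 2 ≤
      ∑ j ∈ (a * b).coeff.support, ‖(a * b).coeff j‖ ^ 2 := by
    rw [← Finset.sum_filter_of_ne (s := t) (p := fun j => j ∈ (a * b).coeff.support)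
      (fun j _ hj => Finsupp.mem_support_iff.2 fun e => hj (by rw [e]; simp))]
    exact Finset.sum_le_sum_of_subset_of_nonneg (fun j hj => (Finset.mem_filter.1 hj).2)
      fun _ _ _ => by positivity
  have h2 : ∑ j ∈ b.coeff.support, ‖b.coeff j‖ ^ 2 ≤ ‖ξ‖ ^ 2 := by
    refine le_trans (Finset.sum_le_sum fun j _ => ?_)
      (sum_le_hasSum b.coeff.support (fun _ _ => by positivity) (hasSum_norm_sq ξ))
    rw [hb]
    split_ifs
    · exact le_rfl
    · simp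
  refine h1.trans ((up_fin a b h).trans ?_)
  rw [mul_pow]
  exact mul_le_mul_of_nonneg_left h2 (by positivity)

end Crest.Agent.R129.A
end

-- ▼ part PVb/R129/A/Main
section

/-! # Part A: assembly -/

set_option autoImplicit false
open scoped BigOperators Matrix

namespace Crest.Agent.R129.A

theorem Sz.mono {n : ℕ} {ρ : NN n →* Matrix (I n) (I n) ℤ} {x : HG ρ} {Ξ Ξ' : ℕ} (h : Sz x Ξ)
    (hΞ : Ξ ≤ Ξ') : Sz x Ξ' :=
  ⟨fun i => (h.1 i).trans (by exact_mod_cast hΞ), fun s a => (h.2 s a).trans (by exact_mod_cast hΞ)⟩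

theorem vM_ne {A : Type} [Group A] (v : ℤ → MonoidAlgebra ℂ A) {j i : ℤ} (h : vM v j i ≠ 0) :
    Even j ∧ (i = j + 1 ∨ i = j - 1) := by
  by_contra hc
  exact h (if_neg hc)

theorem natAbs_row_le (l : ℤ) : (row l).natAbs ≤ l.natAbs + 1 := by
  unfold row; split_ifs <;> omega

theorem natAbs_col_le (l : ℤ) : (col l).natAbs ≤ l.natAbs + 1 := by
  unfold col; split_ifs <;> omega

/-- the analytic core -/
theorem core (n R : ℕ) : ∃ r : ℝ, 1 ≤ r ∧ ∃ V0 C : ℕ, ∀ v0 b : ℕ, V0 ≤ v0 →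
    (Par.mk n R v0 b).Ok → ∀ (ρ : NN n →* Matrix (I n) (I n) ℤ) (L : Loc ρ), IsConc b ρ L →
    ∃ f : ℤ → (I n → ℤ) →₀ ℂ,
      (∀ m, ∀ k ∈ (f m).support, ∀ i,
        |k i| ≤ ((C * (b + 1) ^ 2 * (R ^ n) ^ m.natAbs : ℕ) : ℤ)) ∧
      (∀ l g, (((Par.mk n R v0 b).S l).card : ℝ) *
        ((Par.mk n R v0 b).amp (row l) * (Par.mk n R v0 b).amp (col l)) *
        l1 (sand ρ (f (row l)) g (f (col l))).coeff ≤ r) ∧
      Band (vM (vL (Par.mk n R v0 b) ρ f)) 1 r ∧
      Gap (adj (Bnd (vM (vL (Par.mk n R v0 b) ρ f))) ∘L Bnd (vM (vL (Par.mk n R v0 b) ρ f)))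
        (1 / 2) (1 / 4) ∧
      3 / 4 ≤ ‖Bnd (vM (vL (Par.mk n R v0 b) ρ f))‖ := by
  obtain ⟨B, hB, hapx⟩ := exists_apx n R
  set CS : ℝ := max 1 (Par.mk n R 0 0).CS with hCS
  have hCS1 : 1 ≤ CS := le_max_left _ _
  set r : ℝ := CS * B ^ 2 with hr
  have hr1 : 1 ≤ r := by rw [hr]; nlinarith [sq_nonneg (B - 1)]
  set e : ℝ := 1 / (4032 * (r + 1) ^ 2) with he
  have he0 : 0 < e := by positivity
  have hr2 : 4 ≤ (r + 1) ^ 2 := by nlinarith
  have he1 : e ≤ 1 / 336 := by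
    rw [he]
    exact one_div_le_one_div_of_le (by norm_num) (by nlinarith)
  set ε : ℝ := e / (2 * CS * B) with hε
  have hε0 : 0 < ε := by positivity
  set δ : ℝ := 1 / (2688 * r) with hδ
  have hδ0 : 0 < δ := by positivity
  have hδ1 : δ ≤ 1 / 8 := by
    rw [hδ]
    exact one_div_le_one_div_of_le (by norm_num) (by linarith)
  obtain ⟨C, hC⟩ := hapx ε hε0
  obtain ⟨V0, hV0⟩ := ip_apx n R δ hδ0
  refine ⟨r, hr1, V0, C, fun v0 b hv hok ρ L hc => ?_⟩
  obtain ⟨f, hf⟩ := hC v0 b hok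
  have hip := hV0 v0 b hv hok ρ L hc
  set p : Par := Par.mk n R v0 b with hp
  have hCSle : p.CS ≤ CS := le_max_right _ _
  have hB2 : 0 ≤ B ^ 2 := sq_nonneg B
  have hrle : p.CS * B ^ 2 ≤ r := mul_le_mul_of_nonneg_right hCSle hB2
  have hl : ∀ m, l1 (f m) ≤ B := fun m => (hf m).1
  have hG : ∀ m x, |p.G m x| ≤ B := fun m => (hf m).2.1
  have herr : ∀ m x, ‖tev (f m) x - ((p.G m (rep x) : ℝ) : ℂ)‖ ≤ ε := fun m => (hf m).2.2.1
  have hlink : ∀ j i, Even j → Odd i →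
      Bd (ev (vM (vL p ρ f) j i) - br L (p.F j) (fun _ => 1) (p.F i)) e := fun j i hj hi => by
    refine (link_bd (p := p) hok hc hε0.le hl hG herr hj hi).mono ?_
    have : CS * (2 * ε * B) = e := by rw [hε]; field_simp
    rw [← this]
    exact mul_le_mul_of_nonneg_right hCSle (by positivity)
  have hL : ∀ j i, l1 (vM (vL p ρ f) j i).coeff ≤ r := fun j i => by
    unfold vM
    split_ifs
    · exact (l1_vL (p := p) hok hl _).trans hrle
    · rw [MonoidAlgebra.coeff_zero, l1_zero]; linarith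
  obtain ⟨hband, ⟨L', hband3⟩, htri⟩ := Bnd_tri (X := vM (vL p ρ f))
    (fun j i h => (vM_ne _ h).2) hL
  have hbd : ∀ j i, Bd (ev (tri (vM (vL p ρ f)) j i)) (1 / 112) := fun j i => by
    refine (tri_bd (p := p) hok hc (vM (vL p ρ f)) (r := r) (e := e) hδ0.le (by linarith)
      (fun j i h => ?_) (fun j i hj hi m c hc0 hm => ?_) hlink hip j i).mono ?_
    · obtain ⟨h1, h2⟩ := vM_ne _ h
      refine ⟨h1, ?_⟩
      rcases h2 with rfl | rfl
      · exact h1.add_one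
      · exact h1.sub_odd odd_one
    · exact (br_bd (p := p) hok hc hG hj hi m c hc0 hm).mono
        (mul_le_mul_of_nonneg_right hrle hc0)
    · have h1 : 8 * δ * r = 1 / 336 := by rw [hδ]; field_simp; norm_num
      have h2 : 12 * e * (r + 1) ^ 2 = 1 / 336 := by rw [he]; field_simp; norm_num
      have h3 : (r + e) ^ 2 ≤ (r + 1) ^ 2 := by
        apply pow_le_pow_left₀ (by positivity); linarith
      have h4 : 12 * e * (r + e) ^ 2 ≤ 12 * e * (r + 1) ^ 2 :=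
        mul_le_mul_of_nonneg_left h3 (by positivity)
      linarith
  refine ⟨f, fun m => (hf m).2.2.2, fun l g => (card_l1_sand (p := p) hok hl l g).trans hrle,
    hband, gap_of_tri _ ?_, ?_⟩
  · rw [htri]
    refine (norm_Bnd_le hband3 (1 / 112) fun j i => norm_cvop_le _ (hbd j i)).trans ?_
    norm_num
  · refine le_trans ?_ (norm_cvop_le_Bnd hband 0 1)
    refine low_bd (p := p) hok hc _ ((hlink 0 1 Even.zero odd_one).mono (by linarith)) ?_
    exact fun m y => (hip m y).trans hδ1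

theorem partA' (c R : ℕ) (hR : 2 ≤ R) : ∃ (γ₀ r₀ : ℝ) (CA : ℕ), 0 < γ₀ ∧ 0 < r₀ ∧
    ∀ M₀ : ℕ, 2 ≤ M₀ → ∃ (A : Type) (_ : Group A) (μ : ℤ → (A × ZMod 4) →₀ ℝ),
      (∀ a : A, IsOfFinOrder a → a = 1) ∧ (∀ i, IsLaw (μ i)) ∧
      GenHyp μ (fun _ => True) c M₀ R ∧ Growth μ (fun _ => True) CA M₀ ∧
      Gap (adj (Qop μ fun _ => True) ∘L Qop μ fun _ => True) γ₀ r₀ ∧
      γ₀ ≤ ‖Qop μ fun _ => True‖ ^ 2 := by
  classical
  obtain ⟨r, hr1, V0, C, hcore⟩ := core (c + 1) R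
  obtain ⟨Cs, hCs⟩ := sz_prod (c + 1)
  obtain ⟨Cc, hCc⟩ := sz_count (c + 1)
  set K : ℕ := (Par.mk (c + 1) R 0 0).K with hK
  set P : ℕ := R ^ (c + 1) with hP
  let v0 : ℕ → ℕ := fun M => (V0 + 1) * M
  let b : ℕ → ℕ := fun M =>
    4 * (c + 1 + 2) ^ (c + 1 + 1) * K ^ (c + 1) * P ^ 5 * v0 M ^ (c + 1)
  have pv : PB fun M _ => v0 M := (PB.const _).mul PB.id
  have pb : PB fun M _ => b M + 1 := ((PB.const _).mul (pv.pow _)).add (PB.const 1)
  let Ξ : ℕ → ℕ → ℕ := fun M l =>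
    C * (b M + 1) ^ 2 * (P ^ l * P) + (K * v0 M * R ^ l) ^ (c + 1) + (b M + 1) + 2
  have pΞ : PB Ξ :=
    (((((PB.const C).mul (pb.pow 2)).mul ((PB.exp P).mul (PB.const P))).add
      ((((PB.const K).mul pv).mul (PB.exp R)).pow _)).add pb).add (PB.const 2)
  obtain ⟨C1, hC1⟩ : PB fun M l => (Ξ M l * 3) ^ Cs + Ξ M l :=
    ((pΞ.mul (PB.const 3)).pow Cs).add pΞ
  set cc : ℝ := 1 / (2 * r) with hcc
  have hcc0 : 0 < cc := by positivity
  refine ⟨cc ^ 2 * (1 / 2), cc ^ 2 * (1 / 4), (C1 + 1) * (Cs + 1) * Cc, by positivity,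
    by positivity, fun M hM => ?_⟩
  set p : Par := Par.mk (c + 1) R (v0 M) (b M) with hp
  have hMv : M ≤ v0 M := Nat.le_mul_of_pos_left _ (by omega)
  have hok : p.Ok := ⟨Nat.succ_pos c, hR, by change 1 ≤ v0 M; omega, le_rfl⟩
  obtain ⟨ρ, L, hc⟩ := exists_conc (c + 1) (b M)
  obtain ⟨f, hfreq, hsand, hband, hgap, hnorm⟩ := hcore (v0 M) (b M)
    ((Nat.le_succ V0).trans (Nat.le_mul_of_pos_right _ (by omega))) hok ρ L hc
  let a : ℤ → NN (c + 1) → HG ρ →₀ ℂ := fun l g =>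
    ((cc * (p.amp (row l) * p.amp (col l)) : ℝ) : ℂ) • (sand ρ (f (row l)) g (f (col l))).coeff
  have hane : ∀ l g x, a l g x ≠ 0 → (sand ρ (f (row l)) g (f (col l))).coeff x ≠ 0 :=
    fun l g x h h' => h (by simp only [a, Finsupp.smul_apply, h', smul_zero])
  have hlaw : ∀ l, ∃ ν : (HG ρ × ZMod 4) →₀ ℝ, IsLaw ν ∧
      (∀ x, qco ν x = ∑ g ∈ p.S l, a l g x) ∧
      (∀ x ω, (x, ω) ∈ ν.support → ∃ g ∈ p.S l, a l g x ≠ 0 ∨ x = (⟨0, g⟩ : HG ρ)) ∧
      ∀ φ : NN (c + 1) → ℝ,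
        ν.sum (fun x w => w * φ x.1.g) = (∑ g ∈ p.S l, φ g) / (p.S l).card := fun l => by
    refine exists_law HG.g (fun g => (⟨0, g⟩ : HG ρ)) (fun _ => rfl) (p.S l) (Par.S_nonempty l)
      (a l) (fun g x hx => ?_) (fun g _ => ?_)
    · obtain ⟨k, -, k', -, rfl⟩ := sand_support _ _ _ (hane l g x hx)
      simp
    · have h0 : 0 ≤ cc * (p.amp (row l) * p.amp (col l)) :=
        mul_nonneg hcc0.le (mul_pos (hok.amp_pos _) (hok.amp_pos _)).le
      have h1 := hsand l g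
      have h2 : cc * r = 1 / 2 := by rw [hcc]; field_simp
      simp only [a]
      rw [l1_smul, Complex.norm_real, Real.norm_of_nonneg h0]
      calc ((p.S l).card : ℝ) * (cc * (p.amp (row l) * p.amp (col l)) *
            l1 (sand ρ (f (row l)) g (f (col l))).coeff)
          = cc * (((p.S l).card : ℝ) * (p.amp (row l) * p.amp (col l)) *
            l1 (sand ρ (f (row l)) g (f (col l))).coeff) := by ring
        _ ≤ cc * r := mul_le_mul_of_nonneg_left h1 hcc0.le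
        _ = 1 / 2 := h2
  choose μ hμ hq hsupp hmarg using hlaw
  have hQ : Qop μ (fun _ => True) = ((cc : ℝ) : ℂ) • Bnd (vM (vL p ρ f)) := by
    refine Qop_eq μ hμ (vL p ρ f) _ (fun l x => ?_) hband
    rw [hq]
    simp only [a, vL, MonoidAlgebra.coeff_smul, MonoidAlgebra.coeff_sum, Finsupp.smul_apply,
      Finsupp.finsetSum_apply, smul_eq_mul, Finset.mul_sum, Complex.ofReal_mul, mul_assoc]
  refine ⟨HG ρ, inferInstance, μ, HG.torsionFree NN.torsionFree, hμ, ?_, ?_, ?_, ?_⟩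
  · -- genericity
    intro i₀ _
    let s : Bool := decide (i₀ < 0)
    refine ⟨ℤ, inferInstance, inferInstance, inferInstance,
      UT.matHom.comp ((Pi.evalMonoidHom (fun _ : Bool => UT (c + 1) ℤ) s).comp (HG.toN ρ)),
      fun i _ => ?_⟩
    obtain ⟨Sx, h1, h2⟩ := unif_box c R (v0 M) (b M) hok i s
    refine ⟨Sx, fun x y => le_trans ?_ (h1 x y), fun φ => ?_⟩
    · change _ ≤ v0 M * R ^ (-(sgn s i)).toNat
      refine Nat.mul_le_mul hMv (Nat.pow_le_pow_right (by omega) ?_)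
      by_cases h0 : i₀ < 0
      · have : sgn s i = i := by simp [s, sgn, h0]
        rw [this]; omega
      · have : sgn s i = -i := by simp [s, sgn, h0]
        rw [this]; omega
    · rw [← h2 φ]
      exact hmarg i fun g => φ (g s).mat
  · -- growth
    intro l _ k hk
    set W : ℕ := M * 2 ^ l.natAbs with hW
    have hW2 : 2 ≤ W := two_le_W hM _
    have hΞ2 : 2 ≤ Ξ M l.natAbs := by simp only [Ξ]; omega
    have hΞb : b M + 1 ≤ Ξ M l.natAbs := by simp only [Ξ]; omega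
    have hP1 : 1 ≤ P := Nat.pow_pos (by omega)
    have hfr : ∀ m : ℤ, m.natAbs ≤ l.natAbs + 1 → ∀ k ∈ (f m).support,
        Sz (⟨k, 1⟩ : HG ρ) (Ξ M l.natAbs) := fun m hm k hk => by
      refine ⟨fun i => (hfreq m k hk i).trans ?_, fun s a => ?_⟩
      · have h1 : P ^ m.natAbs ≤ P ^ l.natAbs * P := by
          rw [← pow_succ]; exact Nat.pow_le_pow_right hP1 hm
        have h2 := Nat.mul_le_mul_left (C * (b M + 1) ^ 2) h1
        have h3 : C * (b M + 1) ^ 2 * P ^ m.natAbs ≤ Ξ M l.natAbs := by simp only [Ξ]; omega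
        exact_mod_cast h3
      · change |(0 : ℤ)| ≤ _
        simp
    have hg : ∀ g ∈ p.S l, Sz (⟨0, g⟩ : HG ρ) (Ξ M l.natAbs) := fun g hg => by
      refine ⟨fun i => by simp, fun s a => (Par.mem_S.1 hg s a).trans ?_⟩
      have h1 : p.rad l s a ≤ (K * v0 M * R ^ l.natAbs) ^ (c + 1) := hok.rad_le l s a
      have h3 : p.rad l s a ≤ Ξ M l.natAbs := by simp only [Ξ]; omega
      exact_mod_cast h3
    have hW1 := hC1 M l.natAbs hM
    have hsz : ∀ x ω, (x, ω) ∈ (μ l).support → Sz x (W ^ C1) := fun x ω hx => by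
      obtain ⟨g, hgS, h | rfl⟩ := hsupp l x ω hx
      · obtain ⟨k, hk, k', hk', rfl⟩ := sand_support _ _ _ (hane l g x h)
        have := hCs (b M) ρ hc.1 _ 3 hΞ2 hΞb (by norm_num) [⟨k, 1⟩, ⟨0, g⟩, ⟨k', 1⟩] le_rfl (by
          intro x hx
          simp only [List.mem_cons, List.not_mem_nil, or_false] at hx
          rcases hx with rfl | rfl | rfl
          · exact Or.inl (hfr _ (natAbs_row_le l) _ hk)
          · exact Or.inl (hg g hgS)
          · exact Or.inl (hfr _ (natAbs_col_le l) _ hk'))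
        simp only [List.prod_cons, List.prod_nil, mul_one, ← mul_assoc] at this
        exact this.mono (le_trans (Nat.le_add_right _ _) hW1)
      · exact (hg g hgS).mono (le_trans (Nat.le_add_left _ _) hW1)
    have hΞW : Ξ M l.natAbs ≤ W ^ C1 := le_trans (Nat.le_add_left _ _) hW1
    have hWk : 2 ≤ W ^ C1 * k := (hΞ2.trans hΞW).trans (Nat.le_mul_of_pos_right _ hk)
    obtain ⟨Fk, hF1, hF2⟩ := hCc ρ ((W ^ C1 * k) ^ (Cs + 1))
      (hWk.trans (Nat.le_self_pow (by omega) _))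
    refine ⟨Fk, fun l' hlen hl' => hF1 _ ?_, hF2.trans ?_⟩
    · refine (hCs (b M) ρ hc.1 (W ^ C1) k (hΞ2.trans hΞW) (hΞb.trans hΞW) hk l' hlen
        fun x hx => ?_).mono (Nat.pow_le_pow_right (by omega) (Nat.le_succ _))
      obtain ⟨ω, h | h⟩ := hl' x hx
      · exact Or.inl (hsz _ _ h)
      · exact Or.inr (hsz _ _ h)
    · rw [pow_mul, pow_mul]
      refine Nat.pow_le_pow_left (Nat.pow_le_pow_left ?_ _) _
      rw [pow_succ]
      exact Nat.mul_le_mul (Nat.pow_le_pow_left (Nat.le_mul_of_pos_right _ hk) _)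
        (Nat.le_mul_of_pos_left _ (by omega))
  · have h1 := hgap.smul (c := cc ^ 2) (by positivity)
    have h2 : adj (Qop μ fun _ => True) ∘L (Qop μ fun _ => True) =
        ((cc ^ 2 : ℝ) : ℂ) • (adj (Bnd (vM (vL p ρ f))) ∘L Bnd (vM (vL p ρ f))) := by
      rw [hQ]
      simp only [adj, LinearIsometryEquiv.map_smulₛₗ, ContinuousLinearMap.smul_comp,
        ContinuousLinearMap.comp_smul, smul_smul, Complex.conj_ofReal]
      congr 1
      push_cast
      ring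
    rw [h2]
    exact h1
  · rw [hQ, norm_smul, Complex.norm_real, Real.norm_of_nonneg hcc0.le, mul_pow]
    refine mul_le_mul_of_nonneg_left ?_ (by positivity)
    nlinarith

end Crest.Agent.R129.A
end

-- ▼ part PVb/R129/PartA
section

/-! # Part A (owner helper8): the torsion-free symmetry group.  Statement frozen. -/

set_option autoImplicit false

namespace Crest.Agent.R129

theorem partA (c R : ℕ) (hR : 2 ≤ R) : ∃ (γ₀ r₀ : ℝ) (CA : ℕ), 0 < γ₀ ∧ 0 < r₀ ∧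
    ∀ M₀ : ℕ, 2 ≤ M₀ → ∃ (A : Type) (_ : Group A) (μ : ℤ → (A × ZMod 4) →₀ ℝ),
      (∀ a : A, IsOfFinOrder a → a = 1) ∧ (∀ i, IsLaw (μ i)) ∧
      GenHyp μ (fun _ => True) c M₀ R ∧ Growth μ (fun _ => True) CA M₀ ∧
      Gap (adj (Qop μ fun _ => True) ∘L Qop μ fun _ => True) γ₀ r₀ ∧
      γ₀ ≤ ‖Qop μ fun _ => True‖ ^ 2 :=
  A.partA' c R hR

end Crest.Agent.R129
end

-- ▼ part PVb/R129/Main74

/-! # Assembly of S0174 (task R129/Main74) -/

set_option autoImplicit false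
open Crest.OperatorAlgebra

namespace Crest.Agent.R129

theorem m74_adj_comp {I J K : Type} (S : L2 J →L[ℂ] L2 K) (T : L2 I →L[ℂ] L2 J) :
    adj (S ∘L T) = adj T ∘L adj S := ContinuousLinearMap.adjoint_comp S T

theorem m74_adj_adj {I J : Type} (T : L2 I →L[ℂ] L2 J) : adj (adj T) = T :=
  ContinuousLinearMap.adjoint_adjoint T

theorem m74_norm_adj_comp {I J : Type} (T : L2 I →L[ℂ] L2 J) : ‖adj T ∘L T‖ = ‖T‖ * ‖T‖ :=
  ContinuousLinearMap.norm_adjoint_comp_self T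

theorem m74_pert {I : Type} (B Y : L2 I →L[ℂ] L2 I) {e a : ℝ} (he : ‖B - Y‖ ≤ e) (ha : ‖Y‖ ≤ a) :
    ‖adj Y ∘L Y - adj B ∘L B‖ ≤ 2 * a * e + e ^ 2 := by
  have h0 : adj Y ∘L Y - adj B ∘L B =
      -(star (B - Y) * (B - Y) + star Y * (B - Y) + star (B - Y) * Y) := by
    change star Y * Y - star B * B = _
    rw [star_sub]
    noncomm_ring
  have ns : ∀ T : L2 I →L[ℂ] L2 I, ‖star T‖ = ‖T‖ := fun T =>
    LinearIsometryEquiv.norm_map ContinuousLinearMap.adjoint T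
  have he0 : 0 ≤ e := (norm_nonneg _).trans he
  have ha0 : 0 ≤ a := (norm_nonneg _).trans ha
  have h1 : ‖star (B - Y) * (B - Y)‖ ≤ e * e :=
    (norm_mul_le _ _).trans (by rw [ns]; exact mul_le_mul he he (norm_nonneg _) he0)
  have h2 : ‖star Y * (B - Y)‖ ≤ a * e :=
    (norm_mul_le _ _).trans (by rw [ns]; exact mul_le_mul ha he (norm_nonneg _) ha0)
  have h3 : ‖star (B - Y) * Y‖ ≤ e * a :=
    (norm_mul_le _ _).trans (by rw [ns]; exact mul_le_mul he ha (norm_nonneg _) he0)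
  rw [h0, norm_neg]
  have h4 := norm_add₃_le (a := star (B - Y) * (B - Y)) (b := star Y * (B - Y))
    (c := star (B - Y) * Y)
  nlinarith

theorem m74_norm_W {I J : Type} (W : L2 I →L[ℂ] L2 J) (hW : adj W ∘L W = 1) : ‖W‖ ≤ 1 :=
  ContinuousLinearMap.opNorm_le_bound _ zero_le_one fun ξ => by
    rw [ker_norm_of_adj_comp W hW, one_mul]

theorem m74_norm_conj {I J : Type} (W : L2 I →L[ℂ] L2 J) (hW : adj W ∘L W = 1)
    (Q : L2 I →L[ℂ] L2 I) : ‖W ∘L Q ∘L adj W‖ = ‖Q‖ := by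
  have h1 := m74_norm_W W hW
  have h2 : ‖adj W‖ ≤ 1 := by rw [LinearIsometryEquiv.norm_map]; exact h1
  have hWW : ∀ η, adj W (W η) = η := fun η => by
    have := congrArg (fun S : L2 I →L[ℂ] L2 I => S η) hW
    simpa using this
  refine le_antisymm ?_ ?_
  · refine ContinuousLinearMap.opNorm_le_bound _ (norm_nonneg _) fun ξ => ?_
    rw [ContinuousLinearMap.comp_apply, ContinuousLinearMap.comp_apply, ker_norm_of_adj_comp W hW]
    refine (Q.le_opNorm _).trans (mul_le_mul_of_nonneg_left ?_ (norm_nonneg _))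
    exact ((adj W).le_opNorm ξ).trans (by nlinarith [norm_nonneg ξ])
  · refine ContinuousLinearMap.opNorm_le_bound _ (norm_nonneg _) fun ξ => ?_
    have := (W ∘L Q ∘L adj W).le_opNorm (W ξ)
    rwa [ContinuousLinearMap.comp_apply, ContinuousLinearMap.comp_apply, hWW,
      ker_norm_of_adj_comp W hW, ker_norm_of_adj_comp W hW] at this

theorem m74_large {C₀ C' r : ℝ} (_hC₀ : 0 < C₀) (hC' : 0 < C') (hr : 0 < r) :
    ∃ n₀ : ℕ, ∀ n : ℕ, n₀ ≤ n → C₀ * (n * Real.sqrt n) ≤ ((n : ℝ) / C') ^ 2 * r := by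
  refine ⟨⌈(C₀ * C' ^ 2 / r) ^ 2⌉₊, fun n hn => ?_⟩
  have h1 : (C₀ * C' ^ 2 / r) ^ 2 ≤ n := (Nat.le_ceil _).trans (by exact_mod_cast hn)
  have h2 : C₀ * C' ^ 2 / r ≤ Real.sqrt n := Real.le_sqrt_of_sq_le h1
  have h3 : Real.sqrt n * Real.sqrt n = n := Real.mul_self_sqrt (Nat.cast_nonneg _)
  have h4 : 0 ≤ Real.sqrt n := Real.sqrt_nonneg _
  rw [div_le_iff₀ hr] at h2
  rw [div_pow, div_mul_eq_mul_div, le_div_iff₀ (by positivity)]
  have h5 : (0 : ℝ) ≤ n * Real.sqrt n := by positivity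
  calc C₀ * (n * Real.sqrt n) * C' ^ 2 = (C₀ * C' ^ 2) * (n * Real.sqrt n) := by ring
    _ ≤ (Real.sqrt n * r) * (n * Real.sqrt n) := mul_le_mul_of_nonneg_right h2 h5
    _ = (Real.sqrt n * Real.sqrt n) * n * r := by ring
    _ = (n : ℝ) ^ 2 * r := by rw [h3]; ring

/-- Take `c R` from `partG`, `γ₀ r₀ CA` from `partA c R`, `r₁ = min r₀ γ₀`,
`ε = min 1 (r₁ / 20)`, `C'` from `partG CA ε`, `n₀` with `C₀ n √n ≤ (n/C')² r₁ / 2` for `n ≥ n₀`,
then `n, M₀`, `A, μ` from `partA`, `Γ, node`.  With `λ = n / C'`, `X = W Q W*`, `B = λ X + E`,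
`‖E‖ ≤ ε λ`, `‖X‖ = ‖Q‖ ≤ 2` (`W` isometric): `X* X = W Q* Q W*` has `Gap γ₀ r₁` (`Gap.mono`,
`Gap.conj`), `‖B* B - λ² X* X‖ ≤ 5 ε λ²`, so `Gap (B* B) (λ² γ₀) (λ² r₁ · 3/4)`, weaken to
`r = λ² r₁ / 2`; `‖B‖² ≥ λ² ‖Q‖² - 4 ε λ² ≥ λ² γ₀ - r / 2`.  Apply `partS74`. -/
theorem main74 : ∃ (G : Type) (_ : Group G), Group.FG G ∧ (∀ g : G, IsOfFinOrder g → g = 1) ∧
      ∃ e ∈ reducedGroupCStar G, e * e = e ∧ star e = e ∧
        0 < (canonicalTrace G e).re ∧ (canonicalTrace G e).re < 1 / 2 := by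
  obtain ⟨C₀, hC₀, hS⟩ := partS74
  obtain ⟨c, R, hR, hG⟩ := partG
  obtain ⟨γ₀, r₀, CA, hγ₀, hr₀, hA⟩ := partA c R hR
  set r₁ := min r₀ γ₀ with hr₁
  have hr₁0 : 0 < r₁ := lt_min hr₀ hγ₀
  set ε := min 1 (r₁ / 20) with hε
  have hε0 : 0 < ε := lt_min one_pos (by positivity)
  have hε1 : ε ≤ 1 := min_le_left _ _
  have hε2 : ε ≤ r₁ / 20 := min_le_right _ _
  obtain ⟨C', hC', hG⟩ := hG CA ε hε0
  obtain ⟨n₀, hn₀⟩ := m74_large hC₀ hC' (half_pos hr₁0)
  obtain ⟨n, hn, M₀, hnn, hM, hG⟩ := hG n₀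
  obtain ⟨A, _, μ, htf, hlaw, hgen, hgr, hgap, hnorm⟩ := hA M₀ hM
  obtain ⟨Γ, node, hsc, hne, hd, -, -, -, hB⟩ := hG A μ (fun _ => True) hlaw hgen hgr
  set lam : ℝ := (n : ℝ) / C' with hlam
  have hn0 : (0 : ℝ) < n := by exact_mod_cast hn.out.pos
  have hlam0 : 0 < lam := by positivity
  set W := Γ.Wop A node with hWdef
  set Q := Qop μ fun _ => True with hQ
  have hW : adj W ∘L W = 1 := Γ.adj_Wop_comp A node hne hd
  have hWW : ∀ η, adj W (W η) = η := fun η => by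
    have := congrArg (fun S : L2 (A × ℤ) →L[ℂ] L2 (A × ℤ) => S η) hW
    simpa using this
  set X := W ∘L Q ∘L adj W with hX
  have hXn : ‖X‖ = ‖Q‖ := m74_norm_conj W hW Q
  have hQ2 : ‖Q‖ ≤ 2 := norm_Qop_le hlaw _
  have hYn : ‖(lam : ℂ) • X‖ = lam * ‖Q‖ := by
    rw [norm_smul, Complex.norm_real, Real.norm_of_nonneg hlam0.le, hXn]
  have hp := m74_pert (Γ.Bop Γ.a) ((lam : ℂ) • X) hB (a := lam * 2)
    (by rw [hYn]; exact mul_le_mul_of_nonneg_left hQ2 hlam0.le)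
  have hp' : ‖adj ((lam : ℂ) • X) ∘L ((lam : ℂ) • X) - adj (Γ.Bop Γ.a) ∘L Γ.Bop Γ.a‖ ≤
      lam ^ 2 * r₁ / 4 := by
    refine hp.trans ?_
    have h1 : ε ^ 2 ≤ ε := by nlinarith
    have h2 : 0 < lam ^ 2 := by positivity
    nlinarith
  have hXX : adj X ∘L X = W ∘L (adj Q ∘L Q) ∘L adj W := by
    ext1 ξ
    rw [hX, m74_adj_comp, m74_adj_comp, m74_adj_adj]
    simp only [ContinuousLinearMap.comp_apply, hWW]
  have hYY : adj ((lam : ℂ) • X) ∘L ((lam : ℂ) • X) = ((lam ^ 2 : ℝ) : ℂ) • (adj X ∘L X) := by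
    change star ((lam : ℂ) • X) * ((lam : ℂ) • X) = ((lam ^ 2 : ℝ) : ℂ) • (star X * X)
    rw [star_smul, smul_mul_smul_comm]
    congr 1
    rw [Complex.star_def, Complex.conj_ofReal]
    push_cast; ring
  have hg1 : Gap (adj X ∘L X) γ₀ r₁ := by
    rw [hXX]
    exact (hgap.mono (min_le_left _ _)).conj (min_le_right _ _) W hW
  have hg2 := hg1.smul (c := lam ^ 2) (by positivity)
  rw [← hYY] at hg2
  have hg3 := (hg2.perturb hp').mono (r' := lam ^ 2 * (r₁ / 2)) (by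
    have : 0 < lam ^ 2 * r₁ := by positivity
    nlinarith)
  refine hS (ZMod n) A Γ hsc htf (lam ^ 2 * γ₀) (lam ^ 2 * (r₁ / 2)) ?_ ?_ hg3 ?_
  · rw [ZMod.card]
    exact hn₀ n hnn
  · refine mul_le_mul_of_nonneg_left ?_ (by positivity)
    have : r₁ ≤ γ₀ := min_le_right _ _
    linarith
  · have h3 := (norm_sub_norm_le (adj ((lam : ℂ) • X) ∘L ((lam : ℂ) • X))
      (adj (Γ.Bop Γ.a) ∘L Γ.Bop Γ.a)).trans hp'
    rw [m74_norm_adj_comp, m74_norm_adj_comp, hYn] at h3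
    have h4 : lam ^ 2 * γ₀ ≤ lam ^ 2 * ‖Q‖ ^ 2 := mul_le_mul_of_nonneg_left hnorm (by positivity)
    generalize ‖Γ.Bop Γ.a‖ = b at h3 ⊢
    generalize ‖Q‖ = q at h3 h4
    have e1 : lam * q * (lam * q) = lam ^ 2 * q ^ 2 := by ring
    have e2 : b * b = b ^ 2 := by ring
    have e3 : lam ^ 2 * (r₁ / 2) / 2 = lam ^ 2 * r₁ / 4 := by ring
    rw [e1, e2] at h3
    rw [e3]
    linarith

end Crest.Agent.R129
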