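import Crest.Agent.PVb.R129.SC

-- ▼ part PVb/R129/Wind1
section

/-! # One windmill step (task R129/Wind1). Statements frozen. -/

set_option autoImplicit false

namespace Crest.Agent.R129
namespace SC
variable {S : Type} [DecidableEq S] (𝒮 : SC S)

theorem w1_mid {Y : 𝒮.M} {r y : FreeGroup S} (hr : r ∈ 𝒮.R Y) (hr1 : r ≠ 1) (hy : y ∈ 𝒮.mem Y)
    (k : ℕ) (hk : 5 * 𝒮.L Y y ≤ k) (hk' : (k : ℝ) ≤ 95 * 𝒮.L Y y) :
    ∃ z, 𝒮.Mid Y y r z ∧ td y z = k := by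
  have hg := 𝒮.girth Y r y hr hr1 hy
  have h1 := 𝒮.one_le Y y hy
  have hk2 : k ≤ td y (r * y) := by
    have : (k : ℝ) ≤ td y (r * y) := by linarith
    exact_mod_cast this
  obtain ⟨z, hz, hzk⟩ := exists_btw y (r * y) hk2
  refine ⟨z, ⟨hz, by rw [hzk]; exact hk, ?_⟩, hzk⟩
  have : (td y z : ℝ) + td z (r * y) = td y (r * y) := by exact_mod_cast hz
  rw [hzk] at this
  linarith

theorem w1_mid_mem {Y : 𝒮.M} {r y z : FreeGroup S} (hr : r ∈ 𝒮.R Y) (hy : y ∈ 𝒮.mem Y)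
    (hz : 𝒮.Mid Y y r z) : z ∈ 𝒮.mem Y :=
  𝒮.convex Y _ _ _ hy (𝒮.mul_mem_of_R hr hy) hz.1

theorem w1_far {V : Set (FreeGroup S)} {Fr : Set 𝒮.M} (hV : Cvx V) (hF : 𝒮.Fresh V Fr) {Y : 𝒮.M}
    (hY : Y ∈ Fr) {y z u : FreeGroup S} (hy : y ∈ 𝒮.mem Y) (hyV : y ∈ V) (hz : z ∈ 𝒮.mem Y)
    (hd : 5 * 𝒮.L Y y ≤ td y z) (hu : u ∈ V) : ¬ Btw y z u := by
  intro h
  have h1 := (hF Y hY).2 y z hy hyV hz (hV _ _ _ hyV hu h)
  have h2 := 𝒮.one_le Y y hy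
  linarith

theorem w1_tail {Fr : Set 𝒮.M} {p : 𝒮.M × FreeGroup S} {l : List (𝒮.M × FreeGroup S)}
    (hc : 𝒮.Chain Fr (p :: l)) : 𝒮.Chain Fr l :=
  ⟨fun q hq => hc.1 q (List.mem_cons_of_mem _ hq), hc.2.tail⟩

/-- Chain lemma.  Induction on `l` (generalising `Y r y z v`).  Write `L = L Y y`.
(a) For `u ∈ V`: `Btw (r y) z u` (by `tri` on `Btw y z (r y)`; the other branch puts `z ∈ V ∩ Y`, so
`td y z ≤ 3L`).  Likewise with `z' = r⁻¹ z` (it lies on `[r⁻¹ y, y] ⊆ Y`, `td z' y ≥ 5L`):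
no `u ∈ V` has `Btw y z' u`.
(b) `l = []`: from `Btw v z (r y)` and `tri`: `Btw v z (r v')` or `Btw (r y) z (r v')`; the latter is
`Btw y z' v'`, excluded.
(c) `l = (Y₂,r₂) :: l'`, `v'' = prod l * v'`; pick `y₂ ∈ Y₂ ∩ V` and a middle vertex `z₂` (distance
`⌈5 L₂⌉`, exists by `girth`); by induction `Btw y z₂ v''`.  By `tri` on `Btw (r⁻¹ v) z' y` either done or
`Btw y z' v''`.  Let `m` = median of `y, y₂, z₂`; `m ∈ V ∩ Y₂`.  Compare `z'` and `z₂` on `[y, v'']`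
(`Btw.order`).  If `z' ∈ [y,z₂]`: either `z' ∈ [y,m] ⊆ V` (excluded) or `z' ∈ [m,z₂] ⊆ Y₂`, `m ∈ [y,z'] ⊆ Y`,
so `td y m ≤ 3L`, `td m z' ≤ L Y m ≤ 1.03 L` (`piece`, `lip`), contradiction with `5L`.  If
`z₂ ∈ [y,z'] ⊆ Y`: `m ∈ Y`, `td m z₂ ≤ L Y₂ m`, `td y₂ m ≤ 3 L₂`, contradiction with `5 L₂`. -/
theorem chain_btw {V : Set (FreeGroup S)} {Fr : Set 𝒮.M} (hV : Cvx V) (hF : 𝒮.Fresh V Fr)
    (l : List (𝒮.M × FreeGroup S)) {Y : 𝒮.M} {r y z v v' : FreeGroup S}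
    (hc : 𝒮.Chain Fr ((Y, r) :: l)) (hy : y ∈ 𝒮.mem Y) (hyV : y ∈ V) (hz : 𝒮.Mid Y y r z)
    (hv : v ∈ V) (hv' : v' ∈ V) : Btw v z (r * (l.map Prod.snd).prod * v') := by
  induction l generalizing Y r y z v with
  | nil =>
    obtain ⟨hY, hr, -⟩ := hc.1 (Y, r) List.mem_cons_self
    have hzY := 𝒮.w1_mid_mem hr hy hz
    have h1 : Btw v z (r * y) :=
      ((hz.1.tri v).resolve_left (𝒮.w1_far hV hF hY hy hyV hzY hz.2.1 hv)).symm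
    simp only [List.map_nil, List.prod_nil, mul_one]
    refine (h1.tri (r * v')).resolve_right fun h => ?_
    have e : z = r * (r⁻¹ * z) := by group
    rw [e, btw_mul] at h
    refine 𝒮.w1_far hV hF hY hy hyV (𝒮.mul_mem_of_R ((𝒮.R Y).inv_mem hr) hzY) ?_ hv' h
    rw [← td_mul r, ← e, td_comm]
    exact hz.2.2
  | cons p l ih =>
    obtain ⟨Y₂, r₂⟩ := p
    obtain ⟨hY, hr, -⟩ := hc.1 (Y, r) List.mem_cons_self
    have hc₂ := 𝒮.w1_tail hc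
    obtain ⟨hY₂, hr₂, hr₂1⟩ := hc₂.1 (Y₂, r₂) List.mem_cons_self
    have hne : Y ≠ Y₂ := (List.isChain_cons_cons.1 hc.2).1
    have hzY := 𝒮.w1_mid_mem hr hy hz
    have h1 : Btw v z (r * y) :=
      ((hz.1.tri v).resolve_left (𝒮.w1_far hV hF hY hy hyV hzY hz.2.1 hv)).symm
    simp only [List.map_cons, List.prod_cons]
    rw [mul_assoc r]
    refine (h1.tri _).resolve_right fun h => ?_
    have e : z = r * (r⁻¹ * z) := by group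
    rw [e, btw_mul] at h
    have hz'Y := 𝒮.mul_mem_of_R ((𝒮.R Y).inv_mem hr) hzY
    have hz'd : 5 * 𝒮.L Y y ≤ td y (r⁻¹ * z) := by
      rw [← td_mul r, ← e, td_comm]
      exact hz.2.2
    generalize r⁻¹ * z = z' at h hz'Y hz'd
    obtain ⟨y₂, hy₂, hy₂V⟩ := (hF Y₂ hY₂).1
    have hL₂ := 𝒮.one_le Y₂ y₂ hy₂
    have hL := 𝒮.one_le Y y hy
    obtain ⟨z₂, hz₂, -⟩ := 𝒮.w1_mid hr₂ hr₂1 hy₂ ⌈5 * 𝒮.L Y₂ y₂⌉₊ (Nat.le_ceil _)
      (by have := Nat.ceil_lt_add_one (show 0 ≤ 5 * 𝒮.L Y₂ y₂ by linarith); linarith)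
    have hz₂Y := 𝒮.w1_mid_mem hr₂ hy₂ hz₂
    have h2 := ih hc₂ hy₂ hy₂V hz₂ hyV
    obtain ⟨m, m1, m2, m3⟩ := exists_median y y₂ z₂
    have hmV : m ∈ V := hV _ _ _ hyV hy₂V m1
    have hmY₂ : m ∈ 𝒮.mem Y₂ := 𝒮.convex _ _ _ _ hy₂ hz₂Y m2
    rcases le_total (td y z') (td y z₂) with hle | hle
    · have h3 : Btw y z' z₂ := h.order h2 hle
      rcases le_total (td y z') (td y m) with hle' | hle'
      · exact 𝒮.w1_far hV hF hY hy hyV hz'Y hz'd hmV (h3.order m3 hle')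
      · have h4 : Btw y m z' := m3.order h3 hle'
        have h5 : Btw m z' z₂ := (h3.trans_left h4).2
        have hmY : m ∈ 𝒮.mem Y := 𝒮.convex _ _ _ _ hy hz'Y h4
        have hz'Y₂ : z' ∈ 𝒮.mem Y₂ := 𝒮.convex _ _ _ _ hmY₂ hz₂Y h5
        have a1 := (hF Y hY).2 y m hy hyV hmY hmV
        have a2 := 𝒮.piece Y Y₂ m z' hne hmY hz'Y hmY₂ hz'Y₂
        have a3 := 𝒮.lip Y y m hy hmY
        have a4 : (td y m : ℝ) + td m z' = td y z' := by exact_mod_cast h4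
        linarith
    · have h3 : Btw y z₂ z' := h2.order h hle
      have hz₂Y' : z₂ ∈ 𝒮.mem Y := 𝒮.convex _ _ _ _ hy hz'Y h3
      have hmY : m ∈ 𝒮.mem Y := 𝒮.convex _ _ _ _ hy hz₂Y' m3
      have a1 := (hF Y₂ hY₂).2 y₂ m hy₂ hy₂V hmY₂ hmV
      have a2 := 𝒮.piece Y₂ Y m z₂ hne.symm hmY₂ hz₂Y hmY hz₂Y'
      have a3 := 𝒮.lip Y₂ y₂ m hy₂ hmY₂
      have a4 : (td y₂ m : ℝ) + td m z₂ = td y₂ z₂ := by exact_mod_cast m2
      have a5 := hz₂.2.1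
      linarith

/-- Take `a`, `b` on `[y, r y]` with `td y a = ⌈5L⌉ = td b (r y)`; both are middle vertices,
`td (r a) b ≤ 12 L ≤ 13 L Y a` (`lip`: `L ≤ L Y a + 6L/100`); `Btw v a b` by `tri` on `Btw y a b`. -/
theorem chain_LG {V : Set (FreeGroup S)} {Fr : Set 𝒮.M} (hV : Cvx V) (hF : 𝒮.Fresh V Fr)
    {l : List (𝒮.M × FreeGroup S)} (hc : 𝒮.Chain Fr l) (hl : l ≠ []) {v v' : FreeGroup S}
    (hv : v ∈ V) (hv' : v' ∈ V) : 𝒮.LGat v ((l.map Prod.snd).prod * v') := by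
  obtain ⟨⟨Y, r⟩, l', rfl⟩ := List.exists_cons_of_ne_nil hl
  obtain ⟨hY, hr, hr1⟩ := hc.1 (Y, r) List.mem_cons_self
  obtain ⟨y, hy, hyV⟩ := (hF Y hY).1
  have hL := 𝒮.one_le Y y hy
  have hg := 𝒮.girth Y r y hr hr1 hy
  have hk1 : 5 * 𝒮.L Y y ≤ ⌈5 * 𝒮.L Y y⌉₊ := Nat.le_ceil _
  have hk2 : (⌈5 * 𝒮.L Y y⌉₊ : ℝ) ≤ 6 * 𝒮.L Y y := by
    have := Nat.ceil_lt_add_one (show 0 ≤ 5 * 𝒮.L Y y by linarith); linarith
  generalize ⌈5 * 𝒮.L Y y⌉₊ = k at hk1 hk2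
  obtain ⟨a, ha, hak⟩ := 𝒮.w1_mid hr hr1 hy k hk1 (by linarith)
  have hkD : 2 * k ≤ td y (r * y) := by
    have : (2 * k : ℝ) ≤ td y (r * y) := by linarith
    exact_mod_cast this
  obtain ⟨b, hb, hbk⟩ := exists_btw y (r * y) (k := td y (r * y) - k) (by omega)
  have hb2 : td b (r * y) = k := by unfold Btw at hb; omega
  have hbm : 𝒮.Mid Y y r b := by
    refine ⟨hb, ?_, by rw [hb2]; exact hk1⟩
    have : (k : ℝ) ≤ td y b := by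
      have : k ≤ td y b := by omega
      exact_mod_cast this
    linarith
  have haY := 𝒮.w1_mid_mem hr hy ha
  have hbY := 𝒮.w1_mid_mem hr hy hbm
  refine ⟨Y, r, a, b, hr, hr1, haY, hbY, ?_, ?_, ?_⟩
  · have h1 : Btw y a b := ha.1.order hb (by omega)
    exact ((h1.tri v).resolve_left (𝒮.w1_far hV hF hY hy hyV haY ha.2.1 hv)).symm
  · simp only [List.map_cons, List.prod_cons]
    exact 𝒮.chain_btw hV hF l' hc hy hyV hbm hv hv'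
  · have h1 := td_triangle (r * a) (r * y) b
    rw [td_mul, td_comm a y, td_comm (r * y) b, hak, hb2] at h1
    have h2 : (td (r * a) b : ℝ) ≤ k + k := by exact_mod_cast h1
    have h3 := 𝒮.lip Y a y haY hy
    rw [td_comm a y, hak] at h3
    linarith

theorem w1_small0 {V : Set (FreeGroup S)} (hV : Cvx V) {Y Y' Z : 𝒮.M}
    (hY : ∃ v ∈ 𝒮.mem Y, v ∈ V) (hY' : ∃ v ∈ 𝒮.mem Y', v ∈ V)
    (hZ : ∀ v ∈ V, v ∉ 𝒮.mem Z) {y y' : FreeGroup S}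
    (hy : y ∈ 𝒮.mem Y) (hyZ : y ∈ 𝒮.mem Z) (hy' : y' ∈ 𝒮.mem Y') (hy'Z : y' ∈ 𝒮.mem Z) :
    (td y y' : ℝ) ≤ 3 * 𝒮.L Z y := by
  obtain ⟨v, hv, hvV⟩ := hY
  obtain ⟨v', hv', hv'V⟩ := hY'
  obtain ⟨p, p1, p2, p3⟩ := exists_median y y' v
  have hpZ : p ∈ 𝒮.mem Z := 𝒮.convex _ _ _ _ hyZ hy'Z p1
  have hpY : p ∈ 𝒮.mem Y := 𝒮.convex _ _ _ _ hy hv p3
  have hpY' : p ∈ 𝒮.mem Y' := by
    rcases p2.tri v' with h | h
    · exact 𝒮.convex _ _ _ _ hy' hv' h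
    · exact absurd hpZ (hZ p (hV _ _ _ hvV hv'V h))
  have n1 : Z ≠ Y := fun e => hZ v hvV (e ▸ hv)
  have n2 : Z ≠ Y' := fun e => hZ v' hv'V (e ▸ hv')
  have a1 := 𝒮.piece Z Y y p n1 hyZ hpZ hy hpY
  have a2 := 𝒮.piece Z Y' p y' n2 hpZ hy'Z hpY' hy'
  have a3 := 𝒮.lip Z y p hyZ hpZ
  have a4 : (td y p : ℝ) + td p y' = td y y' := by exact_mod_cast p1
  have a5 := 𝒮.one_le Z y hyZ
  linarith

theorem w1_pig {a b c : ℕ → Prop} (h : ∀ i, i ≤ 3 → a i ∨ b i ∨ c i)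
    (ha : ∀ i j, i < j → j ≤ 3 → a i → a j → False)
    (hb : ∀ i j, i < j → j ≤ 3 → b i → b j → False)
    (hc : ∀ i j, i < j → j ≤ 3 → c i → c j → False) : False := by
  rcases h 0 (by omega) with h0 | h0 | h0 <;> rcases h 1 (by omega) with h1 | h1 | h1 <;>
  rcases h 2 (by omega) with h2 | h2 | h2 <;> rcases h 3 (by omega) with h3 | h3 | h3 <;>
  first
  | exact ha 0 1 (by omega) (by omega) h0 h1
  | exact ha 0 2 (by omega) (by omega) h0 h2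
  | exact ha 0 3 (by omega) (by omega) h0 h3
  | exact ha 1 2 (by omega) (by omega) h1 h2
  | exact ha 1 3 (by omega) (by omega) h1 h3
  | exact ha 2 3 (by omega) (by omega) h2 h3
  | exact hb 0 1 (by omega) (by omega) h0 h1
  | exact hb 0 2 (by omega) (by omega) h0 h2
  | exact hb 0 3 (by omega) (by omega) h0 h3
  | exact hb 1 2 (by omega) (by omega) h1 h2
  | exact hb 1 3 (by omega) (by omega) h1 h3
  | exact hb 2 3 (by omega) (by omega) h2 h3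
  | exact hc 0 1 (by omega) (by omega) h0 h1
  | exact hc 0 2 (by omega) (by omega) h0 h2
  | exact hc 0 3 (by omega) (by omega) h0 h3
  | exact hc 1 2 (by omega) (by omega) h1 h2
  | exact hc 1 3 (by omega) (by omega) h1 h3
  | exact hc 2 3 (by omega) (by omega) h2 h3

/-- The invariant is inherited.  Induction on `l` generalising `Z y y' Y`.
`l = []`: `v ∈ Y ∩ V`, `v' ∈ Y' ∩ V`, `p` = median of `y, y', v`; `p ∈ Y ∩ Z`, and by `tri` on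
`Btw y' p v` with `v'`: `p ∈ Y'` or `p ∈ V` (impossible, `Z` misses `V`); `Z ≠ Y, Y'`; so
`td y y' ≤ L Z y + L Z p ≤ 2.01 L Z y`.
`l = (Y₁,r₁) :: l'`: if `Y = Y₁` translate by `r₁⁻¹` and use induction; if `prod l • Y' = Y₁` use the
case `[]` with `Y₁`.  Otherwise take the four middle vertices of `[y₁, r₁ y₁]` at distances
`⌈5L⌉ + k ⌈2L⌉` (`k = 0..3`, `L = L Y₁ y₁`); by `chain_btw` they lie on `[v, prod l * v']`, hence (two `tri`s)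
each in `Y`, `Z` or `prod l • Y'`, all different from `Y₁`; two lie in the same one, at distance
`≥ 2L > 1.15 L ≥ L Y₁ (·)`, contradicting `piece`. -/
theorem chain_small {V : Set (FreeGroup S)} {Fr : Set 𝒮.M} (hV : Cvx V) (hF : 𝒮.Fresh V Fr)
    (N' : Subgroup (FreeGroup S)) (hN : ∀ Y ∈ Fr, 𝒮.R Y ≤ N')
    (l : List (𝒮.M × FreeGroup S)) (hc : 𝒮.Chain Fr l) {Y Y' Z : 𝒮.M}
    (hY : ∃ v ∈ 𝒮.mem Y, v ∈ V) (hY' : ∃ v ∈ 𝒮.mem Y', v ∈ V)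
    (hZ : ∀ h ∈ N', ∀ v ∈ V, v ∉ 𝒮.mem (𝒮.sm h Z)) {y y' : FreeGroup S}
    (hy : y ∈ 𝒮.mem Y) (hyZ : y ∈ 𝒮.mem Z)
    (hy' : y' ∈ 𝒮.mem (𝒮.sm (l.map Prod.snd).prod Y')) (hy'Z : y' ∈ 𝒮.mem Z) :
    (td y y' : ℝ) ≤ 3 * 𝒮.L Z y := by
  induction l generalizing Z y y' Y with
  | nil =>
    simp only [List.map_nil, List.prod_nil, 𝒮.sm_one] at hy'
    refine 𝒮.w1_small0 hV hY hY' (fun v hv => ?_) hy hyZ hy' hy'Z
    have := hZ 1 N'.one_mem v hv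
    rwa [𝒮.sm_one] at this
  | cons p l ih =>
    obtain ⟨Y₁, r₁⟩ := p
    obtain ⟨hY₁, hr₁, hr₁1⟩ := hc.1 (Y₁, r₁) List.mem_cons_self
    have hZ1 : ∀ v ∈ V, v ∉ 𝒮.mem Z := fun v hv => by
      have := hZ 1 N'.one_mem v hv
      rwa [𝒮.sm_one] at this
    simp only [List.map_cons, List.prod_cons] at hy'
    by_cases h1 : Y = Y₁
    · subst h1
      have := ih (𝒮.w1_tail hc) (Y := Y) (Z := 𝒮.sm r₁⁻¹ Z) (y := r₁⁻¹ * y) (y' := r₁⁻¹ * y') hY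
        (fun h hh v hv => by
          rw [← 𝒮.sm_mul]
          exact hZ _ (N'.mul_mem hh (N'.inv_mem (hN _ hY₁ hr₁))) v hv)
        (𝒮.mul_mem_of_R ((𝒮.R Y).inv_mem hr₁) hy) ((𝒮.mem_sm _ _ _).2 hyZ)
        (by
          have := (𝒮.mem_sm r₁⁻¹ _ _).2 hy'
          rwa [← 𝒮.sm_mul, inv_mul_cancel_left] at this)
        ((𝒮.mem_sm _ _ _).2 hy'Z)
      rwa [td_mul, 𝒮.L_sm] at this
    by_cases h2 : 𝒮.sm (r₁ * (l.map Prod.snd).prod) Y' = Y₁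
    · rw [h2] at hy'
      exact 𝒮.w1_small0 hV hY (hF Y₁ hY₁).1 hZ1 hy hyZ hy' hy'Z
    exfalso
    obtain ⟨v, hv, hvV⟩ := hY
    obtain ⟨v', hv', hv'V⟩ := hY'
    obtain ⟨y₁, hy₁, hy₁V⟩ := (hF Y₁ hY₁).1
    have h3 : Z ≠ Y₁ := fun e => hZ1 y₁ hy₁V (e ▸ hy₁)
    have hL := 𝒮.one_le Y₁ y₁ hy₁
    have hk1 : 5 * 𝒮.L Y₁ y₁ ≤ ⌈5 * 𝒮.L Y₁ y₁⌉₊ := Nat.le_ceil _
    have hk2 : (⌈5 * 𝒮.L Y₁ y₁⌉₊ : ℝ) ≤ 6 * 𝒮.L Y₁ y₁ := by
      have := Nat.ceil_lt_add_one (show 0 ≤ 5 * 𝒮.L Y₁ y₁ by linarith); linarith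
    have hj1 : 2 * 𝒮.L Y₁ y₁ ≤ ⌈2 * 𝒮.L Y₁ y₁⌉₊ := Nat.le_ceil _
    have hj2 : (⌈2 * 𝒮.L Y₁ y₁⌉₊ : ℝ) ≤ 3 * 𝒮.L Y₁ y₁ := by
      have := Nat.ceil_lt_add_one (show 0 ≤ 2 * 𝒮.L Y₁ y₁ by linarith); linarith
    generalize ⌈5 * 𝒮.L Y₁ y₁⌉₊ = k at hk1 hk2
    generalize ⌈2 * 𝒮.L Y₁ y₁⌉₊ = j at hj1 hj2
    have hle : ∀ i : ℕ, i ≤ 3 → ((k + i * j : ℕ) : ℝ) ≤ 15 * 𝒮.L Y₁ y₁ := by
      intro i hi
      have : (i : ℝ) ≤ 3 := by exact_mod_cast hi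
      have h0 : (0 : ℝ) ≤ j := Nat.cast_nonneg _
      push_cast
      nlinarith
    have hex : ∀ i : ℕ, ∃ z, i ≤ 3 → 𝒮.Mid Y₁ y₁ r₁ z ∧ td y₁ z = k + i * j := by
      intro i
      by_cases hi : i ≤ 3
      · obtain ⟨z, hz⟩ := 𝒮.w1_mid hr₁ hr₁1 hy₁ (k + i * j) (by
          have : (0 : ℝ) ≤ i * j := by positivity
          push_cast; linarith) (by have := hle i hi; linarith)
        exact ⟨z, fun _ => hz⟩
      · exact ⟨1, fun h => absurd h hi⟩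
    choose z hz using hex
    have hno : ∀ W : 𝒮.M, W ≠ Y₁ → ∀ i i', i < i' → i' ≤ 3 → z i ∈ 𝒮.mem W → z i' ∈ 𝒮.mem W →
        False := by
      intro W hW i i' hii hi' a1 a2
      obtain ⟨b1, b2⟩ := hz i (by omega)
      obtain ⟨c1, c2⟩ := hz i' hi'
      have m1 := 𝒮.w1_mid_mem hr₁ hy₁ b1
      have m2 := 𝒮.w1_mid_mem hr₁ hy₁ c1
      have hmul : i * j + j ≤ i' * j := by nlinarith
      have d1 : Btw y₁ (z i) (z i') := b1.1.order c1.1 (by omega)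
      have d2 : j ≤ td (z i) (z i') := by unfold Btw at d1; omega
      have d3 : (j : ℝ) ≤ td (z i) (z i') := by exact_mod_cast d2
      have d4 := 𝒮.piece Y₁ W _ _ hW.symm m1 m2 a1 a2
      have d5 := 𝒮.lip Y₁ y₁ _ hy₁ m1
      rw [b2] at d5
      have d6 := hle i (by omega)
      linarith
    refine w1_pig (a := fun i => z i ∈ 𝒮.mem Y) (b := fun i => z i ∈ 𝒮.mem Z)
      (c := fun i => z i ∈ 𝒮.mem (𝒮.sm (r₁ * (l.map Prod.snd).prod) Y')) (fun i hi => ?_)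
      (hno Y h1) (hno Z h3) (hno _ h2)
    have e1 := 𝒮.chain_btw hV hF l hc hy₁ hy₁V (hz i hi).1 hvV hv'V
    rcases e1.tri y with e2 | e2
    · exact Or.inl (𝒮.convex _ _ _ _ hv hy e2)
    · rcases e2.tri y' with e3 | e3
      · exact Or.inr (Or.inr (𝒮.convex _ _ _ _ ((𝒮.mem_sm _ _ _).2 hv') hy' e3))
      · exact Or.inr (Or.inl (𝒮.convex _ _ _ _ hyZ hy'Z e3))

end SC
end Crest.Agent.R129
end

-- ▼ part PVb/R129/Wind2

/-! # The Greendlinger lemma (task R129/Wind2). Statements frozen. -/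

set_option autoImplicit false

namespace Crest.Agent.R129
namespace SC
variable {S : Type} [DecidableEq S] (𝒮 : SC S)

/-- members meeting `W` -/
def w2New (W : Set (FreeGroup S)) : Set 𝒮.M := {Y | ∃ y ∈ 𝒮.mem Y, y ∈ W}

/-- the next group -/
def w2N (W : Set (FreeGroup S)) (N : Subgroup (FreeGroup S)) : Subgroup (FreeGroup S) :=
  Subgroup.closure {g | g ∈ N ∨ ∃ Y ∈ 𝒮.w2New W, g ∈ 𝒮.R Y}

/-- the next family -/
def w2Phi (W : Set (FreeGroup S)) (N : Subgroup (FreeGroup S)) : Set 𝒮.M :=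
  {Z | ∃ h ∈ 𝒮.w2N W N, ∃ Y ∈ 𝒮.w2New W, Z = 𝒮.sm h Y}

/-- the next windmill -/
def w2W (W : Set (FreeGroup S)) (N : Subgroup (FreeGroup S)) : Set (FreeGroup S) :=
  {w | ∃ Z ∈ 𝒮.w2Phi W N, w ∈ 𝒮.mem Z}

/-- the invariants -/
structure W2Inv (x : FreeGroup S) (W : Set (FreeGroup S)) (N : Subgroup (FreeGroup S))
    (Φ : Set 𝒮.M) : Prop where
  x_mem : x ∈ W
  cvx : Cvx W
  W_inv : ∀ h ∈ N, ∀ w ∈ W, h * w ∈ W
  Φ_inv : ∀ h ∈ N, ∀ Y ∈ Φ, 𝒮.sm h Y ∈ Φ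
  R_le : ∀ Y ∈ Φ, 𝒮.R Y ≤ N
  small : ∀ Z, Z ∉ Φ → ∀ y y', y ∈ 𝒮.mem Z → y ∈ W → y' ∈ 𝒮.mem Z → y' ∈ W →
    (td y y' : ℝ) ≤ 3 * 𝒮.L Z y
  lg : ∀ h ∈ N, h ≠ 1 → 𝒮.LGat x (h * x)

theorem w2_le (W : Set (FreeGroup S)) (N : Subgroup (FreeGroup S)) : N ≤ 𝒮.w2N W N :=
  fun _ hg => Subgroup.subset_closure (Or.inl hg)

theorem w2_R_le {W : Set (FreeGroup S)} (N : Subgroup (FreeGroup S)) {Y : 𝒮.M}
    (hY : Y ∈ 𝒮.w2New W) : 𝒮.R Y ≤ 𝒮.w2N W N :=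
  fun _ hg => Subgroup.subset_closure (Or.inr ⟨Y, hY, hg⟩)

theorem w2_ind {W : Set (FreeGroup S)} {N : Subgroup (FreeGroup S)} {p : FreeGroup S → Prop}
    (h1 : p 1) (hN : ∀ g ∈ N, ∀ y, p y → p (g * y))
    (hR : ∀ Y ∈ 𝒮.w2New W, ∀ r ∈ 𝒮.R Y, ∀ y, p y → p (r * y)) {h : FreeGroup S}
    (hh : h ∈ 𝒮.w2N W N) : p h := by
  refine Subgroup.closure_induction_left (p := fun g _ => p g) h1 ?_ ?_ hh
  · rintro g (hg | ⟨Y, hY, hg⟩) y _ hy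
    · exact hN g hg y hy
    · exact hR Y hY g hg y hy
  · rintro g (hg | ⟨Y, hY, hg⟩) y _ hy
    · exact hN _ (N.inv_mem hg) y hy
    · exact hR Y hY _ ((𝒮.R Y).inv_mem hg) y hy

theorem w2_mem_W {W : Set (FreeGroup S)} (N : Subgroup (FreeGroup S)) {Y : 𝒮.M}
    (hY : Y ∈ 𝒮.w2New W) {y : FreeGroup S} (hy : y ∈ 𝒮.mem Y) : y ∈ 𝒮.w2W W N :=
  ⟨Y, ⟨1, Subgroup.one_mem _, Y, hY, (𝒮.sm_one Y).symm⟩, hy⟩

theorem w2_Phi_inv {W : Set (FreeGroup S)} {N : Subgroup (FreeGroup S)} {h : FreeGroup S}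
    (hh : h ∈ 𝒮.w2N W N) {Z : 𝒮.M} (hZ : Z ∈ 𝒮.w2Phi W N) : 𝒮.sm h Z ∈ 𝒮.w2Phi W N := by
  obtain ⟨h', hh', Y, hY, rfl⟩ := hZ
  exact ⟨h * h', Subgroup.mul_mem _ hh hh', Y, hY, (𝒮.sm_mul _ _ _).symm⟩

theorem w2_W_inv {W : Set (FreeGroup S)} {N : Subgroup (FreeGroup S)} {h : FreeGroup S}
    (hh : h ∈ 𝒮.w2N W N) {w : FreeGroup S} (hw : w ∈ 𝒮.w2W W N) : h * w ∈ 𝒮.w2W W N := by
  obtain ⟨Z, hZ, hw⟩ := hw
  exact ⟨_, 𝒮.w2_Phi_inv hh hZ, (𝒮.mem_sm _ _ _).2 hw⟩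

theorem w2_W_inv' {W : Set (FreeGroup S)} {N : Subgroup (FreeGroup S)} {h : FreeGroup S}
    (hh : h ∈ 𝒮.w2N W N) {w : FreeGroup S} (hw : h⁻¹ * w ∈ 𝒮.w2W W N) : w ∈ 𝒮.w2W W N := by
  have := 𝒮.w2_W_inv hh hw
  rwa [mul_inv_cancel_left] at this

variable {𝒮} in
theorem W2Inv.new_inv {x : FreeGroup S} {W : Set (FreeGroup S)} {N : Subgroup (FreeGroup S)}
    {Φ : Set 𝒮.M} (I : 𝒮.W2Inv x W N Φ) {g : FreeGroup S} (hg : g ∈ N) {Y : 𝒮.M}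
    (hY : Y ∈ 𝒮.w2New W) : 𝒮.sm g Y ∈ 𝒮.w2New W := by
  obtain ⟨y, hy, hyW⟩ := hY
  exact ⟨g * y, (𝒮.mem_sm _ _ _).2 hy, I.W_inv g hg y hyW⟩

variable {𝒮} in
theorem W2Inv.decomp {x : FreeGroup S} {W : Set (FreeGroup S)} {N : Subgroup (FreeGroup S)}
    {Φ : Set 𝒮.M} (I : 𝒮.W2Inv x W N Φ) {h : FreeGroup S} (hh : h ∈ 𝒮.w2N W N) :
    ∃ l g, 𝒮.Chain (𝒮.w2New W \ Φ) l ∧ g ∈ N ∧ h = (l.map Prod.snd).prod * g := by
  have hN : ∀ g ∈ N, ∀ y, (∃ l g, 𝒮.Chain (𝒮.w2New W \ Φ) l ∧ g ∈ N ∧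
      y = (l.map Prod.snd).prod * g) → ∃ l g', 𝒮.Chain (𝒮.w2New W \ Φ) l ∧ g' ∈ N ∧
      g * y = (l.map Prod.snd).prod * g' := by
    rintro g hg y ⟨l, g', hl, hg', rfl⟩
    refine ⟨l.map fun p => (𝒮.sm g p.1, g * p.2 * g⁻¹), g * g', ⟨?_, ?_⟩, N.mul_mem hg hg', ?_⟩
    · intro p hp
      obtain ⟨q, hq, rfl⟩ := List.mem_map.1 hp
      obtain ⟨h1, h2, h3⟩ := hl.1 q hq
      refine ⟨⟨I.new_inv hg h1.1, fun hΦ => h1.2 ?_⟩, 𝒮.R_sm _ _ _ h2, fun e => h3 ?_⟩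
      · have := I.Φ_inv _ (N.inv_mem hg) _ hΦ
        rwa [𝒮.sm_inv_sm] at this
      · simpa using e
    · rw [List.isChain_map]
      refine hl.2.imp fun p q hpq e => hpq ?_
      have := congrArg (𝒮.sm g⁻¹) e
      rwa [𝒮.sm_inv_sm, 𝒮.sm_inv_sm] at this
    · have : ∀ l : List (𝒮.M × FreeGroup S),
          ((l.map fun p => (𝒮.sm g p.1, g * p.2 * g⁻¹)).map Prod.snd).prod =
            g * (l.map Prod.snd).prod * g⁻¹ := by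
        intro l
        induction l with
        | nil => simp
        | cons p l ih =>
          simp only [List.map_cons, List.prod_cons, ih]
          group
      rw [this]
      group
  refine 𝒮.w2_ind (p := fun y => ∃ l g, 𝒮.Chain (𝒮.w2New W \ Φ) l ∧ g ∈ N ∧
      y = (l.map Prod.snd).prod * g) ⟨[], 1, ⟨by simp, List.isChain_nil⟩, N.one_mem, by simp⟩
      hN ?_ hh
  intro Y hY r hr y hy
  by_cases hΦ : Y ∈ Φ
  · exact hN r (I.R_le Y hΦ hr) y hy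
  by_cases hr1 : r = 1
  · rw [hr1, one_mul]; exact hy
  obtain ⟨l, g, hl, hg, rfl⟩ := hy
  cases l with
  | nil =>
    refine ⟨[(Y, r)], g, ⟨fun p hp => ?_, List.isChain_singleton _⟩, hg, by simp⟩
    rw [List.mem_singleton.1 hp]
    exact ⟨⟨hY, hΦ⟩, hr, hr1⟩
  | cons q l =>
    obtain ⟨Y₁, r₁⟩ := q
    by_cases hYY : Y = Y₁
    · subst hYY
      by_cases h1 : r * r₁ = 1
      · refine ⟨l, g, 𝒮.w1_tail hl, hg, ?_⟩
        simp only [List.map_cons, List.prod_cons]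
        rw [← mul_assoc, ← mul_assoc, h1, one_mul]
      · refine ⟨(Y, r * r₁) :: l, g, ⟨fun p hp => ?_, ?_⟩, hg, ?_⟩
        · rcases List.mem_cons.1 hp with rfl | hp
          · exact ⟨⟨hY, hΦ⟩, (𝒮.R Y).mul_mem hr (hl.1 (Y, r₁) List.mem_cons_self).2.1, h1⟩
          · exact hl.1 p (List.mem_cons_of_mem _ hp)
        · have := hl.2
          rw [List.isChain_cons] at this ⊢
          exact this
        · simp only [List.map_cons, List.prod_cons, mul_assoc]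
    · refine ⟨(Y, r) :: (Y₁, r₁) :: l, g, ⟨fun p hp => ?_, ?_⟩, hg, ?_⟩
      · rcases List.mem_cons.1 hp with rfl | hp
        · exact ⟨⟨hY, hΦ⟩, hr, hr1⟩
        · exact hl.1 p hp
      · exact List.isChain_cons_cons.2 ⟨hYY, hl.2⟩
      · simp only [List.map_cons, List.prod_cons, mul_assoc]

variable {𝒮} in
theorem W2Inv.step (hall : ∀ w : FreeGroup S, ∃ Y, w ∈ 𝒮.mem Y) {x : FreeGroup S}
    {W : Set (FreeGroup S)} {N : Subgroup (FreeGroup S)} {Φ : Set 𝒮.M} (I : 𝒮.W2Inv x W N Φ) :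
    𝒮.W2Inv x (𝒮.w2W W N) (𝒮.w2N W N) (𝒮.w2Phi W N) := by
  have hWW : ∀ w ∈ W, w ∈ 𝒮.w2W W N := fun w hw => by
    obtain ⟨Y, hY⟩ := hall w
    exact 𝒮.w2_mem_W N ⟨w, hY, hw⟩ hY
  have hF : 𝒮.Fresh W (𝒮.w2New W \ Φ) := fun Y hY => ⟨hY.1, I.small Y hY.2⟩
  have hU : ∀ Y ∈ 𝒮.w2New W, ∀ Y' ∈ 𝒮.w2New W, ∀ u ∈ 𝒮.mem Y, ∀ u' ∈ 𝒮.mem Y', ∀ z,
      Btw u z u' → z ∈ 𝒮.w2W W N := by
    intro Y hY Y' hY' u hu u' hu' z hz
    obtain ⟨v, hv, hvW⟩ := id hY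
    obtain ⟨v', hv', hv'W⟩ := id hY'
    rcases hz.tri v with h | h
    · exact 𝒮.w2_mem_W N hY (𝒮.convex _ _ _ _ hu hv h)
    · rcases h.tri v' with h' | h'
      · exact 𝒮.w2_mem_W N hY' (𝒮.convex _ _ _ _ hu' hv' h')
      · exact hWW z (I.cvx _ _ _ hvW hv'W h')
  have hU2 : ∀ h ∈ 𝒮.w2N W N, ∀ Y ∈ 𝒮.w2New W, ∀ Y' ∈ 𝒮.w2New W, ∀ u ∈ 𝒮.mem Y,
      ∀ u' ∈ 𝒮.mem Y', ∀ z, Btw u z (h * u') → z ∈ 𝒮.w2W W N := by
    intro h hh
    refine 𝒮.w2_ind (p := fun h => ∀ Y ∈ 𝒮.w2New W, ∀ Y' ∈ 𝒮.w2New W, ∀ u ∈ 𝒮.mem Y,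
      ∀ u' ∈ 𝒮.mem Y', ∀ z, Btw u z (h * u') → z ∈ 𝒮.w2W W N) ?_ ?_ ?_ hh
    · simpa only [one_mul] using hU
    · intro g hg y ih Y hY Y' hY' u hu u' hu' z hz
      refine 𝒮.w2_W_inv' (𝒮.w2_le W N hg) (ih _ (I.new_inv (N.inv_mem hg) hY) Y' hY' _
        ((𝒮.mem_sm g⁻¹ _ _).2 hu) u' hu' _ ?_)
      rw [← btw_mul g, mul_inv_cancel_left, mul_inv_cancel_left, ← mul_assoc]
      exact hz
    · intro Y₀ hY₀ r hr y ih Y hY Y' hY' u hu u' hu' z hz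
      obtain ⟨y₀, hy₀⟩ := 𝒮.ne Y₀
      rcases hz.tri (r * y₀) with h1 | h1
      · exact hU Y hY Y₀ hY₀ u hu _ (𝒮.mul_mem_of_R hr hy₀) z h1
      · refine 𝒮.w2_W_inv' (𝒮.w2_R_le N hY₀ hr) (ih Y₀ hY₀ Y' hY' y₀ hy₀ u' hu' _ ?_)
        rw [← btw_mul r, mul_inv_cancel_left, ← mul_assoc]
        exact h1.symm
  have hback : ∀ (h : FreeGroup S) (Y : 𝒮.M) (w : FreeGroup S), w ∈ 𝒮.mem (𝒮.sm h Y) →
      h⁻¹ * w ∈ 𝒮.mem Y := fun h Y w hw => by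
    have := (𝒮.mem_sm h⁻¹ _ _).2 hw
    rwa [𝒮.sm_inv_sm] at this
  refine ⟨hWW x I.x_mem, ?_, fun h hh w hw => 𝒮.w2_W_inv hh hw,
    fun h hh Z hZ => 𝒮.w2_Phi_inv hh hZ, ?_, ?_, ?_⟩
  · rintro w w' z ⟨_, ⟨h, hh, Y, hY, rfl⟩, hw⟩ ⟨_, ⟨h', hh', Y', hY', rfl⟩, hw'⟩ hz
    refine 𝒮.w2_W_inv' hh (hU2 (h⁻¹ * h') (Subgroup.mul_mem _ (Subgroup.inv_mem _ hh) hh')
      Y hY Y' hY' _ (hback _ _ _ hw) _ (hback _ _ _ hw') _ ?_)
    rw [mul_assoc, mul_inv_cancel_left, btw_mul]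
    exact hz
  · rintro _ ⟨h, hh, Y, hY, rfl⟩ r hr
    have h1 := 𝒮.R_sm h⁻¹ _ _ hr
    rw [𝒮.sm_inv_sm] at h1
    have h2 := Subgroup.mul_mem _ (Subgroup.mul_mem _ hh (𝒮.w2_R_le N hY h1))
      (Subgroup.inv_mem _ hh)
    have e : h * (h⁻¹ * r * h⁻¹⁻¹) * h⁻¹ = r := by group
    rwa [e] at h2
  · rintro Z hZ y y' hy ⟨_, ⟨h, hh, Y, hY, rfl⟩, hw⟩ hy' ⟨_, ⟨h', hh', Y', hY', rfl⟩, hw'⟩
    obtain ⟨l, g, hl, hg, e⟩ := I.decomp (Subgroup.mul_mem _ (Subgroup.inv_mem _ hh) hh')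
    have := 𝒮.chain_small I.cvx hF (𝒮.w2N W N) (fun Y hY => 𝒮.w2_R_le N hY.1) l hl
      (Y := Y) (Y' := 𝒮.sm g Y') (Z := 𝒮.sm h⁻¹ Z) hY (I.new_inv hg hY') (fun k hk v hv hv' => by
        refine hZ ⟨h * k⁻¹, Subgroup.mul_mem _ hh (Subgroup.inv_mem _ hk), _, ⟨v, hv', hv⟩, ?_⟩
        rw [← 𝒮.sm_mul, ← 𝒮.sm_mul]
        have : h * k⁻¹ * k * h⁻¹ = 1 := by group
        rw [this, 𝒮.sm_one]) (y := h⁻¹ * y) (y' := h⁻¹ * y') (hback _ _ _ hw)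
      ((𝒮.mem_sm _ _ _).2 hy) (by
        rw [← 𝒮.sm_mul, ← e, 𝒮.sm_mul]
        exact (𝒮.mem_sm _ _ _).2 hw') ((𝒮.mem_sm _ _ _).2 hy')
    rwa [td_mul, 𝒮.L_sm] at this
  · intro h hh h1
    obtain ⟨l, g, hl, hg, rfl⟩ := I.decomp hh
    by_cases hl0 : l = []
    · subst hl0
      simp only [List.map_nil, List.prod_nil, one_mul] at h1 ⊢
      exact I.lg g hg h1
    · rw [mul_assoc]
      exact 𝒮.chain_LG I.cvx hF hl hl0 I.x_mem (I.W_inv g hg x I.x_mem)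

/-- the stages -/
def w2Stage (x : FreeGroup S) : ℕ → Set (FreeGroup S) × Subgroup (FreeGroup S) × Set 𝒮.M
  | 0 => ({x}, ⊥, ∅)
  | k + 1 => (𝒮.w2W (w2Stage x k).1 (w2Stage x k).2.1, 𝒮.w2N (w2Stage x k).1 (w2Stage x k).2.1,
      𝒮.w2Phi (w2Stage x k).1 (w2Stage x k).2.1)

/-- Windmill induction.  (If `S` is empty then `h = 1`; so assume `Nonempty S`.)  Fix `x`.  `W 0 = {x}`, `N 0 = ⊥`, `Φ 0 = ∅`;
`New k = {Y | Y meets W k}`, `N (k+1) = ⨆ Y ∈ New k, R Y`, `Φ (k+1) = {h • Y | h ∈ N (k+1), Y ∈ New k}`,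
`W (k+1) = ⋃ Y ∈ Φ (k+1), mem Y` (define the triple by one recursion).  Invariants: `x ∈ W k`, `W k` convex
and `N k`-invariant, `Φ k` `N k`-invariant, `Φ k ⊆ New k`, `N k ≤ N (k+1)`, `R Y ≤ N k` for `Y ∈ Φ k`, `W k ⊆ W (k+1)`
(every vertex lies in a member by `hcov`),
(P) `Z ∉ Φ k →` `Z ∩ W k` has diameter `≤ 3 L Z y`, (LG) `h ∈ N k`, `h ≠ 1 → LGat x (h x)`.
Step: `Fr = New k \ Φ k` is `Fresh` and `N k`-invariant, so every `h ∈ N (k+1)` is `prod l * g` with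
`Chain Fr l`, `g ∈ N k` (closure induction on left multiplication by `r ∈ R Y`: if `Y ∈ Φ k` move `r`
through `l` by conjugation; otherwise cons / merge with the head / delete the head).  (LG) from `chain_LG` with
`v' = g x`; (P) from `chain_small` after translating by `h⁻¹`.  Convexity of `W (k+1)`: the union of two convex
sets with a common point is convex (`tri`); `U = ⋃ New k` is convex, `r U ∩ U ≠ ∅`; induct on `h`.
Exhaustion: the ball of radius `k` around `x` lies in `W k`, so each `R Y ≤ N k` for some `k`, and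
the `N k` form a chain. -/
theorem LG_of_cover (hcov : ∀ (x : FreeGroup S) (σ : S × Bool), ∃ Y, x ∈ 𝒮.mem Y ∧ x * sg σ ∈ 𝒮.mem Y)
    {h : FreeGroup S} (hh : h ∈ 𝒮.N) (h1 : h ≠ 1) (x : FreeGroup S) : 𝒮.LGat x (h * x) := by
  rcases isEmpty_or_nonempty S with hS | ⟨⟨s₀⟩⟩
  · exfalso
    refine h1 (FreeGroup.toWord_eq_nil_iff.1 ?_)
    cases h.toWord with
    | nil => rfl
    | cons a _ => exact hS.elim a.1
  have hall : ∀ w : FreeGroup S, ∃ Y, w ∈ 𝒮.mem Y := fun w => by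
    obtain ⟨Y, hY, -⟩ := hcov w (s₀, true)
    exact ⟨Y, hY⟩
  have hI : ∀ k, 𝒮.W2Inv x (𝒮.w2Stage x k).1 (𝒮.w2Stage x k).2.1 (𝒮.w2Stage x k).2.2 := by
    intro k
    induction k with
    | zero =>
      refine ⟨rfl, ?_, ?_, fun _ _ _ hY => hY.elim, fun _ hY => hY.elim, ?_, ?_⟩
      · intro a b z ha hb hz
        have ha' : a = x := ha
        have hb' : b = x := hb
        subst ha' hb'
        unfold Btw at hz
        rw [td_self] at hz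
        exact (td_eq_zero.1 (by omega : td b z = 0)).symm
      · intro g hg w hw
        have hg' : g = 1 := Subgroup.mem_bot.1 hg
        rw [hg', one_mul]; exact hw
      · intro Z _ y y' hy hyx _ hy'x
        have ha' : y = x := hyx
        have hb' : y' = x := hy'x
        have := 𝒮.one_le Z y hy
        rw [hb', ← ha', td_self]
        push_cast
        linarith
      · intro g hg hg1
        exact absurd (Subgroup.mem_bot.1 hg) hg1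
    | succ k ih => exact ih.step hall
  have hball : ∀ k w, td x w ≤ k → w ∈ (𝒮.w2Stage x k).1 := by
    intro k
    induction k with
    | zero => intro w hw; exact (td_eq_zero.1 (by omega : td x w = 0)).symm
    | succ k ih =>
      intro w hw
      by_cases h0 : td x w = 0
      · rw [← td_eq_zero.1 h0]; exact (hI (k + 1)).x_mem
      · obtain ⟨z, hz, hzk⟩ := exists_btw x w (k := td x w - 1) (by omega)
        obtain ⟨σ, rfl⟩ := exists_sg_of_td (x := z) (y := w) (by unfold Btw at hz; omega)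
        obtain ⟨Y, hY, hY'⟩ := hcov z σ
        exact 𝒮.w2_mem_W _ ⟨z, hY, ih z (by omega)⟩ hY'
  have hmono : Monotone fun k => (𝒮.w2Stage x k).2.1 :=
    monotone_nat_of_le_succ fun k => 𝒮.w2_le _ _
  obtain ⟨k, hk⟩ : ∃ k, h ∈ (𝒮.w2Stage x k).2.1 := by
    refine Subgroup.iSup_induction 𝒮.R (C := fun h => ∃ k, h ∈ (𝒮.w2Stage x k).2.1) hh ?_ ?_ ?_
    · intro Y r hr
      obtain ⟨y, hy⟩ := 𝒮.ne Y
      exact ⟨td x y + 1, 𝒮.w2_R_le _ ⟨y, hy, hball _ y le_rfl⟩ hr⟩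
    · exact ⟨0, Subgroup.one_mem _⟩
    · rintro a b ⟨k, hk⟩ ⟨k', hk'⟩
      exact ⟨max k k', Subgroup.mul_mem _ (hmono (le_max_left _ _) hk)
        (hmono (le_max_right _ _) hk')⟩
  exact (hI k).lg h hk h1

theorem w2_td_edge {x a b : FreeGroup S} {s : S} (ha : a ∈ ({x, x * FreeGroup.of s} : Set _))
    (hb : b ∈ ({x, x * FreeGroup.of s} : Set _)) : td a b ≤ 1 := by
  have h1 : td x (x * FreeGroup.of s) = 1 := td_sg x (s, true)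
  rcases ha with rfl | rfl <;> rcases hb with rfl | rfl
  · rw [td_self]; omega
  · omega
  · rw [td_comm]; omega
  · rw [td_self]; omega

/-- the data with the edges added -/
def w2Ext : SC S where
  M := 𝒮.M ⊕ (FreeGroup S × S)
  sm g := Sum.map (𝒮.sm g) fun p => (g * p.1, p.2)
  sm_one := by
    rintro (m | p)
    · simp [𝒮.sm_one]
    · simp
  sm_mul := by
    rintro g h (m | p)
    · simp [𝒮.sm_mul]
    · simp [mul_assoc]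
  mem := Sum.elim 𝒮.mem fun p => {p.1, p.1 * FreeGroup.of p.2}
  R := Sum.elim 𝒮.R fun _ => ⊥
  L := Sum.elim 𝒮.L fun _ _ => 1
  ne := by
    rintro (m | p)
    · exact 𝒮.ne m
    · exact ⟨p.1, Or.inl rfl⟩
  mem_sm := by
    rintro g (m | p) y
    · exact 𝒮.mem_sm g m y
    · simp [mul_assoc]
  convex := by
    rintro (m | p) x y z hx hy hz
    · exact 𝒮.convex m x y z hx hy hz
    · have := w2_td_edge hx hy
      unfold Btw at hz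
      by_cases h0 : td x z = 0
      · rw [← td_eq_zero.1 h0]; exact hx
      · rw [td_eq_zero.1 (by omega : td z y = 0)]; exact hy
  R_sm := by
    rintro g (m | p) r hr
    · exact 𝒮.R_sm g m r hr
    · have : r = 1 := Subgroup.mem_bot.1 hr
      rw [this, mul_one, mul_inv_cancel]
      exact Subgroup.one_mem _
  R_fix := by
    rintro (m | p) r hr
    · exact congrArg Sum.inl (𝒮.R_fix m r hr)
    · have : r = 1 := Subgroup.mem_bot.1 hr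
      simp [this]
  L_sm := by
    rintro g (m | p) y
    · exact 𝒮.L_sm g m y
    · rfl
  one_le := by
    rintro (m | p) y hy
    · exact 𝒮.one_le m y hy
    · exact le_rfl
  lip := by
    rintro (m | p) x y hx hy
    · exact 𝒮.lip m x y hx hy
    · change (1 : ℝ) ≤ 1 + td x y / 100
      have : (0 : ℝ) ≤ td x y / 100 := by positivity
      linarith
  piece := by
    rintro (m | p) (m' | p') x y hne hx hy hx' hy'
    · exact 𝒮.piece m m' x y (fun e => hne (congrArg Sum.inl e)) hx hy hx' hy'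
    · have h1 : (td x y : ℝ) ≤ 1 := by exact_mod_cast w2_td_edge hx' hy'
      exact h1.trans (𝒮.one_le m x hx)
    · change (td x y : ℝ) ≤ 1
      exact_mod_cast w2_td_edge hx hy
    · change (td x y : ℝ) ≤ 1
      exact_mod_cast w2_td_edge hx hy
  girth := by
    rintro (m | p) r y hr hr1 hy
    · exact 𝒮.girth m r y hr hr1 hy
    · exact absurd (Subgroup.mem_bot.1 hr) hr1

/-- Add the edges `{x, x * of s}` as members (`M ⊕ (FreeGroup S × S)`, `R = ⊥`, `L = 1`) and apply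
`LG_of_cover`; the member found has a nontrivial rotation, so it is an old one. -/
theorem LG {h : FreeGroup S} (hh : h ∈ 𝒮.N) (h1 : h ≠ 1) (x : FreeGroup S) : 𝒮.LGat x (h * x) := by
  have hle : 𝒮.N ≤ 𝒮.w2Ext.N := iSup_le fun m => 𝒮.w2Ext.R_le_N (Sum.inl m)
  obtain ⟨Y, r, a, b, h2, h3, h4, h5, h6, h7, h8⟩ := 𝒮.w2Ext.LG_of_cover (by
    rintro x ⟨s, _ | _⟩
    · refine ⟨Sum.inr (x * (FreeGroup.of s)⁻¹, s), Or.inr ?_, Or.inl rfl⟩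
      simp
    · exact ⟨Sum.inr (x, s), Or.inl rfl, Or.inr rfl⟩) (hle hh) h1 x
  rcases Y with Y | p
  · exact ⟨Y, r, a, b, h2, h3, h4, h5, h6, h7, h8⟩
  · exact absurd (Subgroup.mem_bot.1 h2) h3

end SC
end Crest.Agent.R129
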